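import Vale.Agent.P310.MathlibUsed

/-!
Definitions used by the statement of the P310 result: Weisfeiler-Leman refinement and
deterministic multitape Turing machines.
-/

namespace Vale.Agent.P310

/-- The type of colors of `k`-tuples after `r` rounds. A round-`0` color is an atomic type. -/
def Color (k : ℕ) : ℕ → Type
  | 0 => (Fin k → Fin k → Prop) × (Fin k → Fin k → Prop)
  | r + 1 => Color k r × Multiset (Fin k → Color k r)

/-- The color `C_r(x)` of a `k`-tuple of vertices of `G`. -/
noncomputable def color {V : Type} [Fintype V] (G : SimpleGraph V) (k : ℕ) :
    (r : ℕ) → (Fin k → V) → Color k r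
  | 0, x => (fun i j => x i = x j, fun i j => G.Adj (x i) (x j))
  | r + 1, x => (color G k r x,
      (Finset.univ : Finset V).val.map (fun y i => color G k r (Function.update x i y)))

/-- `k`-WL equivalence of two graphs. -/
def WLEquiv (k : ℕ) {V W : Type} [Fintype V] [Fintype W]
    (G : SimpleGraph V) (H : SimpleGraph W) : Prop :=
  ∀ r : ℕ, (Finset.univ : Finset (Fin k → V)).val.map (color G k r) =
    (Finset.univ : Finset (Fin k → W)).val.map (color H k r)

/-- The bits of the adjacency matrix of `G`, row by row. -/
noncomputable def matrixBits {n : ℕ} (G : SimpleGraph (Fin n)) : List Bool :=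
  List.ofFn fun x : Fin (n * n) => @decide (G.Adj x.divNat x.modNat) (Classical.dec _)

/-- The input word for a pair of graphs. -/
noncomputable def inputWord {n : ℕ} (G H : SimpleGraph (Fin n)) : List Bool :=
  matrixBits G ++ matrixBits H

/-- Head movements. -/
inductive Move
  | left | stay | right

/-- The displacement of a head movement. -/
def Move.disp : Move → ℤ
  | .left => -1
  | .stay => 0
  | .right => 1

/-- Deterministic Turing machines with `aux + 1` two-way infinite tapes; tape `0` carries the
input. `δ q s = none` means that the machine halts in state `q` when it scans `s`. -/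
structure TM where
  aux : ℕ
  Sym : Type
  State : Type
  symFin : Fintype Sym
  stateFin : Fintype State
  blank : Sym
  bit : Bool → Sym
  start : State
  accept : State → Prop
  δ : State → (Fin (aux + 1) → Sym) → Option (State × (Fin (aux + 1) → Sym × Move))

namespace TM

/-- Configurations. -/
structure Cfg (M : TM) where
  state : M.State
  head : Fin (M.aux + 1) → ℤ
  tape : Fin (M.aux + 1) → ℤ → M.Sym

/-- One step; `none` if the machine has halted. -/
def step (M : TM) (c : M.Cfg) : Option M.Cfg :=
  (M.δ c.state (fun j => c.tape j (c.head j))).map fun a =>
    { state := a.1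
      head := fun j => c.head j + (a.2 j).2.disp
      tape := fun j => Function.update (c.tape j) (c.head j) (a.2 j).1 }

/-- The initial configuration on an input word: the word is written on cells `0, 1, ...` of
tape `0`, all other cells are blank, all heads are at cell `0`. -/
def init (M : TM) (w : List Bool) : M.Cfg where
  state := M.start
  head := fun _ => 0
  tape := fun j x =>
    if j = 0 ∧ 0 ≤ x then (w[x.toNat]?).elim M.blank M.bit else M.blank

/-- `M.After w t c`: the machine on input word `w` makes (at least) `t` steps, and its
configuration after `t` steps is `c`. -/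
inductive After (M : TM) (w : List Bool) : ℕ → M.Cfg → Prop
  | zero : After M w 0 (M.init w)
  | succ {t : ℕ} {c c' : M.Cfg} : After M w t c → M.step c = some c' → After M w (t + 1) c'

/-- `M` decides `k`-WL equivalence in time `T`: on every pair of graphs with `n` vertices each,
given by their adjacency matrices, it halts after at most `T n` steps, in an accepting state
if and only if the graphs are `k`-WL equivalent. -/
def DecidesWL (M : TM) (k : ℕ) (T : ℕ → ℕ) : Prop :=
  ∀ (n : ℕ) (G H : SimpleGraph (Fin n)), ∃ t ≤ T n, ∃ c : M.Cfg,
    M.After (inputWord G H) t c ∧ M.step c = none ∧ (M.accept c.state ↔ WLEquiv k G H)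

end TM

end Vale.Agent.P310
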