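import Vale.Agent.P310.Defs

/-!
Back-and-forth lemmas for Weisfeiler-Leman equivalence.
-/

namespace Vale.Agent.P310

open Finset

variable {V W : Type} [Fintype V] [Fintype W] {k : ℕ}
  {G : SimpleGraph V} {H : SimpleGraph W}

/-- Equal colors in all rounds. -/
def Same (k : ℕ) (G : SimpleGraph V) (H : SimpleGraph W) (x : Fin k → V) (y : Fin k → W) : Prop :=
  ∀ r, color G k r x = color H k r y

theorem Same.eq_iff {x : Fin k → V} {y : Fin k → W} (h : Same k G H x y) (i j : Fin k) :
    x i = x j ↔ y i = y j := by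
  have h0 := congrArg Prod.fst (h 0)
  exact iff_of_eq (congrFun (congrFun h0 i) j)

theorem Same.adj_iff {x : Fin k → V} {y : Fin k → W} (h : Same k G H x y) (i j : Fin k) :
    G.Adj (x i) (x j) ↔ H.Adj (y i) (y j) := by
  have h0 := congrArg Prod.snd (h 0)
  exact iff_of_eq (congrFun (congrFun h0 i) j)

theorem exists_equiv_of_map_eq {α β γ : Type} [Fintype α] [Fintype β] {f : α → γ} {g : β → γ}
    (h : (univ : Finset α).val.map f = (univ : Finset β).val.map g) :
    ∃ e : α ≃ β, ∀ a, f a = g (e a) := by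
  classical
  have key : ∀ c : γ, Nonempty ({a // f a = c} ≃ {b // g b = c}) := by
    intro c
    rw [← Fintype.card_eq, Fintype.card_subtype, Fintype.card_subtype]
    have h1 := congrArg (Multiset.count c) h
    rw [Multiset.count_map, Multiset.count_map] at h1
    simp only [Finset.card_def, Finset.filter_val]
    have e1 : ∀ (a : α), (c = f a) = (f a = c) := fun a => propext eq_comm
    have e2 : ∀ (a : β), (c = g a) = (g a = c) := fun a => propext eq_comm
    simp only [e1, e2] at h1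
    exact h1
  exact ⟨Equiv.ofFiberEquiv fun c => (key c).some,
    fun a => (Equiv.ofFiberEquiv_map (fun c => (key c).some) a).symm⟩

theorem color_eq_of_le {x : Fin k → V} {y : Fin k → W} {r s : ℕ} (hrs : r ≤ s)
    (h : color G k s x = color H k s y) : color G k r x = color H k r y := by
  induction s, hrs using Nat.le_induction with
  | base => exact h
  | succ s _ ih => exact ih (congrArg Prod.fst h)

theorem exists_bound {α : Type} [Finite α] {P : α → ℕ → Prop}
    (hP : ∀ a, ∀ r s, r ≤ s → P a s → P a r) (h : ∀ a, ∃ r, ¬ P a r) :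
    ∃ R, ∀ a, ¬ P a R := by
  have := Fintype.ofFinite α
  choose r hr using h
  refine ⟨univ.sup r, fun a ha => hr a (hP a _ _ (Finset.le_sup (Finset.mem_univ a)) ha)⟩

theorem Same.exists_equiv {x : Fin k → V} {y : Fin k → W} (h : Same k G H x y) :
    ∃ β : V ≃ W, ∀ (z : V) (i : Fin k),
      Same k G H (Function.update x i z) (Function.update y i (β z)) := by
  classical
  by_contra hc
  push Not at hc
  have hc' : ∀ β : V ≃ W, ∃ r, ¬ ∀ (z : V) (i : Fin k),
      color G k r (Function.update x i z) = color H k r (Function.update y i (β z)) := by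
    intro β
    obtain ⟨z, i, hz⟩ := hc β
    unfold Same at hz
    push Not at hz
    obtain ⟨r, hr⟩ := hz
    exact ⟨r, fun hall => hr (hall z i)⟩
  have : Finite (V ≃ W) := inferInstance
  obtain ⟨R, hR⟩ := exists_bound (P := fun (β : V ≃ W) r => ∀ (z : V) (i : Fin k),
      color G k r (Function.update x i z) = color H k r (Function.update y i (β z)))
    (fun β r s hrs hs z i => color_eq_of_le hrs (hs z i)) hc'
  have h1 : (univ : Finset V).val.map (fun z i => color G k R (Function.update x i z)) =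
      (univ : Finset W).val.map (fun z i => color H k R (Function.update y i z)) :=
    congrArg Prod.snd (h (R + 1))
  obtain ⟨e, he⟩ := exists_equiv_of_map_eq h1
  exact hR e fun z i => congrFun (he z) i

theorem WLEquiv.exists_same (h : WLEquiv k G H) (x : Fin k → V) :
    ∃ y : Fin k → W, Same k G H x y := by
  classical
  by_contra hc
  push Not at hc
  have hc' : ∀ y : Fin k → W, ∃ r, ¬ color G k r x = color H k r y := by
    intro y
    have := hc y
    unfold Same at this
    push Not at this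
    exact this
  obtain ⟨R, hR⟩ := exists_bound (P := fun (y : Fin k → W) r => color G k r x = color H k r y)
    (fun y r s hrs hs => color_eq_of_le hrs hs) hc'
  obtain ⟨e, he⟩ := exists_equiv_of_map_eq (h R)
  exact hR (e x) (he x)

theorem map_univ_equiv_eq {α β γ : Type} [Fintype α] [Fintype β] {f : α → γ} {g : β → γ}
    (e : α ≃ β) (h : ∀ a, f a = g (e a)) :
    (univ : Finset α).val.map f = (univ : Finset β).val.map g := by
  rw [← Multiset.map_univ_val_equiv e, Multiset.map_map]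
  exact Multiset.map_congr rfl fun a _ => h a

theorem same_of_rel (R : (Fin k → V) → (Fin k → W) → Prop)
    (hatom : ∀ x y, R x y → ∀ i j, (x i = x j ↔ y i = y j) ∧ (G.Adj (x i) (x j) ↔ H.Adj (y i) (y j)))
    (hforth : ∀ x y, R x y → ∃ β : V ≃ W, ∀ (z : V) (i : Fin k),
      R (Function.update x i z) (Function.update y i (β z))) :
    ∀ x y, R x y → Same k G H x y := by
  intro x y hxy r
  induction r generalizing x y with
  | zero =>
    refine Prod.ext ?_ ?_
    · funext i j
      exact propext (hatom x y hxy i j).1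
    · funext i j
      exact propext (hatom x y hxy i j).2
  | succ r ih =>
    refine Prod.ext (ih x y hxy) ?_
    obtain ⟨β, hβ⟩ := hforth x y hxy
    exact map_univ_equiv_eq β fun z => funext fun i => ih _ _ (hβ z i)

/-- The tuple `x` with its first `j` coordinates replaced by those of `z`. -/
def replFirst {X : Type} (x : Fin k → X) {j : ℕ} (z : Fin j → X) : Fin k → X :=
  fun i => if h : i.val < j then z ⟨i.val, h⟩ else x i

theorem replFirst_snoc {X : Type} (x : Fin k → X) {j : ℕ} (hj : j < k) (z : Fin j → X) (v : X) :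
    replFirst x (Fin.snoc (α := fun _ => X) z v : Fin (j + 1) → X) =
      Function.update (replFirst x z) ⟨j, hj⟩ v := by
  funext i
  unfold replFirst
  by_cases hi : i = ⟨j, hj⟩
  · subst hi
    simp [Fin.snoc]
  · have hij : i.val ≠ j := fun h => hi (Fin.ext h)
    rw [Function.update_of_ne hi]
    by_cases h1 : i.val < j
    · have h2 : i.val < j + 1 := by omega
      simp [h1, h2, Fin.snoc, Fin.castLT]
    · have h2 : ¬ i.val < j + 1 := by omega
      simp [h1, h2]

theorem Same.exists_equiv_first {x : Fin k → V} {y : Fin k → W} (h : Same k G H x y)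
    (j : ℕ) (hj : j ≤ k) :
    ∃ e : (Fin j → V) ≃ (Fin j → W), ∀ z, Same k G H (replFirst x z) (replFirst y (e z)) := by
  induction j with
  | zero =>
    refine ⟨Equiv.ofUnique _ _, fun z => ?_⟩
    have h1 : replFirst x z = x := by
      funext i
      simp [replFirst]
    have h2 : replFirst y (Equiv.ofUnique (Fin 0 → V) (Fin 0 → W) z) = y := by
      funext i
      simp [replFirst]
    rw [h1, h2]
    exact h
  | succ j ih =>
    obtain ⟨e, he⟩ := ih (by omega)
    choose β hβ using fun z => (he z).exists_equiv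
    refine ⟨(Fin.snocEquiv (fun _ : Fin (j + 1) => V)).symm.trans ((Equiv.prodComm _ _).trans
      ((Equiv.prodShear e β).trans ((Equiv.prodComm _ _).trans
        (Fin.snocEquiv (fun _ : Fin (j + 1) => W))))), fun z => ?_⟩
    obtain ⟨⟨v, z0⟩, rfl⟩ := (Fin.snocEquiv (fun _ : Fin (j + 1) => V)).surjective z
    have h1 := hβ z0 v ⟨j, hj⟩
    rw [← replFirst_snoc, ← replFirst_snoc] at h1
    simpa [Fin.snocEquiv] using h1

theorem wlEquiv_of_same {x : Fin k → V} {y : Fin k → W} (h : Same k G H x y) :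
    WLEquiv k G H := by
  intro r
  obtain ⟨e, he⟩ := h.exists_equiv_first k le_rfl
  refine map_univ_equiv_eq e fun z => ?_
  have h1 := he z r
  have h2 : replFirst x z = z := by
    funext i
    simp [replFirst]
  have h3 : replFirst y (e z) = e z := by
    funext i
    simp [replFirst]
  rwa [h2, h3] at h1

theorem wlEquiv_of_iso (e : G ≃g H) : WLEquiv k G H := by
  intro r
  refine map_univ_equiv_eq (Equiv.arrowCongr (Equiv.refl (Fin k)) e.toEquiv) fun x => ?_
  refine same_of_rel (G := G) (H := H)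
    (fun x y => y = Equiv.arrowCongr (Equiv.refl (Fin k)) e.toEquiv x) ?_ ?_ _ _ rfl r
  · rintro x y rfl i j
    constructor
    · simp
    · exact (e.map_adj_iff (v := x i) (w := x j)).symm
  · rintro x y rfl
    refine ⟨e.toEquiv, fun z i => ?_⟩
    funext l
    by_cases hl : l = i
    · subst hl
      simp
    · simp [Function.update_of_ne hl]

/-- Invariance under relabelling. -/
theorem WLEquiv.congr {V' W' : Type} [Fintype V'] [Fintype W']
    {G' : SimpleGraph V'} {H' : SimpleGraph W'} (e : G ≃g G') (f : H ≃g H')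
    (h : WLEquiv k G H) : WLEquiv k G' H' := fun r =>
  (wlEquiv_of_iso (k := k) e r).symm.trans ((h r).trans (wlEquiv_of_iso (k := k) f r))

end Vale.Agent.P310

/-!
Horn systems with coordinatewise maps and the associated block systems over `ZMod 2`.
-/

namespace Vale.Agent.P310

open Finset

/-- Batch elements. -/
abbrev El (p : ℕ) := ZMod p × ZMod p × ZMod 3

/-- Slots of a normal block: `none` is the head, the others are the bodies. -/
abbrev Slot (B k : ℕ) := Option (Fin B × Fin (k + 1))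

/-- Real variables: a type (fact type and batch element), a row and a label. -/
abbrev Var (F : Type) (k p : ℕ) := (F × El p) × Fin k × ℕ

/-- Blocks. `spc none` is the block with charge one, `spc (some e)` are the initial blocks. -/
inductive Blk (R : Type) (k p : ℕ)
  | nrm (ρ : R) (e : El p) (i : Fin k) (a : ℕ)
  | spc (ε : Option (El p))

/-- A Horn system. -/
structure Sys (F R Q : Type) (B k p : ℕ) where
  π : Fin k → Q
  m : ℕ
  act : R → Prop
  head : R → F
  body : R → Fin B → F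
  cond : R → Q → ℕ → Prop
  hmap : R → Q → ℕ → ℕ
  bmap : R → Fin B → Q → ℕ → ℕ
  ini : F
  fin : F
  ι : R × Fin B × Fin (k + 1) → ZMod p

namespace Sys

variable {F R Q : Type} {B k p : ℕ} (S : Sys F R Q B k p)

/-- Well-formedness. -/
structure WF : Prop where
  prime : p.Prime
  hk : 2 ≤ k
  hB : 0 < B
  hm : 0 < S.m
  surj : Function.Surjective S.π
  twin : ∀ i, ∃ i', i' ≠ i ∧ S.π i' = S.π i
  inj : ∀ ρ, S.act ρ → ∀ j q, Set.InjOn (S.bmap ρ j q) {a | a < S.m ∧ S.cond ρ q a}
  head_ne : ∀ ρ, S.act ρ → S.head ρ ≠ S.ini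
  body_ne : ∀ ρ, S.act ρ → ∀ j, S.body ρ j ≠ S.fin
  fin_zero : ∀ ρ, S.act ρ → S.head ρ = S.fin → ∀ q a, S.hmap ρ q a = 0
  ini_ne_fin : S.ini ≠ S.fin
  ιinj : Function.Injective S.ι

/-- Derivable facts. -/
inductive Der : F → (Q → ℕ) → Prop
  | ini : Der S.ini (fun _ => 0)
  | step (ρ : R) (a : Q → ℕ) (hρ : S.act ρ) (ha : ∀ q, a q < S.m) (hc : ∀ q, S.cond ρ q (a q))
      (hb : ∀ j, Der (S.body ρ j) (fun q => S.bmap ρ j q (a q))) :
      Der (S.head ρ) (fun q => S.hmap ρ q (a q))

/-- The type of the variable in a slot of a normal block. -/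
def ty (ρ : R) (e : El p) : Slot B k → F × El p
  | none => (S.head ρ, e)
  | some t => (S.body ρ t.1, (S.ι (ρ, t), e.1 * S.ι (ρ, t) + e.2.1, e.2.2 + 1))

/-- The label map of a slot. -/
def lab (ρ : R) : Slot B k → Q → ℕ → ℕ
  | none => S.hmap ρ
  | some t => S.bmap ρ t.1

/-- The type of the variables of a special block. -/
def sty : Option (El p) → F × El p
  | none => (S.fin, 0)
  | some e => (S.ini, e)

/-- The blocks that are present. -/
def Valid : Blk R k p → Prop
  | .nrm ρ _ i a => S.act ρ ∧ a < S.m ∧ S.cond ρ (S.π i) a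
  | .spc _ => True

/-- The variables of a block. -/
def vars : Blk R k p → Set (Var F k p)
  | .nrm ρ e i a => Set.range fun J => (S.ty ρ e J, i, S.lab ρ J (S.π i) a)
  | .spc ε => Set.range fun i => (S.sty ε, i, 0)

/-- The sum of an assignment over the variables of a block. -/
def bsum (σ : Var F k p → ZMod 2) : Blk R k p → ZMod 2
  | .nrm ρ e i a => ∑ J, σ (S.ty ρ e J, i, S.lab ρ J (S.π i) a)
  | .spc ε => ∑ i, σ (S.sty ε, i, 0)

/-- The charge of a block. -/
def ch : Blk R k p → ZMod 2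
  | .nrm _ _ _ _ => 0
  | .spc none => 1
  | .spc (some _) => 0

/-- The facts Duplicator has to respect, with their values. -/
def Fact (g : F × El p) (c : Q → ℕ) (τ : ZMod 2) : Prop :=
  (S.Der g.1 c ∧ τ = 0) ∨ (g = (S.fin, 0) ∧ c = (fun _ => 0) ∧ τ = 1)

/-- All variables of the fact are variables of blocks in `P`. -/
def Covers (P : Finset (Blk R k p)) (g : F × El p) (c : Q → ℕ) : Prop :=
  ∀ i, ∃ b ∈ P, ((g, i, c (S.π i)) : Var F k p) ∈ S.vars b

/-- Good assignments for a set of blocks. -/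
structure GoodAsg (P : Finset (Blk R k p)) (σ : Var F k p → ZMod 2) : Prop where
  blk : ∀ b ∈ P, S.bsum σ b = ch b
  fact : ∀ g c τ, S.Fact g c τ → S.Covers P g c → ∑ i, σ (g, i, c (S.π i)) = τ

end Sys

end Vale.Agent.P310

namespace Vale.Agent.P310

open Finset

namespace Sys

variable {F R Q : Type} {B k p : ℕ} {S : Sys F R Q B k p}

theorem ty_inj' (hS : S.WF) (ρ : R) (e : El p) : Function.Injective (S.ty ρ e) := by
  have h3 : ∀ a : ZMod 3, a ≠ a + 1 := by decide
  rintro (_ | t) (_ | s) h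
  · rfl
  · simp only [ty, Prod.mk.injEq] at h
    have := congrArg (fun x : El p => x.2.2) h.2
    exact absurd this (h3 _)
  · simp only [ty, Prod.mk.injEq] at h
    have := congrArg (fun x : El p => x.2.2) h.2
    exact absurd this.symm (h3 _)
  · simp only [ty, Prod.mk.injEq] at h
    have := hS.ιinj h.2.1
    simp only [Prod.mk.injEq, true_and] at this
    rw [this]

theorem ty_share' (hS : S.WF) {ρ ρ' : R} {e e' : El p} {J J' I I' : Slot B k}
    (hne : (ρ, e) ≠ (ρ', e'))
    (h1 : S.ty ρ e J = S.ty ρ' e' J') (h2 : S.ty ρ e I = S.ty ρ' e' I') : J = I := by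
  have h3 : ∀ a : ZMod 3, a ≠ a + 1 := by decide
  have h4 : ∀ a : ZMod 3, a ≠ a + 1 + 1 := by decide
  haveI : _root_.Fact p.Prime := ⟨hS.prime⟩
  rcases J with _ | t <;> rcases I with _ | s <;> rcases J' with _ | t' <;>
    rcases I' with _ | s' <;> simp only [ty, Prod.mk.injEq] at h1 h2
  all_goals try rfl
  -- J = none, I = some s
  · exfalso
    have e1 := congrArg (fun x : El p => x.2.2) h1.2
    have e2 := h2.2
    have e3 := congrArg (fun x : El p => x.2.2) e2
    simp only at e1 e3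
    rw [← e1] at e3
    exact h3 _ e3.symm
  · exfalso
    have := hS.ιinj h2.2.1
    simp only [Prod.mk.injEq] at this
    exact hne (by rw [this.1, h1.2])
  · exfalso
    have e1 := congrArg (fun x : El p => x.2.2) h1.2
    have e3 := congrArg (fun x : El p => x.2.2) h2.2
    simp only at e1 e3
    rw [e1] at e3
    exact h4 _ e3.symm
  · exfalso
    have e1 := congrArg (fun x : El p => x.2.2) h1.2
    have e3 := h2.2.2.2
    simp only at e1
    have e3' := add_right_cancel e3
    rw [e3'] at e1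
    exact h3 _ e1
  · exfalso
    have e1 := congrArg (fun x : El p => x.2.2) h2.2
    have e3 := congrArg (fun x : El p => x.2.2) h1.2
    simp only at e1 e3
    rw [← e1] at e3
    exact h3 _ e3.symm
  · exfalso
    have e1 := congrArg (fun x : El p => x.2.2) h2.2
    have e3 := congrArg (fun x : El p => x.2.2) h1.2
    simp only at e1 e3
    rw [e1] at e3
    exact h4 _ e3.symm
  · exfalso
    have := hS.ιinj h1.2.1
    simp only [Prod.mk.injEq] at this
    exact hne (by rw [this.1, h2.2])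
  · exfalso
    have e1 := congrArg (fun x : El p => x.2.2) h2.2
    have e3 := h1.2.2.2
    simp only at e1
    have e3' := add_right_cancel e3
    rw [e3'] at e1
    exact h3 _ e1
  · have e1 := h1.2
    have e2 := h2.2
    rw [← e2] at e1
    have := hS.ιinj (Prod.mk.inj e1).1
    simp only [Prod.mk.injEq, true_and] at this
    rw [this]
  · exfalso
    have e1 := congrArg (fun x : El p => x.2.2) h1.2
    have e3 := h2.2.2.2
    simp only at e1
    have e3' := add_right_cancel e3
    rw [e3'] at e1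
    exact h3 _ e1.symm
  · exfalso
    have e1 := congrArg (fun x : El p => x.2.2) h2.2
    have e3 := h1.2.2.2
    simp only at e1
    have e3' := add_right_cancel e3
    rw [e3'] at e1
    exact h3 _ e1.symm
  · have i1 := hS.ιinj h1.2.1
    have i2 := hS.ιinj h2.2.1
    simp only [Prod.mk.injEq] at i1 i2
    obtain ⟨hρ, ht⟩ := i1
    obtain ⟨_, hs⟩ := i2
    subst hρ ht hs
    have l1 := h1.2.2.1
    have l2 := h2.2.2.1
    have l3 := add_right_cancel h1.2.2.2
    by_cases hx : S.ι (ρ, t) = S.ι (ρ, s)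
    · have := hS.ιinj hx
      simp only [Prod.mk.injEq, true_and] at this
      rw [this]
    · exfalso
      have hx' : S.ι (ρ, t) - S.ι (ρ, s) ≠ 0 := sub_ne_zero.mpr hx
      have l4 : (e.1 - e'.1) * (S.ι (ρ, t) - S.ι (ρ, s)) = 0 := by
        linear_combination l1 - l2
      have l5 : e.1 = e'.1 := by
        rcases mul_eq_zero.mp l4 with h | h
        · exact sub_eq_zero.mp h
        · exact absurd h hx'
      have l6 : e.2.1 = e'.2.1 := by
        rw [l5] at l1
        exact add_left_cancel l1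
      exact hne (by rw [Prod.mk.injEq]; exact ⟨rfl, Prod.ext l5 (Prod.ext l6 l3)⟩)

end Sys

end Vale.Agent.P310

namespace Vale.Agent.P310

open Finset

namespace Sys

variable {F R Q : Type} {B k p : ℕ} {S : Sys F R Q B k p}

/-- The row of a normal block. -/
def rowOf : Blk R k p → Option (Fin k)
  | .nrm _ _ i _ => some i
  | .spc _ => none

theorem der_ini (hS : S.WF) {c : Q → ℕ} (h : S.Der S.ini c) : c = fun _ => 0 := by
  generalize hf : S.ini = f at h
  cases h with
  | ini => rfl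
  | step ρ a hρ ha hc hb => exact absurd hf.symm (hS.head_ne ρ hρ)

theorem fact_sty (hS : S.WF) (hfin : ∀ c, ¬ S.Der S.fin c) {ε : Option (El p)} {c : Q → ℕ}
    {τ : ZMod 2} (h : S.Fact (S.sty ε) c τ) : c = (fun _ => 0) ∧ τ = ch (R := R) (k := k) (.spc ε) := by
  rcases ε with _ | e
  · rcases h with h | h
    · exact absurd h.1 (hfin c)
    · exact ⟨h.2.1, h.2.2⟩
  · rcases h with h | h
    · exact ⟨der_ini hS h.1, h.2⟩
    · exfalso
      have := congrArg Prod.fst h.1
      exact hS.ini_ne_fin this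

theorem sty_fact (ε : Option (El p)) :
    S.Fact (S.sty ε) (fun _ => 0) (ch (R := R) (k := k) (.spc ε)) := by
  rcases ε with _ | e
  · exact Or.inr ⟨rfl, rfl, rfl⟩
  · exact Or.inl ⟨Der.ini, rfl⟩

theorem fact_val (hfin : ∀ c, ¬ S.Der S.fin c) {g : F × El p} {c c' : Q → ℕ} {τ τ' : ZMod 2}
    (h : S.Fact g c τ) (h' : S.Fact g c' τ') : τ = τ' := by
  rcases h with h | h <;> rcases h' with h' | h'
  · rw [h.2, h'.2]
  · exfalso
    rw [h'.1] at h
    exact hfin _ h.1
  · exfalso
    rw [h.1] at h'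
    exact hfin _ h'.1
  · rw [h.2.2, h'.2.2]

theorem bsum_congr {σ σ' : Var F k p → ZMod 2} {b : Blk R k p}
    (h : ∀ x ∈ S.vars b, σ' x = σ x) : S.bsum σ' b = S.bsum σ b := by
  rcases b with ⟨ρ, e, i, a⟩ | ε
  · exact Finset.sum_congr rfl fun J _ => h _ ⟨J, rfl⟩
  · exact Finset.sum_congr rfl fun i _ => h _ ⟨i, rfl⟩

/-- Two different valid blocks share at most one variable. -/
theorem vars_share (hS : S.WF) {b : Blk R k p} (hb : S.Valid b) {ρ : R} {e : El p} {i : Fin k}
    {a : ℕ} (hb' : S.Valid (.nrm ρ e i a)) (hne : b ≠ .nrm ρ e i a) {J J' : Slot B k}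
    (h1 : ((S.ty ρ e J, i, S.lab ρ J (S.π i) a) : Var F k p) ∈ S.vars b)
    (h2 : ((S.ty ρ e J', i, S.lab ρ J' (S.π i) a) : Var F k p) ∈ S.vars b) : J = J' := by
  rcases b with ⟨ρ', e', i', a'⟩ | ε
  · obtain ⟨I, hI⟩ := h1
    obtain ⟨I', hI'⟩ := h2
    simp only [Prod.mk.injEq] at hI hI'
    obtain ⟨hI1, hI2, hI3⟩ := hI
    obtain ⟨hI'1, -, hI'3⟩ := hI'
    subst hI2
    by_cases hρ : (ρ', e') = (ρ, e)
    · rw [Prod.mk.injEq] at hρ
      obtain ⟨rfl, rfl⟩ := hρ
      have k1 := ty_inj' hS _ _ hI1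
      have k2 := ty_inj' hS _ _ hI'1
      subst k1 k2
      by_contra hJ
      -- one of the slots is a body slot
      have key : ∀ t, S.lab ρ' (some t) (S.π i') a' = S.lab ρ' (some t) (S.π i') a → a' = a := by
        intro t ht
        exact hS.inj ρ' hb.1 t.1 (S.π i') ⟨hb.2.1, hb.2.2⟩ ⟨hb'.2.1, hb'.2.2⟩ ht
      rcases I with _ | t
      · rcases I' with _ | t'
        · exact hJ rfl
        · exact hne (by rw [key t' hI'3])
      · exact hne (by rw [key t hI3])
    · exact ty_share' hS (fun h => hρ h.symm) hI1.symm hI'1.symm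
  · obtain ⟨I, hI⟩ := h1
    obtain ⟨I', hI'⟩ := h2
    simp only [Prod.mk.injEq] at hI hI'
    exact ty_inj' hS _ _ (hI.1.symm.trans hI'.1)

/-- Counting: if `P` has at most `k` blocks and a normal block in every row except `ib`, then
there is at most one further block. -/
theorem count [DecidableEq (Blk R k p)] {P : Finset (Blk R k p)} (hcard : P.card ≤ k)
    {ib : Fin k} {β : Fin k → Blk R k p} (hβ : ∀ i, i ≠ ib → β i ∈ P ∧ rowOf (β i) = some i)
    {b1 b2 : Blk R k p} (h1 : b1 ∈ P) (h2 : b2 ∈ P) (h12 : b1 ≠ b2)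
    (hb1 : ∀ i, i ≠ ib → b1 ≠ β i) (hb2 : ∀ i, i ≠ ib → b2 ≠ β i) : False := by
  classical
  have hinj : Set.InjOn β ((univ.erase ib : Finset (Fin k)) : Set (Fin k)) := by
    intro i hi j hj hij
    have hi' : i ≠ ib := by simpa using hi
    have hj' : j ≠ ib := by simpa using hj
    have := (hβ i hi').2
    rw [hij, (hβ j hj').2] at this
    exact (Option.some.inj this).symm
  have hcardI : ((univ.erase ib).image β).card = k - 1 := by
    rw [Finset.card_image_of_injOn hinj, Finset.card_erase_of_mem (mem_univ _), Finset.card_univ,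
      Fintype.card_fin]
  have hsub : insert b1 (insert b2 ((univ.erase ib).image β)) ⊆ P := by
    intro x hx
    simp only [mem_insert, mem_image, mem_erase, mem_univ, and_true] at hx
    rcases hx with rfl | rfl | ⟨i, hi, rfl⟩
    · exact h1
    · exact h2
    · exact (hβ i hi).1
  have hc : (insert b1 (insert b2 ((univ.erase ib).image β))).card = k - 1 + 1 + 1 := by
    rw [Finset.card_insert_of_notMem, Finset.card_insert_of_notMem, hcardI]
    · simp only [mem_image, mem_erase, mem_univ, and_true, not_exists, not_and]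
      intro i hi h
      exact hb2 i hi h.symm
    · simp only [mem_insert, mem_image, mem_erase, mem_univ, and_true, not_or, not_exists, not_and]
      exact ⟨h12, fun i hi h => hb1 i hi h.symm⟩
  have := Finset.card_le_card hsub
  have hk : 0 < k := ib.pos
  omega

end Sys

end Vale.Agent.P310

namespace Vale.Agent.P310

open Finset

namespace Sys

variable {F R Q : Type} {B k p : ℕ} {S : Sys F R Q B k p}

theorem extend_spc [DecidableEq (Blk R k p)] (hS : S.WF) (hfin : ∀ c, ¬ S.Der S.fin c)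
    (P : Finset (Blk R k p)) (σ : Var F k p → ZMod 2) (hσ : S.GoodAsg P σ)
    (ε : Option (El p)) :
    ∃ σ' : Var F k p → ZMod 2, (∀ b' ∈ P, ∀ x ∈ S.vars b', σ' x = σ x) ∧
      S.GoodAsg (insert (.spc ε) P) σ' := by
  classical
  by_cases hall : ∀ i : Fin k, ∃ b' ∈ P, ((S.sty ε, i, 0) : Var F k p) ∈ S.vars b'
  · refine ⟨σ, fun _ _ _ _ => rfl, ?_, ?_⟩
    · intro b hb
      rcases Finset.mem_insert.mp hb with rfl | hb
      · exact hσ.fact _ _ _ (S.sty_fact ε) hall
      · exact hσ.blk b hb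
    · intro g c τ hg hcov
      refine hσ.fact g c τ hg ?_
      intro i
      obtain ⟨b, hb, hx⟩ := hcov i
      rcases Finset.mem_insert.mp hb with rfl | hb
      · obtain ⟨i', hi'⟩ := hx
        simp only at hi'
        rw [← hi']
        exact hall i'
      · exact ⟨b, hb, hx⟩
  · push Not at hall
    obtain ⟨i0, hi0⟩ := hall
    set x0 : Var F k p := (S.sty ε, i0, 0) with hx0
    set σ' : Var F k p → ZMod 2 :=
      Function.update σ x0 (σ x0 + (ch (R := R) (k := k) (.spc ε) - S.bsum σ (.spc ε))) with hσ'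
    have hne : ∀ x, x ≠ x0 → σ' x = σ x := fun x hx => Function.update_of_ne hx _ _
    have hP : ∀ b' ∈ P, ∀ x ∈ S.vars b', σ' x = σ x := by
      intro b' hb' x hx
      apply hne
      rintro rfl
      exact hi0 b' hb' hx
    have hb : S.bsum σ' (.spc ε) = ch (R := R) (k := k) (.spc ε) := by
      have h1 : S.bsum σ' (.spc ε) = σ' x0 + ∑ i ∈ univ.erase i0, σ' (S.sty ε, i, 0) := by
        rw [bsum]; exact (Finset.add_sum_erase _ _ (mem_univ i0)).symm
      have h2 : S.bsum σ (.spc ε) = σ x0 + ∑ i ∈ univ.erase i0, σ (S.sty ε, i, 0) := by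
        rw [bsum]; exact (Finset.add_sum_erase _ _ (mem_univ i0)).symm
      have h3 : ∑ i ∈ univ.erase i0, σ' (S.sty ε, i, 0) = ∑ i ∈ univ.erase i0, σ (S.sty ε, i, 0) := by
        refine Finset.sum_congr rfl fun i hi => hne _ ?_
        intro h
        have := congrArg (fun x : Var F k p => x.2.1) h
        exact (Finset.mem_erase.mp hi).1 this
      have h4 : σ' x0 = σ x0 + (ch (R := R) (k := k) (.spc ε) - S.bsum σ (.spc ε)) :=
        Function.update_self _ _ _
      rw [h1, h3, h4, h2]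
      ring
    refine ⟨σ', hP, ?_, ?_⟩
    · intro b hb'
      rcases Finset.mem_insert.mp hb' with rfl | hb'
      · exact hb
      · rw [bsum_congr (hP b hb')]
        exact hσ.blk b hb'
    · intro g c τ hg hcov
      by_cases hgs : g = S.sty ε
      · subst hgs
        obtain ⟨rfl, rfl⟩ := fact_sty hS hfin hg
        exact hb
      · have hv : ∀ i, ((g, i, c (S.π i)) : Var F k p) ≠ x0 := by
          intro i h
          exact hgs (congrArg (fun x : Var F k p => x.1) h)
        rw [Finset.sum_congr rfl fun i _ => hne _ (hv i)]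
        refine hσ.fact g c τ hg ?_
        intro i
        obtain ⟨b, hb, hx⟩ := hcov i
        rcases Finset.mem_insert.mp hb with rfl | hb
        · obtain ⟨i', hi'⟩ := hx
          exact absurd (congrArg (fun x : Var F k p => x.1) hi').symm hgs
        · exact ⟨b, hb, hx⟩

section normal

variable (S) in
/-- Slot `J` of the block `nrm ρ e ib ab` is forced through the fact with context `c`. -/
structure Forced (P : Finset (Blk R k p)) (ρ : R) (e : El p) (ib : Fin k) (ab : ℕ)
    (J : Slot B k) (c : Q → ℕ) (τ : ZMod 2) : Prop where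
  fact : S.Fact (S.ty ρ e J) c τ
  here : c (S.π ib) = S.lab ρ J (S.π ib) ab
  cov : ∀ i, i ≠ ib → ∃ b ∈ P, ((S.ty ρ e J, i, c (S.π i)) : Var F k p) ∈ S.vars b
  unc : ∀ b ∈ P, ((S.ty ρ e J, ib, S.lab ρ J (S.π ib) ab) : Var F k p) ∉ S.vars b

variable {P : Finset (Blk R k p)} {ρ : R} {e : El p} {ib : Fin k} {ab : ℕ}

/-- The covering blocks are normal. -/
theorem Forced.nrm (hS : S.WF) (hfin : ∀ c, ¬ S.Der S.fin c) {J : Slot B k} {c : Q → ℕ}
    {τ : ZMod 2} (h : S.Forced P ρ e ib ab J c τ) {i : Fin k} (hi : i ≠ ib) :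
    ∃ ρ' e' a', Blk.nrm ρ' e' i a' ∈ P ∧
      ∃ J', S.ty ρ' e' J' = S.ty ρ e J ∧ S.lab ρ' J' (S.π i) a' = c (S.π i) := by
  obtain ⟨b, hb, hx⟩ := h.cov i hi
  rcases b with ⟨ρ', e', i', a'⟩ | ε
  · obtain ⟨J', hJ'⟩ := hx
    simp only [Prod.mk.injEq] at hJ'
    obtain ⟨h1, rfl, h3⟩ := hJ'
    exact ⟨ρ', e', a', hb, J', h1, h3⟩
  · exfalso
    obtain ⟨i', hi'⟩ := hx
    simp only [Prod.mk.injEq] at hi'
    have hf := h.fact
    rw [← hi'.1] at hf
    have hc := (fact_sty hS hfin hf).1
    refine h.unc _ hb ⟨ib, ?_⟩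
    simp only [Prod.mk.injEq]
    refine ⟨hi'.1, trivial, ?_⟩
    rw [← h.here, hc]

theorem Forced.unique [DecidableEq (Blk R k p)] (hS : S.WF) (hfin : ∀ c, ¬ S.Der S.fin c)
    (hcard : P.card ≤ k) {J : Slot B k} {c c' : Q → ℕ}
    {τ τ' : ZMod 2} (h : S.Forced P ρ e ib ab J c τ) (h' : S.Forced P ρ e ib ab J c' τ') :
    c = c' ∧ τ = τ' := by
  refine ⟨?_, fact_val hfin h.fact h'.fact⟩
  by_contra hcc
  obtain ⟨q, hq⟩ := Function.ne_iff.mp hcc
  obtain ⟨i1, rfl⟩ := hS.surj q
  obtain ⟨i2, hi2, hπ⟩ := hS.twin i1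
  have hne : ∀ i, S.π i = S.π i1 → i ≠ ib := by
    rintro i hi rfl
    rw [← hi] at hq
    exact hq (h.here.trans h'.here.symm)
  have hR : Nonempty R := ⟨ρ⟩
  have hE : Nonempty (El p) := ⟨e⟩
  choose! ρ1 e1 a1 hP1 J1 hty1 hlab1 using fun (i : Fin k) (hi : i ≠ ib) => h.nrm hS hfin hi
  choose! ρ2 e2 a2 hP2 J2 hty2 hlab2 using fun (i : Fin k) (hi : i ≠ ib) => h'.nrm hS hfin hi
  have hdiff : ∀ i, S.π i = S.π i1 →
      Blk.nrm (ρ2 i) (e2 i) i (a2 i) ≠ Blk.nrm (k := k) (ρ1 i) (e1 i) i (a1 i) := by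
    intro i hi heq
    have hib := hne i hi
    simp only [Blk.nrm.injEq, true_and] at heq
    obtain ⟨q1, q2, q3⟩ := heq
    have t1 := hty1 i hib
    have t2 := hty2 i hib
    have l1 := hlab1 i hib
    have l2 := hlab2 i hib
    rw [q1, q2] at t2
    have hJ := ty_inj' hS _ _ (t1.trans t2.symm)
    rw [q1, q3, ← hJ] at l2
    apply hq
    rw [← hi, ← l1, ← l2]
  refine count hcard (ib := ib) (β := fun i => .nrm (ρ1 i) (e1 i) i (a1 i))
    (fun i hi => ⟨hP1 i hi, rfl⟩) (hP2 i1 (hne i1 rfl)) (hP2 i2 (hne i2 hπ)) ?_ ?_ ?_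
  · intro heq
    simp only [Blk.nrm.injEq] at heq
    exact hi2 heq.2.2.1.symm
  · intro i hi heq
    have hi1 : i1 = i := by
      simp only [Blk.nrm.injEq] at heq
      exact heq.2.2.1
    subst hi1
    exact hdiff i1 rfl heq
  · intro i hi heq
    have hi1 : i2 = i := by
      simp only [Blk.nrm.injEq] at heq
      exact heq.2.2.1
    subst hi1
    exact hdiff i2 hπ heq

end normal

end Sys

end Vale.Agent.P310

namespace Vale.Agent.P310

open Finset

namespace Sys

variable {F R Q : Type} {B k p : ℕ} {S : Sys F R Q B k p}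

section normal

variable {P : Finset (Blk R k p)} {ρ : R} {e : El p} {ib : Fin k} {ab : ℕ}

/-- If all uncovered slots are forced, the block is part of a virtual block. -/
theorem virtual [DecidableEq (Blk R k p)] (hS : S.WF) (hfin : ∀ c, ¬ S.Der S.fin c)
    (hP : ∀ b ∈ P, S.Valid b) (hcard : P.card ≤ k) (hb : S.Valid (.nrm ρ e ib ab))
    (hbP : Blk.nrm ρ e ib ab ∉ P)
    (hall : ∀ J, (∀ b ∈ P, ((S.ty ρ e J, ib, S.lab ρ J (S.π ib) ab) : Var F k p) ∉ S.vars b) →
      ∃ c τ, S.Forced P ρ e ib ab J c τ) :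
    ∃ a : Q → ℕ, a (S.π ib) = ab ∧ (∀ i, i ≠ ib → Blk.nrm ρ e i (a (S.π i)) ∈ P) ∧
      ∀ J, S.Fact (S.ty ρ e J) (fun q => S.lab ρ J q (a q)) 0 := by
  classical
  have hR : Nonempty R := ⟨ρ⟩
  have hE : Nonempty (El p) := ⟨e⟩
  -- the slots that are covered
  set Cov : Slot B k → Prop := fun J =>
    ∃ b ∈ P, ((S.ty ρ e J, ib, S.lab ρ J (S.π ib) ab) : Var F k p) ∈ S.vars b with hCov
  have hnc : ∀ J, ¬ Cov J → ∃ c τ, S.Forced P ρ e ib ab J c τ := by
    intro J hJ
    apply hall
    intro b hb hx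
    exact hJ ⟨b, hb, hx⟩
  have hunc : ∀ J c τ, S.Forced P ρ e ib ab J c τ → ¬ Cov J := by
    rintro J c τ hF ⟨b, hb, hx⟩
    exact hF.unc b hb hx
  have hshare : ∀ b ∈ P, ∀ J J', ((S.ty ρ e J, ib, S.lab ρ J (S.π ib) ab) : Var F k p) ∈ S.vars b →
      ((S.ty ρ e J', ib, S.lab ρ J' (S.π ib) ab) : Var F k p) ∈ S.vars b → J = J' := by
    intro b hbm J J' h1 h2
    refine vars_share hS (hP b hbm) hb ?_ h1 h2
    rintro rfl
    exact hbP hbm
  -- some slot is uncovered
  have hex : ∃ J, ¬ Cov J := by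
    by_contra hcon
    push Not at hcon
    choose f hf hfx using hcon
    have hinj : Function.Injective f := by
      intro J J' hJJ
      refine hshare (f J) (hf J) J J' (hfx J) ?_
      rw [hJJ]
      exact hfx J'
    have h1 : (univ.image f).card = Fintype.card (Slot B k) := by
      rw [Finset.card_image_of_injective _ hinj, Finset.card_univ]
    have h2 : (univ.image f).card ≤ P.card := by
      refine Finset.card_le_card ?_
      intro x hx
      obtain ⟨J, -, rfl⟩ := Finset.mem_image.mp hx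
      exact hf J
    have h3 : Fintype.card (Slot B k) = B * (k + 1) + 1 := by
      simp [Slot]
    have h4 : k + 1 ≤ B * (k + 1) := Nat.le_mul_of_pos_left _ hS.hB
    omega
  obtain ⟨Js, hJs⟩ := hex
  obtain ⟨cs, τs, hFs⟩ := hnc Js hJs
  choose! ρ1 e1 a1 hP1 J1 hty1 hlab1 using fun (i : Fin k) (hi : i ≠ ib) => hFs.nrm hS hfin hi
  -- abbreviation for the chosen blocks
  set β : Fin k → Blk R k p := fun i => .nrm (ρ1 i) (e1 i) i (a1 i) with hβdef
  have hβ : ∀ i, i ≠ ib → β i ∈ P ∧ rowOf (β i) = some i := fun i hi => ⟨hP1 i hi, rfl⟩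
  -- blocks covering slots are not in the rows different from `ib`
  have hcovne : ∀ J b, b ∈ P → ((S.ty ρ e J, ib, S.lab ρ J (S.π ib) ab) : Var F k p) ∈ S.vars b →
      ∀ i ρ' e' a', i ≠ ib → b ≠ .nrm ρ' e' i a' := by
    rintro J b hbm hx i ρ' e' a' hi rfl
    obtain ⟨I, hI⟩ := hx
    simp only [Prod.mk.injEq] at hI
    exact hi hI.2.1
  -- at most one slot is covered
  have hone : ∀ J J', Cov J → Cov J' → J = J' := by
    rintro J J' ⟨b, hbm, hx⟩ ⟨b', hbm', hx'⟩
    by_contra hJ
    have hbb : b ≠ b' := by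
      rintro rfl
      exact hJ (hshare b hbm J J' hx hx')
    exact count hcard (ib := ib) hβ hbm hbm' hbb
      (fun i hi => hcovne J b hbm hx i _ _ _ hi) (fun i hi => hcovne J' b' hbm' hx' i _ _ _ hi)
  -- uncovered slots
  choose! c τ hF using hnc
  -- the blocks in the other rows have the same type, with compatible labels
  have hrow : ∀ i, i ≠ ib → ∃ a, Blk.nrm ρ e i a ∈ P ∧
      ∀ J, ¬ Cov J → c J (S.π i) = S.lab ρ J (S.π i) a := by
    -- single case
    have hsingle : ∀ i, i ≠ ib → (∀ b ∈ P, rowOf b = some i → b = β i) → ∃ a, Blk.nrm ρ e i a ∈ P ∧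
      ∀ J, ¬ Cov J → c J (S.π i) = S.lab ρ J (S.π i) a := by
      intro i hi hs
      -- two uncovered slots
      have h2 : ∃ J J', ¬ Cov J ∧ ¬ Cov J' ∧ J ≠ J' := by
        have hk := hS.hk
        have hB := hS.hB
        set s0 : Slot B k := some (⟨0, hB⟩, ⟨0, by omega⟩) with hs0
        set s1 : Slot B k := some (⟨0, hB⟩, ⟨1, by omega⟩) with hs1
        have h01 : s0 ≠ s1 := by simp [hs0, hs1]
        have h0n : s0 ≠ none := by simp [hs0]
        have h1n : s1 ≠ none := by simp [hs1]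
        by_cases hn : Cov none
        · refine ⟨s0, s1, fun h => h0n (hone _ _ h hn), fun h => h1n (hone _ _ h hn), h01⟩
        · by_cases h0 : Cov s0
          · exact ⟨none, s1, hn, fun h => h01 (hone _ _ h0 h), fun h => h1n h.symm⟩
          · exact ⟨none, s0, hn, h0, fun h => h0n h.symm⟩
      have hmem : ∀ J, ¬ Cov J → ∃ J', S.ty (ρ1 i) (e1 i) J' = S.ty ρ e J ∧
          S.lab (ρ1 i) J' (S.π i) (a1 i) = c J (S.π i) := by
        intro J hJ
        obtain ⟨ρ', e', a', hb', J', hJ', hl'⟩ := (hF J hJ).nrm hS hfin hi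
        have := hs _ hb' rfl
        simp only [hβdef, Blk.nrm.injEq, true_and] at this
        obtain ⟨rfl, rfl, rfl⟩ := this
        exact ⟨J', hJ', hl'⟩
      obtain ⟨J, J', hJ, hJ', hJJ⟩ := h2
      obtain ⟨I, hI, hIl⟩ := hmem J hJ
      obtain ⟨I', hI', hIl'⟩ := hmem J' hJ'
      have heq : (ρ, e) = (ρ1 i, e1 i) := by
        by_contra hne
        exact hJJ (ty_share' hS hne hI.symm hI'.symm)
      rw [Prod.mk.injEq] at heq
      obtain ⟨h1, h2⟩ := heq
      refine ⟨a1 i, ?_, ?_⟩
      · rw [h1, h2]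
        exact hP1 i hi
      · intro J hJ
        obtain ⟨I, hI, hIl⟩ := hmem J hJ
        rw [← h1, ← h2] at hI
        have := ty_inj' hS _ _ hI
        rw [this, ← h1] at hIl
        exact hIl.symm
    intro i hi
    by_cases hs : ∀ b ∈ P, rowOf b = some i → b = β i
    · exact hsingle i hi hs
    · push Not at hs
      obtain ⟨b2, hb2, hrow2, hne2⟩ := hs
      -- nothing is covered
      have hb2β : ∀ i', i' ≠ ib → b2 ≠ β i' := by
        rintro i' hi' rfl
        have : some i' = some i := hrow2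
        rw [Option.some.injEq] at this
        subst this
        exact hne2 rfl
      have hnone : ∀ J, ¬ Cov J := by
        rintro J ⟨b, hbm, hx⟩
        refine count hcard (ib := ib) hβ hbm hb2 ?_
          (fun i hi => hcovne J b hbm hx i _ _ _ hi) hb2β
        rintro rfl
        rcases b with ⟨ρ', e', i', a'⟩ | ε
        · have : some i' = some i := hrow2
          rw [Option.some.injEq] at this
          exact hcovne J _ hbm hx i' ρ' e' a' (this ▸ hi) rfl
        · simp [rowOf] at hrow2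
      -- the other rows are single
      have hother : ∀ i', i' ≠ ib → i' ≠ i → ∀ b ∈ P, rowOf b = some i' → b = β i' := by
        intro i' hi' hii b hbm hbrow
        by_contra hbne
        refine count hcard (ib := ib) hβ hbm hb2 ?_ ?_ hb2β
        · rintro rfl
          rw [hrow2, Option.some.injEq] at hbrow
          exact hii hbrow.symm
        · rintro i'' hi'' rfl
          have : some i'' = some i' := hbrow
          rw [Option.some.injEq] at this
          subst this
          exact hbne rfl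
      -- blocks in row i
      have hthis : ∀ b ∈ P, rowOf b = some i → b = β i ∨ b = b2 := by
        intro b hbm hbrow
        by_contra hbne
        push Not at hbne
        refine count hcard (ib := ib) hβ hbm hb2 hbne.2 ?_ hb2β
        rintro i'' hi'' rfl
        have : some i'' = some i := hbrow
        rw [Option.some.injEq] at this
        subst this
        exact hbne.1 rfl
      -- three body slots
      have hk := hS.hk
      have hB := hS.hB
      have hmem : ∀ J : Slot B k, ((S.ty ρ e J, i, c J (S.π i)) : Var F k p) ∈ S.vars (β i) ∨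
          ((S.ty ρ e J, i, c J (S.π i)) : Var F k p) ∈ S.vars b2 := by
        intro J
        obtain ⟨ρ', e', a', hb', J', hJ', hl'⟩ := (hF J (hnone J)).nrm hS hfin hi
        have hx : ((S.ty ρ e J, i, c J (S.π i)) : Var F k p) ∈ S.vars (.nrm ρ' e' i a') :=
          ⟨J', by simp only [hJ', hl']⟩
        rcases hthis _ hb' rfl with h | h
        · left; rw [← h]; exact hx
        · right; rw [← h]; exact hx
      set s : Fin 3 → Slot B k := fun d => some (⟨0, hB⟩, ⟨d, by omega⟩) with hs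
      have hsinj : ∀ d d', s d = s d' → d = d' := by
        intro d d' h
        simp only [hs, Option.some.injEq, Prod.mk.injEq, Fin.mk.injEq, true_and] at h
        exact Fin.ext h
      have hpig : ∃ b ∈ P, rowOf b = some i ∧ ∃ d d', d ≠ d' ∧
          ((S.ty ρ e (s d), i, c (s d) (S.π i)) : Var F k p) ∈ S.vars b ∧
          ((S.ty ρ e (s d'), i, c (s d') (S.π i)) : Var F k p) ∈ S.vars b := by
        rcases hmem (s 0) with h0 | h0 <;> rcases hmem (s 1) with h1 | h1 <;>
          rcases hmem (s 2) with h2 | h2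
        · exact ⟨_, (hβ i hi).1, rfl, 0, 1, by decide, h0, h1⟩
        · exact ⟨_, (hβ i hi).1, rfl, 0, 1, by decide, h0, h1⟩
        · exact ⟨_, (hβ i hi).1, rfl, 0, 2, by decide, h0, h2⟩
        · exact ⟨_, hb2, hrow2, 1, 2, by decide, h1, h2⟩
        · exact ⟨_, (hβ i hi).1, rfl, 1, 2, by decide, h1, h2⟩
        · exact ⟨_, hb2, hrow2, 0, 2, by decide, h0, h2⟩
        · exact ⟨_, hb2, hrow2, 0, 1, by decide, h0, h1⟩
        · exact ⟨_, hb2, hrow2, 0, 1, by decide, h0, h1⟩
      obtain ⟨b, hbm, hbrow, d, d', hdd, hxd, hxd'⟩ := hpig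
      rcases b with ⟨ρ', e', i', a'⟩ | ε
      swap
      · simp [rowOf] at hbrow
      have hii : some i' = some i := hbrow
      rw [Option.some.injEq] at hii
      subst hii
      obtain ⟨I, hI⟩ := hxd
      obtain ⟨I', hI'⟩ := hxd'
      simp only [Prod.mk.injEq, true_and] at hI hI'
      have heq : (ρ, e) = (ρ', e') := by
        by_contra hne
        exact hdd (hsinj _ _ (ty_share' hS hne hI.1.symm hI'.1.symm))
      rw [Prod.mk.injEq] at heq
      obtain ⟨rfl, rfl⟩ := heq
      have hIs := ty_inj' hS _ _ hI.1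
      subst hIs
      have hcd : S.bmap ρ ⟨0, hB⟩ (S.π i') a' = c (s d) (S.π i') := hI.2
      have hval' := hP _ hbm
      -- label agreement
      refine ⟨a', hbm, ?_⟩
      intro J hJ
      obtain ⟨i2, hi2, hπ2⟩ := hS.twin i'
      by_cases hib : i2 = ib
      · subst hib
        have k1 := (hF (s d) (hnone _)).here
        have k2 := (hF J hJ).here
        rw [hπ2] at k1 k2
        have k3 : S.bmap ρ ⟨0, hB⟩ (S.π i') a' = S.bmap ρ ⟨0, hB⟩ (S.π i') ab := by
          rw [hcd, k1]; rfl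
        have hval2 := hb
        simp only [Valid, hπ2] at hval2
        have : a' = ab :=
          hS.inj ρ hb.1 ⟨0, hB⟩ (S.π i') ⟨hval'.2.1, hval'.2.2⟩ ⟨hval2.2.1, hval2.2.2⟩ k3
        rw [k2, this]
      · obtain ⟨a2, ha2, hc2⟩ := hsingle i2 hib (hother i2 hib hi2)
        have k1 := hc2 (s d) (hnone _)
        have k2 := hc2 J hJ
        rw [hπ2] at k1 k2
        have hval2 := hP _ ha2
        simp only [Valid, hπ2] at hval2
        have k3 : S.bmap ρ ⟨0, hB⟩ (S.π i') a' = S.bmap ρ ⟨0, hB⟩ (S.π i') a2 := by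
          rw [hcd, k1]; rfl
        have : a' = a2 :=
          hS.inj ρ hb.1 ⟨0, hB⟩ (S.π i') ⟨hval'.2.1, hval'.2.2⟩ ⟨hval2.2.1, hval2.2.2⟩ k3
        rw [k2, this]
  choose! a haP hac using hrow
  -- labels with the given block
  set a' : Fin k → ℕ := fun i => if i = ib then ab else a i with ha'
  have ha'ib : a' ib = ab := by simp [ha']
  have ha'P : ∀ i, i ≠ ib → Blk.nrm ρ e i (a' i) ∈ P := by
    intro i hi
    simp only [ha', hi, if_false]
    exact haP i hi
  have ha'c : ∀ i J, ¬ Cov J → c J (S.π i) = S.lab ρ J (S.π i) (a' i) := by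
    intro i J hJ
    by_cases hi : i = ib
    · subst hi
      rw [ha'ib]
      exact (hF J hJ).here
    · simp only [ha', hi, if_false]
      exact hac i hi J hJ
  have ha'V : ∀ i, a' i < S.m ∧ S.cond ρ (S.π i) (a' i) := by
    intro i
    by_cases hi : i = ib
    · subst hi
      rw [ha'ib]
      exact ⟨hb.2.1, hb.2.2⟩
    · exact ⟨(hP _ (ha'P i hi)).2.1, (hP _ (ha'P i hi)).2.2⟩
  -- some body slot of every body index is uncovered
  have hk := hS.hk
  have hB := hS.hB
  have hbody : ∀ j : Fin B, ∃ d : Fin (k + 1), ¬ Cov (some (j, d)) := by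
    intro j
    by_contra hcon
    push Not at hcon
    have h01 := hone _ _ (hcon ⟨0, by omega⟩) (hcon ⟨1, by omega⟩)
    simp at h01
  -- the labels come from a context
  have hconst : ∀ i i', S.π i = S.π i' → a' i = a' i' := by
    intro i i' hii
    obtain ⟨d, hd⟩ := hbody ⟨0, hB⟩
    have k1 := ha'c i _ hd
    have k2 := ha'c i' _ hd
    rw [← hii] at k2
    have v1 := ha'V i
    have v2 := ha'V i'
    rw [← hii] at v2
    exact hS.inj ρ hb.1 ⟨0, hB⟩ (S.π i) v1 v2 (k1.symm.trans k2)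
  choose sec hsec using hS.surj
  set A : Q → ℕ := fun q => a' (sec q) with hA
  have hAπ : ∀ i, A (S.π i) = a' i := fun i => hconst _ _ (hsec _)
  have hctx : ∀ J, ¬ Cov J → c J = fun q => S.lab ρ J q (A q) := by
    intro J hJ
    funext q
    have := ha'c (sec q) J hJ
    rw [hsec] at this
    exact this
  -- the bodies are derivable
  have hder : ∀ j, S.Der (S.body ρ j) (fun q => S.bmap ρ j q (A q)) := by
    intro j
    obtain ⟨d, hd⟩ := hbody j
    have hf := (hF _ hd).fact
    rw [hctx _ hd] at hf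
    rcases hf with hf | hf
    · exact hf.1
    · exact absurd (congrArg Prod.fst hf.1) (hS.body_ne ρ hb.1 j)
  have hhead : S.Der (S.head ρ) (fun q => S.hmap ρ q (A q)) := by
    refine Der.step ρ A hb.1 (fun q => ?_) (fun q => ?_) hder
    · exact (ha'V (sec q)).1
    · have := (ha'V (sec q)).2
      rw [hsec] at this
      exact this
  refine ⟨A, ?_, ?_, ?_⟩
  · rw [hAπ, ha'ib]
  · intro i hi
    rw [hAπ]
    exact ha'P i hi
  · intro J
    refine Or.inl ⟨?_, rfl⟩
    rcases J with _ | t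
    · exact hhead
    · exact hder t.1

end normal

end Sys

end Vale.Agent.P310

namespace Vale.Agent.P310

open Finset

namespace Sys

variable {F R Q : Type} {B k p : ℕ} {S : Sys F R Q B k p}

theorem extend_nrm [DecidableEq (Blk R k p)] (hS : S.WF) (hfin : ∀ c, ¬ S.Der S.fin c)
    (P : Finset (Blk R k p)) (hP : ∀ b ∈ P, S.Valid b) (hcard : P.card ≤ k)
    (σ : Var F k p → ZMod 2) (hσ : S.GoodAsg P σ) (ρ : R) (e : El p) (ib : Fin k) (ab : ℕ)
    (hb : S.Valid (.nrm ρ e ib ab)) (hbP : Blk.nrm ρ e ib ab ∉ P) :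
    ∃ σ' : Var F k p → ZMod 2, (∀ b' ∈ P, ∀ x ∈ S.vars b', σ' x = σ x) ∧
      S.GoodAsg (insert (.nrm ρ e ib ab) P) σ' := by
  classical
  set x : Slot B k → Var F k p := fun J => (S.ty ρ e J, ib, S.lab ρ J (S.π ib) ab) with hx
  have hxinj : Function.Injective x := by
    intro J J' h
    exact ty_inj' hS _ _ (congrArg (fun y : Var F k p => y.1) h)
  set Cov : Slot B k → Prop := fun J => ∃ b ∈ P, x J ∈ S.vars b with hCov
  have hvars : S.vars (.nrm ρ e ib ab) = Set.range x := rfl
  -- forced values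
  set val : Slot B k → ZMod 2 := fun J =>
    if h : ∃ c τ, S.Forced P ρ e ib ab J c τ then
      h.choose_spec.choose - ∑ i ∈ univ.erase ib, σ (S.ty ρ e J, i, h.choose (S.π i)) else 0
    with hval
  have hvalF : ∀ J c τ, S.Forced P ρ e ib ab J c τ →
      val J = τ - ∑ i ∈ univ.erase ib, σ (S.ty ρ e J, i, c (S.π i)) := by
    intro J c τ hF
    have h : ∃ c τ, S.Forced P ρ e ib ab J c τ := ⟨c, τ, hF⟩
    obtain ⟨h1, h2⟩ := Forced.unique hS hfin hcard h.choose_spec.choose_spec hF
    simp only [hval, dif_pos h]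
    rw [h2, h1]
  set σ1 : Var F k p → ZMod 2 := fun y =>
    if h : ∃ J, y = x J ∧ ¬ Cov J then val h.choose else σ y with hσ1
  have hσ1x : ∀ J, ¬ Cov J → σ1 (x J) = val J := by
    intro J hJ
    have h : ∃ J', x J = x J' ∧ ¬ Cov J' := ⟨J, rfl, hJ⟩
    simp only [hσ1, dif_pos h]
    rw [← hxinj h.choose_spec.1]
  have hσ1o : ∀ y, (∀ J, ¬ Cov J → y ≠ x J) → σ1 y = σ y := by
    intro y hy
    have h : ¬ ∃ J, y = x J ∧ ¬ Cov J := by
      rintro ⟨J, h1, h2⟩
      exact hy J h2 h1
    simp only [hσ1, dif_neg h]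
  have hσ1P : ∀ b' ∈ P, ∀ y ∈ S.vars b', σ1 y = σ y := by
    intro b' hb' y hy
    apply hσ1o
    rintro J hJ rfl
    exact hJ ⟨b', hb', hy⟩
  have hrowne : ∀ g : F × El p, ∀ i c, i ≠ ib → σ1 (g, i, c) = σ (g, i, c) := by
    intro g i c hi
    apply hσ1o
    intro J hJ h
    exact hi (congrArg (fun y : Var F k p => y.2.1) h)
  -- facts covered by the larger set
  have hcases : ∀ g c τ, S.Fact g c τ → S.Covers (insert (.nrm ρ e ib ab) P) g c →
      S.Covers P g c ∨ ∃ J, g = S.ty ρ e J ∧ S.Forced P ρ e ib ab J c τ := by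
    intro g c τ hg hcov
    by_cases hcP : S.Covers P g c
    · exact Or.inl hcP
    · right
      unfold Covers at hcP
      push Not at hcP
      obtain ⟨i0, hi0⟩ := hcP
      obtain ⟨b, hbm, hxb⟩ := hcov i0
      rcases Finset.mem_insert.mp hbm with rfl | hbm
      swap
      · exact absurd hxb (hi0 b hbm)
      obtain ⟨J, hJ⟩ := hxb
      simp only [Prod.mk.injEq] at hJ
      obtain ⟨hJ1, hJ2, hJ3⟩ := hJ
      subst hJ1
      subst hJ2
      refine ⟨J, rfl, hg, hJ3.symm, ?_, ?_⟩
      · intro i hi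
        obtain ⟨b', hb', hxb'⟩ := hcov i
        rcases Finset.mem_insert.mp hb' with rfl | hb'
        · exfalso
          obtain ⟨J', hJ'⟩ := hxb'
          simp only [Prod.mk.injEq] at hJ'
          exact hi hJ'.2.1.symm
        · exact ⟨b', hb', hxb'⟩
      · intro b' hb' hxb'
        rw [hJ3] at hxb'
        exact hi0 b' hb' hxb'
  have hfacts : ∀ σ' : Var F k p → ZMod 2, (∀ b' ∈ P, ∀ y ∈ S.vars b', σ' y = σ y) →
      (∀ g i c, i ≠ ib → σ' (g, i, c) = σ1 (g, i, c)) →
      (∀ J, (∃ c τ, S.Forced P ρ e ib ab J c τ) → σ' (x J) = val J) →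
      ∀ g c τ, S.Fact g c τ → S.Covers (insert (.nrm ρ e ib ab) P) g c →
        ∑ i, σ' (g, i, c (S.π i)) = τ := by
    intro σ' h1 h2 h3 g c τ hg hcov
    rcases hcases g c τ hg hcov with hc | ⟨J, rfl, hF⟩
    · rw [← hσ.fact g c τ hg hc]
      refine Finset.sum_congr rfl fun i _ => ?_
      obtain ⟨b, hbm, hxb⟩ := hc i
      exact h1 b hbm _ hxb
    · rw [← Finset.add_sum_erase _ _ (mem_univ ib)]
      have e1 : σ' (S.ty ρ e J, ib, c (S.π ib)) = val J := by
        rw [hF.here]
        exact h3 J ⟨c, τ, hF⟩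
      have e2 : ∑ i ∈ univ.erase ib, σ' (S.ty ρ e J, i, c (S.π i)) =
          ∑ i ∈ univ.erase ib, σ (S.ty ρ e J, i, c (S.π i)) := by
        refine Finset.sum_congr rfl fun i hi => ?_
        have hi' := (Finset.mem_erase.mp hi).1
        rw [h2 _ _ _ hi', hrowne _ _ _ hi']
      rw [e1, e2, hvalF J c τ hF]
      ring
  by_cases hfree : ∃ J, ¬ Cov J ∧ ¬ ∃ c τ, S.Forced P ρ e ib ab J c τ
  · obtain ⟨J0, hJ0, hnF⟩ := hfree
    set σ' : Var F k p → ZMod 2 :=
      Function.update σ1 (x J0) (σ1 (x J0) - S.bsum σ1 (.nrm ρ e ib ab)) with hσ'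
    have hne : ∀ y, y ≠ x J0 → σ' y = σ1 y := fun y hy => Function.update_of_ne hy _ _
    have hP' : ∀ b' ∈ P, ∀ y ∈ S.vars b', σ' y = σ y := by
      intro b' hb' y hy
      rw [hne, hσ1P b' hb' y hy]
      rintro rfl
      exact hJ0 ⟨b', hb', hy⟩
    refine ⟨σ', hP', ?_, ?_⟩
    · intro b hbm
      rcases Finset.mem_insert.mp hbm with rfl | hbm
      · have h1 : S.bsum σ' (.nrm ρ e ib ab) = σ' (x J0) + ∑ J ∈ univ.erase J0, σ' (x J) := by
          rw [bsum]; exact (Finset.add_sum_erase _ _ (mem_univ J0)).symm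
        have h2 : S.bsum σ1 (.nrm ρ e ib ab) = σ1 (x J0) + ∑ J ∈ univ.erase J0, σ1 (x J) := by
          rw [bsum]; exact (Finset.add_sum_erase _ _ (mem_univ J0)).symm
        have h3 : ∑ J ∈ univ.erase J0, σ' (x J) = ∑ J ∈ univ.erase J0, σ1 (x J) := by
          refine Finset.sum_congr rfl fun J hJ => hne _ ?_
          intro h
          exact (Finset.mem_erase.mp hJ).1 (hxinj h)
        have h4 : σ' (x J0) = σ1 (x J0) - S.bsum σ1 (.nrm ρ e ib ab) :=
          Function.update_self _ _ _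
        rw [h1, h3, h4, h2]
        simp only [ch]
        ring
      · rw [bsum_congr (hP' b hbm)]
        exact hσ.blk b hbm
    · refine hfacts σ' hP' ?_ ?_
      · intro g i c hi
        apply hne
        intro h
        exact hi (congrArg (fun y : Var F k p => y.2.1) h)
      · rintro J ⟨c, τ, hF⟩
        have hJne : J ≠ J0 := by
          rintro rfl
          exact hnF ⟨c, τ, hF⟩
        rw [hne _ (fun h => hJne (hxinj h))]
        apply hσ1x
        rintro ⟨b, hbm, hxb⟩
        exact hF.unc b hbm hxb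
  · push Not at hfree
    obtain ⟨A, hA1, hA2, hA3⟩ := virtual hS hfin hP hcard hb hbP (fun J hJ => hfree J (by
      rintro ⟨b, hbm, hxb⟩
      exact hJ b hbm hxb))
    refine ⟨σ1, hσ1P, ?_, ?_⟩
    · intro b hbm
      rcases Finset.mem_insert.mp hbm with rfl | hbm
      swap
      · rw [bsum_congr (hσ1P b hbm)]
        exact hσ.blk b hbm
      have hslot : ∀ J, σ1 (x J) =
          - ∑ i ∈ univ.erase ib, σ (S.ty ρ e J, i, S.lab ρ J (S.π i) (A (S.π i))) := by
        intro J
        by_cases hJ : Cov J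
        · have h1 : σ1 (x J) = σ (x J) := by
            obtain ⟨b, hbm, hxb⟩ := hJ
            exact hσ1P b hbm _ hxb
          have hcov : S.Covers P (S.ty ρ e J) (fun q => S.lab ρ J q (A q)) := by
            intro i
            by_cases hi : i = ib
            · subst hi
              simp only [hA1]
              exact hJ
            · exact ⟨_, hA2 i hi, ⟨J, rfl⟩⟩
          have h2 := hσ.fact _ _ _ (hA3 J) hcov
          rw [← Finset.add_sum_erase _ _ (mem_univ ib)] at h2
          simp only [hA1] at h2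
          rw [h1]
          exact eq_neg_of_add_eq_zero_left h2
        · obtain ⟨c, τ, hF⟩ := hfree J hJ
          have hF' : S.Forced P ρ e ib ab J (fun q => S.lab ρ J q (A q)) 0 := by
            refine ⟨hA3 J, ?_, ?_, hF.unc⟩
            · simp only [hA1]
            · intro i hi
              exact ⟨_, hA2 i hi, ⟨J, rfl⟩⟩
          rw [hσ1x J hJ, hvalF J _ _ hF']
          ring
      have h1 : S.bsum σ1 (.nrm ρ e ib ab) = ∑ J, σ1 (x J) := rfl
      rw [h1, Finset.sum_congr rfl fun J _ => hslot J, Finset.sum_neg_distrib, Finset.sum_comm]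
      have h2 : ∑ i ∈ univ.erase ib,
          ∑ J, σ (S.ty ρ e J, i, S.lab ρ J (S.π i) (A (S.π i))) = 0 := by
        refine Finset.sum_eq_zero fun i hi => ?_
        have := hσ.blk _ (hA2 i (Finset.mem_erase.mp hi).1)
        exact this
      rw [h2]
      simp [ch]
    · refine hfacts σ1 hσ1P (fun _ _ _ _ => rfl) ?_
      rintro J ⟨c, τ, hF⟩
      apply hσ1x
      rintro ⟨b, hbm, hxb⟩
      exact hF.unc b hbm hxb

/-- The extension lemma. -/
theorem extend' [DecidableEq (Blk R k p)] (hS : S.WF) (hfin : ∀ c, ¬ S.Der S.fin c)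
    (P : Finset (Blk R k p)) (hP : ∀ b ∈ P, S.Valid b) (hcard : P.card ≤ k)
    (σ : Var F k p → ZMod 2) (hσ : S.GoodAsg P σ) (b : Blk R k p) (hb : S.Valid b) :
    ∃ σ' : Var F k p → ZMod 2, (∀ b' ∈ P, ∀ x ∈ S.vars b', σ' x = σ x) ∧
      S.GoodAsg (insert b P) σ' := by
  by_cases hbP : b ∈ P
  · refine ⟨σ, fun _ _ _ _ => rfl, ?_⟩
    rw [Finset.insert_eq_of_mem hbP]
    exact hσ
  · rcases b with ⟨ρ, e, ib, ab⟩ | ε
    · exact extend_nrm hS hfin P hP hcard σ hσ ρ e ib ab hb hbP
    · exact extend_spc hS hfin P σ hσ ε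

end Sys

end Vale.Agent.P310

/-!
Summary of the facts about block systems: the sharing lemma and the extension lemma
(Duplicator's strategy).
-/

namespace Vale.Agent.P310

namespace Sys

variable {F R Q : Type} {B k p : ℕ} {S : Sys F R Q B k p}

/-- Two different normal block types share at most one type. -/
theorem ty_share (hS : S.WF) {ρ ρ' : R} {e e' : El p} {J J' I I' : Slot B k}
    (hne : (ρ, e) ≠ (ρ', e')) (_hact : S.act ρ) (_hact' : S.act ρ')
    (h1 : S.ty ρ e J = S.ty ρ' e' J') (h2 : S.ty ρ e I = S.ty ρ' e' I') : J = I :=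
  ty_share' hS hne h1 h2

/-- The slots of a block have different types. -/
theorem ty_inj (hS : S.WF) (ρ : R) (e : El p) : Function.Injective (S.ty ρ e) :=
  ty_inj' hS ρ e

/-- The extension lemma. -/
theorem extend [DecidableEq (Blk R k p)] (hS : S.WF) (hfin : ∀ c, ¬ S.Der S.fin c)
    (P : Finset (Blk R k p)) (hP : ∀ b ∈ P, S.Valid b) (hcard : P.card ≤ k)
    (σ : Var F k p → ZMod 2) (hσ : S.GoodAsg P σ) (b : Blk R k p) (hb : S.Valid b) :
    ∃ σ' : Var F k p → ZMod 2, (∀ b' ∈ P, ∀ x ∈ S.vars b', σ' x = σ x) ∧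
      S.GoodAsg (insert b P) σ' :=
  extend' hS hfin P hP hcard σ hσ b hb

end Sys

end Vale.Agent.P310

/-!
The two graphs attached to a Horn system and the main equivalence: the graphs are `k`-WL
equivalent iff the final fact is not derivable.
-/

namespace Vale.Agent.P310

open Finset

/-- Kinds of active vertices. `N` is the number of gadget kinds. Here `k = k' + 1`. -/
inductive Kind (R : Type) (B k' p N : ℕ)
  | nrm (ρ : R) (e : El p) (i : Fin (k' + 1)) (s : Fin B × Fin (k' + 2) → ZMod 2)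
  | spc (ε : Option (El p)) (s : Fin k' → ZMod 2)
  | gad (w : Fin N)

/-- Classes of block kinds. -/
abbrev Cls (R : Type) (k p : ℕ) := (R × El p × Fin k) ⊕ Option (El p)

namespace Sys

variable {F R Q : Type} {B k' p N : ℕ} (S : Sys F R Q B (k' + 1) p)

/-- The value at a slot of a vertex in the fiber of a normal block. -/
def nval (s : Fin B × Fin (k' + 2) → ZMod 2) : Slot B (k' + 1) → ZMod 2
  | none => ∑ t, s t
  | some t => s t

/-- The value at a row of a vertex in the fiber of a special block; `j` is the charge of the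
block `spc none`. -/
def sval (j : ZMod 2) (ε : Option (El p)) (s : Fin k' → ZMod 2) : Fin (k' + 1) → ZMod 2 :=
  Fin.cons ((∑ t, s t) + if ε = none then j else 0) s

/-- The one-sided adjacency condition for two vertices given by their kinds and labels. `wn`
numbers the classes, `j` is the charge. -/
def Adj0 (wn : Cls R (k' + 1) p → ℕ) (j : ZMod 2) :
    Option (Kind R B k' p N) → ℕ → Option (Kind R B k' p N) → ℕ → Prop
  | some (.nrm ρ e i s), a, some (.nrm ρ' e' i' s'), a' =>
      i = i' ∧ S.Valid (.nrm ρ e i a) ∧ S.Valid (.nrm ρ' e' i' a') ∧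
      ¬ (ρ = ρ' ∧ e = e' ∧ a = a') ∧
      ∃ J J', S.ty ρ e J = S.ty ρ' e' J' ∧ S.lab ρ J (S.π i) a = S.lab ρ' J' (S.π i) a' ∧
        nval s J = nval s' J'
  | some (.nrm ρ e i s), a, some (.spc ε s'), a' =>
      S.Valid (.nrm ρ e i a) ∧ a' = 0 ∧
      ∃ J, S.ty ρ e J = S.sty ε ∧ S.lab ρ J (S.π i) a = 0 ∧ nval s J = sval j ε s' i
  | some (.nrm ρ e i _), a, some (.gad w), a' =>
      S.Valid (.nrm ρ e i a) ∧
        ((w : ℕ) < wn (.inl (ρ, e, i)) ∨ ((w : ℕ) = wn (.inl (ρ, e, i)) ∧ a' ≤ a))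
  | some (.spc ε _), a, some (.gad w), a' =>
      a = 0 ∧ ((w : ℕ) < wn (.inr ε) ∨ ((w : ℕ) = wn (.inr ε) ∧ a' ≤ a))
  | some (.gad _), _, none, _ => True
  | _, _, _, _ => False

theorem Adj0.ne {wn : Cls R (k' + 1) p → ℕ} {j : ZMod 2} {κ : Option (Kind R B k' p N)} {a : ℕ}
    (h : S.Adj0 wn j κ a κ a) : False := by
  match κ, h with
  | some (.nrm ρ e i s), h => exact h.2.2.2.1 ⟨rfl, rfl, rfl⟩
  | some (.spc ε s), h => exact h
  | some (.gad w), h => exact h
  | none, h => exact h

/-- The graph with charge `j` on a vertex set `U` whose vertices have kinds and labels. -/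
def graph (wn : Cls R (k' + 1) p → ℕ) {U : Type} (κ : U → Option (Kind R B k' p N))
    (lb : U → ℕ) (j : ZMod 2) : SimpleGraph U where
  Adj u v := S.Adj0 wn j (κ u) (lb u) (κ v) (lb v) ∨ S.Adj0 wn j (κ v) (lb v) (κ u) (lb u)
  symm := ⟨fun _ _ h => Or.symm h⟩
  loopless := ⟨fun _ h => h.elim (Adj0.ne S) (Adj0.ne S)⟩

/-- The vertex set `U` is as required. -/
structure VOk {U : Type} [Fintype U] (wn : Cls R (k' + 1) p → ℕ)
    (κ : U → Option (Kind R B k' p N)) (lb : U → ℕ) : Prop where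
  ex : ∀ (x : Kind R B k' p N) (a : ℕ), a < S.m → ∃! u, κ u = some x ∧ lb u = a
  lt : ∀ u, lb u < S.m
  dummy : Nat.card (Kind R B k' p N) * S.m < Nat.card {u // κ u = none}
  wninj : Function.Injective wn
  wnlt : ∀ c, wn c + 1 < N

end Sys

end Vale.Agent.P310

/-!
Duplicator's theorem: if the final fact is not derivable then the graphs are `k`-WL equivalent.
-/

namespace Vale.Agent.P310

open Finset

namespace Sys

variable {F R Q : Type} {B k' p N : ℕ} (S : Sys F R Q B (k' + 1) p)

open Classical in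
/-- The block of a vertex with given kind and label. -/
noncomputable def bk : Option (Kind R B k' p N) → ℕ → Option (Blk R (k' + 1) p)
  | some (.nrm ρ e i _), a => if S.Valid (.nrm ρ e i a) then some (.nrm ρ e i a) else none
  | some (.spc ε _), a => if a = 0 then some (.spc ε) else none
  | _, _ => none

open Classical in
/-- Shift of a kind by an assignment. -/
noncomputable def sh (σ : Var F (k' + 1) p → ZMod 2) :
    ℕ → Kind R B k' p N → Kind R B k' p N
  | a, .nrm ρ e i s => if S.Valid (.nrm ρ e i a) then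
      .nrm ρ e i (fun t => s t + σ (S.ty ρ e (some t), i, S.lab ρ (some t) (S.π i) a))
      else .nrm ρ e i s
  | a, .spc ε s => if a = 0 then .spc ε (fun t => s t + σ (S.sty ε, t.succ, 0)) else .spc ε s
  | _, .gad w => .gad w

variable {S}

theorem add_self_cancel (x y : ZMod 2) : x + y + y = x := by
  rw [add_assoc, CharTwo.add_self_eq_zero, add_zero]

theorem sh_sh (σ : Var F (k' + 1) p → ZMod 2) (x : Kind R B k' p N) (a : ℕ) :
    S.sh σ a (S.sh σ a x) = x := by
  cases x with
  | nrm ρ e i s =>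
    by_cases h : S.Valid (.nrm ρ e i a)
    · simp [sh, h, add_self_cancel]
    · simp [sh, h]
  | spc ε s =>
    by_cases h : a = 0
    · simp [sh, h, add_self_cancel]
    · simp [sh, h]
  | gad w => rfl

theorem bk_sh (σ : Var F (k' + 1) p → ZMod 2) (x : Kind R B k' p N) (a : ℕ) :
    S.bk (some (S.sh σ a x)) a = S.bk (some x) a := by
  cases x with
  | nrm ρ e i s =>
    by_cases h : S.Valid (.nrm ρ e i a)
    · simp [sh, bk, h]
    · simp [sh, bk, h]
  | spc ε s =>
    by_cases h : a = 0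
    · simp [sh, bk, h]
    · simp [sh, bk, h]
  | gad w => rfl

theorem sh_congr {σ σ' : Var F (k' + 1) p → ZMod 2} (x : Kind R B k' p N) (a : ℕ)
    (h : ∀ b, S.bk (some x) a = some b → ∀ v ∈ S.vars b, σ v = σ' v) :
    S.sh σ a x = S.sh σ' a x := by
  cases x with
  | nrm ρ e i s =>
    by_cases hv : S.Valid (.nrm ρ e i a)
    · have h2 := h (.nrm ρ e i a) (by simp [bk, hv])
      simp only [sh, hv, if_true]
      congr 1
      funext t
      rw [h2 _ ⟨some t, rfl⟩]
    · simp [sh, hv]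
  | spc ε s =>
    by_cases hv : a = 0
    · have h2 := h (.spc ε) (by simp [bk, hv])
      simp only [sh, hv, if_true]
      congr 1
      funext t
      rw [h2 _ ⟨t.succ, rfl⟩]
    · simp [sh, hv]
  | gad w => rfl

theorem valid_of_bk {x : Option (Kind R B k' p N)} {a : ℕ} {b : Blk R (k' + 1) p}
    (h : S.bk x a = some b) : S.Valid b := by
  match x, h with
  | some (.nrm ρ e i s), h =>
    by_cases hv : S.Valid (.nrm ρ e i a)
    · simp only [bk, hv, if_true, Option.some.injEq] at h
      rw [← h]; exact hv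
    · simp [bk, hv] at h
  | some (.spc ε s), h =>
    by_cases hv : a = 0
    · simp only [bk, hv, if_true, Option.some.injEq] at h
      rw [← h]; trivial
    · simp [bk, hv] at h
  | some (.gad w), h => simp [bk] at h
  | none, h => simp [bk] at h

/-- Values of shifted vertices in normal blocks. -/
theorem nval_shift {σ : Var F (k' + 1) p → ZMod 2} {ρ : R} {e : El p} {i : Fin (k' + 1)} {a : ℕ}
    (h : S.bsum σ (.nrm ρ e i a) = 0) (s : Fin B × Fin (k' + 2) → ZMod 2)
    (J : Slot B (k' + 1)) :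
    nval (fun t => s t + σ (S.ty ρ e (some t), i, S.lab ρ (some t) (S.π i) a)) J =
      nval s J + σ (S.ty ρ e J, i, S.lab ρ J (S.π i) a) := by
  cases J with
  | some t => rfl
  | none =>
    simp only [nval]
    rw [Finset.sum_add_distrib]
    congr 1
    simp only [bsum] at h
    rw [Fintype.sum_option] at h
    exact (CharTwo.add_eq_zero.mp h).symm

/-- Values of shifted vertices in special blocks. -/
theorem sval_shift {σ : Var F (k' + 1) p → ZMod 2} {ε : Option (El p)}
    (h : S.bsum σ (.spc ε) = ch (.spc ε : Blk R (k' + 1) p)) (s : Fin k' → ZMod 2)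
    (i : Fin (k' + 1)) :
    sval 1 ε (fun t => s t + σ (S.sty ε, t.succ, 0)) i = sval 0 ε s i + σ (S.sty ε, i, 0) := by
  refine Fin.cases ?_ (fun t => ?_) i
  · simp only [sval, Fin.cons_zero]
    rw [Finset.sum_add_distrib]
    simp only [bsum] at h
    rw [Fin.sum_univ_succ] at h
    cases ε with
    | none =>
      simp only [ch] at h
      have h2 : ∑ t : Fin k', σ (S.sty none, t.succ, 0) = 1 + σ (S.sty none, 0, 0) := by
        rw [← h]
        rw [add_comm (σ _), add_self_cancel]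
      simp only [if_true]
      rw [h2]
      have h3 : (1 : ZMod 2) + 1 = 0 := by decide
      linear_combination h3
    | some e =>
      simp only [ch] at h
      have h2 : ∑ t : Fin k', σ (S.sty (some e), t.succ, 0) = σ (S.sty (some e), 0, 0) :=
        (CharTwo.add_eq_zero.mp h).symm
      simp only [reduceCtorEq, if_false]
      rw [h2]
      ring
  · simp only [sval, Fin.cons_succ]

theorem add_right_inj_iff {x y z w : ZMod 2} (h : z = w) : x + z = y + w ↔ x = y := by
  rw [h]; exact add_left_inj w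

/-- The one-sided adjacency condition is respected by shifts. -/
theorem adj0_sh {wn : Cls R (k' + 1) p → ℕ} {σ : Var F (k' + 1) p → ZMod 2}
    {κ κ' : Option (Kind R B k' p N)} {a a' : ℕ}
    (h : ∀ b, S.bk κ a = some b → S.bsum σ b = ch b)
    (h' : ∀ b, S.bk κ' a' = some b → S.bsum σ b = ch b) :
    S.Adj0 wn 1 (κ.map (S.sh σ a)) a (κ'.map (S.sh σ a')) a' ↔ S.Adj0 wn 0 κ a κ' a' := by
  match κ, κ', h, h' with
  | some (.nrm ρ e i s), some (.nrm ρ' e' i' s'), h, h' =>
    by_cases hv : S.Valid (.nrm ρ e i a)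
    · by_cases hv' : S.Valid (.nrm ρ' e' i' a')
      · have h1 := h (.nrm ρ e i a) (by simp [bk, hv])
        have h2 := h' (.nrm ρ' e' i' a') (by simp [bk, hv'])
        simp only [ch] at h1 h2
        simp only [Option.map_some, sh, hv, hv', if_true, Adj0, true_and]
        refine and_congr_right fun hi => and_congr_right fun _ => exists_congr fun J =>
          exists_congr fun J' => and_congr_right fun hty => and_congr_right fun hlab => ?_
        subst hi
        rw [nval_shift h1, nval_shift h2]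
        apply add_right_inj_iff
        rw [hty, hlab]
      · simp only [Option.map_some, sh, hv', if_false]
        by_cases hv : S.Valid (.nrm ρ e i a) <;> simp [hv, hv', Adj0]
    · by_cases hv' : S.Valid (.nrm ρ' e' i' a') <;>
      simp [hv, hv', Adj0, sh]
  | some (.nrm ρ e i s), some (.spc ε s'), h, h' =>
    by_cases hv : S.Valid (.nrm ρ e i a)
    · by_cases hv' : a' = 0
      · have h1 := h (.nrm ρ e i a) (by simp [bk, hv])
        have h2 := h' (.spc ε) (by simp [bk, hv'])
        simp only [Option.map_some, sh, hv, hv', if_true, Adj0, true_and]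
        refine exists_congr fun J => and_congr_right fun hty => and_congr_right fun hlab => ?_
        have h1' : S.bsum σ (.nrm ρ e i a) = 0 := h1
        rw [nval_shift h1', sval_shift h2]
        apply add_right_inj_iff
        rw [hty, hlab]
      · simp [hv, hv', Adj0, sh]
    · by_cases hv' : a' = 0 <;> simp [hv, hv', Adj0, sh]
  | some (.nrm ρ e i s), some (.gad w), h, h' =>
    by_cases hv : S.Valid (.nrm ρ e i a) <;> simp [hv, Adj0, sh]
  | some (.nrm ρ e i s), none, h, h' =>
    by_cases hv : S.Valid (.nrm ρ e i a) <;> simp [hv, Adj0, sh]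
  | some (.spc ε s), some (.nrm ρ e i s'), h, h' =>
    by_cases hv' : a = 0 <;>
    by_cases hv : S.Valid (.nrm ρ e i a') <;> simp [hv, hv', Adj0, sh]
  | some (.spc ε s), some (.spc ε' s'), h, h' =>
    by_cases hv' : a = 0 <;>
    by_cases hv : a' = 0 <;> simp [hv, hv', Adj0, sh]
  | some (.spc ε s), some (.gad w), h, h' =>
    by_cases hv' : a = 0 <;> simp [hv', Adj0, sh]
  | some (.spc ε s), none, h, h' =>
    by_cases hv' : a = 0 <;> simp [hv', Adj0, sh]
  | some (.gad w), some (.nrm ρ e i s), h, h' =>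
    by_cases hv : S.Valid (.nrm ρ e i a') <;> simp [hv, Adj0, sh]
  | some (.gad w), some (.spc ε s), h, h' =>
    by_cases hv : a' = 0 <;> simp [hv, Adj0, sh]
  | some (.gad w), some (.gad w'), h, h' => simp [Adj0, sh]
  | some (.gad w), none, h, h' => simp [Adj0, sh]
  | none, some (.nrm ρ e i s), h, h' =>
    by_cases hv : S.Valid (.nrm ρ e i a') <;> simp [hv, Adj0, sh]
  | none, some (.spc ε s), h, h' =>
    by_cases hv : a' = 0 <;> simp [hv, Adj0, sh]
  | none, some (.gad w), h, h' => simp [Adj0, sh]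
  | none, none, h, h' => simp [Adj0]

section act

variable {U : Type} [Fintype U] {wn : Cls R (k' + 1) p → ℕ}
    {κ : U → Option (Kind R B k' p N)} {lb : U → ℕ}

theorem VOk.unique (hV : S.VOk wn κ lb) {u u' : U} {x : Kind R B k' p N} (h : κ u = some x)
    (h' : κ u' = some x) (hl : lb u = lb u') : u = u' :=
  (hV.ex x (lb u') (hV.lt u')).unique ⟨h, hl⟩ ⟨h', rfl⟩

theorem exists_mv (hV : S.VOk wn κ lb) (σ : Var F (k' + 1) p → ZMod 2) (u : U) :
    ∃ u' : U, κ u' = (κ u).map (S.sh σ (lb u)) ∧ lb u' = lb u ∧ (κ u = none → u' = u) := by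
  cases h : κ u with
  | none => exact ⟨u, by simp [h], rfl, fun _ => rfl⟩
  | some x =>
    obtain ⟨u', hu', -⟩ := hV.ex (S.sh σ (lb u) x) (lb u) (hV.lt u)
    exact ⟨u', by simpa using hu'.1, hu'.2, fun h => by simp at h⟩

/-- The action of an assignment on the vertices. -/
noncomputable def mv (hV : S.VOk wn κ lb) (σ : Var F (k' + 1) p → ZMod 2) (u : U) : U :=
  Classical.choose (exists_mv hV σ u)

theorem kap_mv (hV : S.VOk wn κ lb) (σ : Var F (k' + 1) p → ZMod 2) (u : U) :
    κ (mv hV σ u) = (κ u).map (S.sh σ (lb u)) :=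
  (Classical.choose_spec (exists_mv hV σ u)).1

theorem lb_mv (hV : S.VOk wn κ lb) (σ : Var F (k' + 1) p → ZMod 2) (u : U) :
    lb (mv hV σ u) = lb u :=
  (Classical.choose_spec (exists_mv hV σ u)).2.1

theorem mv_none (hV : S.VOk wn κ lb) (σ : Var F (k' + 1) p → ZMod 2) (u : U)
    (h : κ u = none) : mv hV σ u = u :=
  (Classical.choose_spec (exists_mv hV σ u)).2.2 h

theorem mv_mv (hV : S.VOk wn κ lb) (σ : Var F (k' + 1) p → ZMod 2) (u : U) :
    mv hV σ (mv hV σ u) = u := by
  cases h : κ u with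
  | none => rw [mv_none hV σ u h, mv_none hV σ u h]
  | some x =>
    refine hV.unique (x := x) ?_ h ?_
    · rw [kap_mv hV, kap_mv hV, lb_mv hV, h]
      simp [sh_sh]
    · rw [lb_mv hV, lb_mv hV]

theorem mv_congr (hV : S.VOk wn κ lb) {σ σ' : Var F (k' + 1) p → ZMod 2} {u : U}
    (h : ∀ b, S.bk (κ u) (lb u) = some b → ∀ v ∈ S.vars b, σ v = σ' v) :
    mv hV σ u = mv hV σ' u := by
  cases hu : κ u with
  | none => rw [mv_none hV σ u hu, mv_none hV σ' u hu]
  | some x =>
    rw [hu] at h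
    refine hV.unique (x := S.sh σ (lb u) x) ?_ ?_ ?_
    · rw [kap_mv hV, hu]; rfl
    · rw [kap_mv hV, hu, Option.map_some, sh_congr x (lb u) h]
    · rw [lb_mv hV, lb_mv hV]

theorem bk_mv (hV : S.VOk wn κ lb) (σ : Var F (k' + 1) p → ZMod 2) (u : U) :
    S.bk (κ (mv hV σ u)) (lb (mv hV σ u)) = S.bk (κ u) (lb u) := by
  rw [kap_mv hV, lb_mv hV]
  cases hu : κ u with
  | none => rfl
  | some x => exact bk_sh σ x (lb u)

theorem adj_mv (hV : S.VOk wn κ lb) {σ : Var F (k' + 1) p → ZMod 2} {u v : U}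
    (hu : ∀ b, S.bk (κ u) (lb u) = some b → S.bsum σ b = ch b)
    (hv : ∀ b, S.bk (κ v) (lb v) = some b → S.bsum σ b = ch b) :
    (S.graph wn κ lb 0).Adj u v ↔ (S.graph wn κ lb 1).Adj (mv hV σ u) (mv hV σ v) := by
  simp only [graph]
  rw [kap_mv hV, kap_mv hV, lb_mv hV, lb_mv hV, adj0_sh hu hv, adj0_sh hv hu]

open Classical in
/-- The blocks of a tuple. -/
noncomputable def blks (S : Sys F R Q B (k' + 1) p) (κ : U → Option (Kind R B k' p N))
    (lb : U → ℕ) {n : ℕ} (x : Fin n → U) : Finset (Blk R (k' + 1) p) :=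
  Finset.univ.biUnion fun i => (S.bk (κ (x i)) (lb (x i))).toFinset

omit [Fintype U] in
theorem mem_blks {n : ℕ} {x : Fin n → U} {b : Blk R (k' + 1) p} :
    b ∈ blks S κ lb x ↔ ∃ i, S.bk (κ (x i)) (lb (x i)) = some b := by
  simp [blks]

omit [Fintype U] in
theorem card_blks {n : ℕ} (x : Fin n → U) : (blks S κ lb x).card ≤ n := by
  classical
  unfold blks
  refine (Finset.card_biUnion_le).trans ?_
  calc ∑ i : Fin n, (S.bk (κ (x i)) (lb (x i))).toFinset.card ≤ ∑ _i : Fin n, 1 := by
        apply Finset.sum_le_sum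
        intro i _
        cases S.bk (κ (x i)) (lb (x i)) <;> simp
    _ = n := by simp

theorem GoodAsg.mono {P P' : Finset (Blk R (k' + 1) p)} {σ : Var F (k' + 1) p → ZMod 2}
    (h : S.GoodAsg P σ) (hP : P' ⊆ P) : S.GoodAsg P' σ where
  blk b hb := h.blk b (hP hb)
  fact g c τ hg hc := h.fact g c τ hg fun i => by
    obtain ⟨b, hb, hb'⟩ := hc i
    exact ⟨b, hP hb, hb'⟩

/-- Duplicator's theorem. -/
theorem wlEquiv_of_not_der' (hS : S.WF) (hV : S.VOk wn κ lb) (hfin : ∀ c, ¬ S.Der S.fin c) :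
    WLEquiv (k' + 1) (S.graph wn κ lb 0) (S.graph wn κ lb 1) := by
  classical
  obtain ⟨d⟩ : Nonempty {u // κ u = none} := by
    have h := hV.dummy
    by_contra hc
    rw [not_nonempty_iff] at hc
    have h0 : Nat.card {u // κ u = none} = 0 := Nat.card_of_isEmpty
    rw [h0] at h
    exact Nat.not_lt_zero _ h
  set Rel : (Fin (k' + 1) → U) → (Fin (k' + 1) → U) → Prop := fun x y =>
    ∃ σ : Var F (k' + 1) p → ZMod 2, S.GoodAsg (blks S κ lb x) σ ∧ ∀ i, y i = mv hV σ (x i)
    with hRel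
  have key : Same (k' + 1) (S.graph wn κ lb 0) (S.graph wn κ lb 1)
      (fun _ => (d : U)) (fun _ => (d : U)) := by
    refine same_of_rel Rel ?_ ?_ _ _ ?_
    · rintro x y ⟨σ, hσ, hy⟩ i j
      refine ⟨?_, ?_⟩
      · rw [hy i, hy j]
        refine ⟨fun h => by rw [h], fun h => ?_⟩
        rw [← mv_mv hV σ (x i), h, mv_mv hV]
      · rw [hy i, hy j]
        exact adj_mv hV (fun b hb => hσ.blk b (mem_blks.2 ⟨i, hb⟩))
          (fun b hb => hσ.blk b (mem_blks.2 ⟨j, hb⟩))
    · rintro x y ⟨σ, hσ, hy⟩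
      have hP : ∀ b ∈ blks S κ lb x, S.Valid b := by
        intro b hb
        obtain ⟨i, hi⟩ := mem_blks.1 hb
        exact valid_of_bk hi
      have hext : ∀ o : Option (Blk R (k' + 1) p), ∃ σ' : Var F (k' + 1) p → ZMod 2,
          (∀ b' ∈ blks S κ lb x, ∀ v ∈ S.vars b', σ' v = σ v) ∧
          ∀ z, S.bk (κ z) (lb z) = o →
            S.GoodAsg (blks S κ lb x ∪ (S.bk (κ z) (lb z)).toFinset) σ' := by
        intro o
        by_cases ho : ∃ z, S.bk (κ z) (lb z) = o
        · obtain ⟨z, hz⟩ := ho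
          cases o with
          | none =>
            refine ⟨σ, fun _ _ _ _ => rfl, fun z' hz' => ?_⟩
            rw [hz']
            simpa using hσ
          | some b =>
            obtain ⟨σ', h1, h2⟩ := extend hS hfin (blks S κ lb x) hP (card_blks x) σ hσ b
              (valid_of_bk hz)
            refine ⟨σ', h1, fun z' hz' => ?_⟩
            refine h2.mono ?_
            rw [hz']
            intro b' hb'
            simp only [Option.toFinset_some, Finset.mem_union, Finset.mem_singleton] at hb'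
            simp only [Finset.mem_insert]
            tauto
        · exact ⟨σ, fun _ _ _ _ => rfl, fun z hz => absurd ⟨z, hz⟩ ho⟩
      choose τ hτ1 hτ2 using hext
      have hinv : ∀ z, mv hV (τ (S.bk (κ (mv hV (τ (S.bk (κ z) (lb z))) z))
          (lb (mv hV (τ (S.bk (κ z) (lb z))) z)))) (mv hV (τ (S.bk (κ z) (lb z))) z) = z := by
        intro z
        rw [bk_mv, mv_mv]
      refine ⟨⟨fun z => mv hV (τ (S.bk (κ z) (lb z))) z,
        fun z => mv hV (τ (S.bk (κ z) (lb z))) z, hinv, hinv⟩, fun z i => ?_⟩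
      refine ⟨τ (S.bk (κ z) (lb z)), ?_, ?_⟩
      · refine (hτ2 _ z rfl).mono ?_
        intro b hb
        obtain ⟨j, hj⟩ := mem_blks.1 hb
        rw [Finset.mem_union]
        by_cases hji : j = i
        · right
          subst hji
          simpa using hj
        · left
          rw [Function.update_of_ne hji] at hj
          exact mem_blks.2 ⟨j, hj⟩
      · intro j
        by_cases hji : j = i
        · subst hji
          simp
        · rw [Function.update_of_ne hji, Function.update_of_ne hji, hy j]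
          refine mv_congr hV fun b hb v hv => ?_
          exact (hτ1 _ b (mem_blks.2 ⟨j, hb⟩) v hv).symm
    · refine ⟨fun _ => 0, ⟨?_, ?_⟩, fun i => (mv_none hV _ _ d.2).symm⟩
      · intro b hb
        obtain ⟨i, hi⟩ := mem_blks.1 hb
        rw [d.2] at hi
        simp [bk] at hi
      · intro g c τ _ hc
        obtain ⟨b, hb, -⟩ := hc 0
        obtain ⟨i, hi⟩ := mem_blks.1 hb
        rw [d.2] at hi
        simp [bk] at hi
  exact wlEquiv_of_same key

end act

end Sys

end Vale.Agent.P310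

/-!
Spoiler's theorem: if the final fact is derivable then the two graphs are not equivalent.
-/

namespace Vale.Agent.P310

open Finset

namespace Sys

variable {F R Q : Type} {B k' p N : ℕ} {S : Sys F R Q B (k' + 1) p}
  {U : Type} [Fintype U] {wn : Cls R (k' + 1) p → ℕ} {κ : U → Option (Kind R B k' p N)}
  {lb : U → ℕ}

theorem same_step (hS : S.WF) {G H : SimpleGraph U} {x y : Fin (k' + 1) → U}
    (h : Same (k' + 1) G H x y) :
    ∃ β : U ≃ U,
      (∀ z i, Same (k' + 1) G H (Function.update x i z) (Function.update y i (β z))) ∧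
      ∀ z i, G.Adj (x i) z ↔ H.Adj (y i) (β z) := by
  obtain ⟨β, hβ⟩ := h.exists_equiv
  refine ⟨β, hβ, fun z i => ?_⟩
  have : Nontrivial (Fin (k' + 1)) := Fin.nontrivial_iff_two_le.2 hS.hk
  obtain ⟨j, hj⟩ := exists_ne i
  have := (hβ z j).adj_iff i j
  simpa [Function.update_of_ne hj.symm] using this

theorem same_deg (hS : S.WF) {G H : SimpleGraph U} {x y : Fin (k' + 1) → U}
    (h : Same (k' + 1) G H x y) (i : Fin (k' + 1)) :
    Nat.card {z // G.Adj (x i) z} = Nat.card {z // H.Adj (y i) z} := by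
  obtain ⟨β, -, hβ⟩ := same_step hS h
  exact Nat.card_congr (β.subtypeEquiv fun z => hβ z i)

/-- Gadget vertices. -/
def IsGad (κ : U → Option (Kind R B k' p N)) (u : U) : Prop := ∃ w, κ u = some (.gad w)

theorem graph_adj (j : ZMod 2) (u v : U) : (S.graph wn κ lb j).Adj u v ↔
    S.Adj0 wn j (κ u) (lb u) (κ v) (lb v) ∨ S.Adj0 wn j (κ v) (lb v) (κ u) (lb u) := Iff.rfl

theorem isGad_iff (hV : S.VOk wn κ lb) (j : ZMod 2) (u : U) :
    IsGad κ u ↔ Nat.card (Kind R B k' p N) * S.m <
      Nat.card {z // (S.graph wn κ lb j).Adj u z} := by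
  constructor
  · rintro ⟨w, hw⟩
    refine lt_of_lt_of_le hV.dummy (Nat.card_le_card_of_injective
      (fun z => ⟨z.1, ?_⟩) ?_)
    · rw [graph_adj, hw, z.2]
      exact Or.inl trivial
    · intro a b hab
      simpa [Subtype.ext_iff] using hab
  · intro h
    by_contra hu
    refine absurd h (not_lt.2 ?_)
    have h0 : ∀ z, (S.graph wn κ lb j).Adj u z → κ z ≠ none := by
      intro z hz hκ
      rw [graph_adj, hκ] at hz
      rcases hz with hz | hz
      · rcases hκu : κ u with _ | (_ | _ | w)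
        · rw [hκu] at hz; exact hz
        · rw [hκu] at hz; exact hz
        · rw [hκu] at hz; exact hz
        · exact hu ⟨w, hκu⟩
      · rcases hκu : κ u with _ | (_ | _ | w) <;> rw [hκu] at hz <;> exact hz
    have hsplit : ∀ z : {z // (S.graph wn κ lb j).Adj u z}, ∃ x, κ z.1 = some x := fun z =>
      Option.ne_none_iff_exists'.1 (h0 z.1 z.2)
    choose f hf using hsplit
    have : Finite (Kind R B k' p N × Fin S.m) := by
      refine Finite.of_injective (fun q => (hV.ex q.1 q.2 q.2.2).choose) ?_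
      intro q q' hq
      have h1 := (hV.ex q.1 q.2 q.2.2).choose_spec.1
      have h2 := (hV.ex q'.1 q'.2 q'.2.2).choose_spec.1
      simp only at hq
      rw [hq] at h1
      rw [h1.1, h1.2] at h2
      exact Prod.ext (Option.some_injective _ h2.1) (Fin.ext h2.2)
    calc Nat.card {z // (S.graph wn κ lb j).Adj u z}
        ≤ Nat.card (Kind R B k' p N × Fin S.m) := by
          refine Nat.card_le_card_of_injective (fun z => (f z, ⟨lb z.1, hV.lt z.1⟩)) ?_
          intro z z' hz
          simp only [Prod.mk.injEq, Fin.mk.injEq] at hz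
          exact Subtype.ext ((hV.ex (f z) (lb z.1) (hV.lt _)).unique ⟨hf z, rfl⟩
            ⟨by rw [hz.1]; exact hf z', hz.2.symm⟩)
      _ = Nat.card (Kind R B k' p N) * S.m := by simp [Nat.card_prod]

theorem same_isGad (hS : S.WF) (hV : S.VOk wn κ lb) {x y : Fin (k' + 1) → U}
    (h : Same (k' + 1) (S.graph wn κ lb 0) (S.graph wn κ lb 1) x y) (i : Fin (k' + 1)) :
    IsGad κ (x i) ↔ IsGad κ (y i) := by
  rw [isGad_iff hV 0, isGad_iff hV 1, same_deg hS h i]

theorem same_gadCount (hS : S.WF) (hV : S.VOk wn κ lb) {x y : Fin (k' + 1) → U}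
    (h : Same (k' + 1) (S.graph wn κ lb 0) (S.graph wn κ lb 1) x y) (i : Fin (k' + 1)) :
    Nat.card {z // IsGad κ z ∧ (S.graph wn κ lb 0).Adj (x i) z} =
      Nat.card {z // IsGad κ z ∧ (S.graph wn κ lb 1).Adj (y i) z} := by
  obtain ⟨β, hβ1, hβ2⟩ := same_step hS h
  refine Nat.card_congr (β.subtypeEquiv fun z => ?_)
  rw [hβ2 z i]
  have := same_isGad hS hV (hβ1 z i) i
  simp only [Function.update_self] at this
  rw [this]

open Classical in
/-- The number of gadget neighbours. -/
noncomputable def thr (S : Sys F R Q B (k' + 1) p) (wn : Cls R (k' + 1) p → ℕ) :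
    Option (Kind R B k' p N) → ℕ → ℕ
  | some (.nrm ρ e i _), a => if S.Valid (.nrm ρ e i a) then wn (.inl (ρ, e, i)) * S.m + a + 1
      else 0
  | some (.spc ε _), a => if a = 0 then wn (.inr ε) * S.m + 1 else 0
  | some (.gad _), _ => 0
  | none, _ => N * S.m

theorem lex_iff {m w w' a a' : ℕ} (ha : a < m) (ha' : a' < m) :
    (w' < w ∨ (w' = w ∧ a' ≤ a)) ↔ w' * m + a' < w * m + a + 1 := by
  constructor
  · rintro (h | ⟨rfl, h⟩)
    · have : (w' + 1) * m ≤ w * m := Nat.mul_le_mul_right _ h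
      linarith
    · omega
  · intro h
    rcases lt_trichotomy w' w with h1 | h1 | h1
    · exact Or.inl h1
    · subst h1; exact Or.inr ⟨rfl, by omega⟩
    · exfalso
      have : (w + 1) * m ≤ w' * m := Nat.mul_le_mul_right _ h1
      linarith

theorem lex_inj {m w w' a a' : ℕ} (ha : a < m) (ha' : a' < m)
    (h : w * m + a = w' * m + a') : w = w' ∧ a = a' := by
  have h1 := (lex_iff (w := w) (w' := w') ha ha').2 (by omega)
  have h2 := (lex_iff (w := w') (w' := w) ha' ha).2 (by omega)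
  omega

theorem adj_gad_iff (hV : S.VOk wn κ lb) (j : ZMod 2) (u z : U) (w : Fin N)
    (hz : κ z = some (.gad w)) :
    (S.graph wn κ lb j).Adj u z ↔ (w : ℕ) * S.m + lb z < thr S wn (κ u) (lb u) := by
  rw [graph_adj, hz]
  have hzm := hV.lt z
  have hum := hV.lt u
  rcases hκu : κ u with _ | (⟨ρ, e, i, s⟩ | ⟨ε, s⟩ | w')
  · simp only [Adj0, thr, false_or, true_iff]
    have : ((w : ℕ) + 1) * S.m ≤ N * S.m := Nat.mul_le_mul_right _ w.2
    linarith
  · simp only [Adj0, thr, or_false]
    split_ifs with hv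
    · rw [← lex_iff hum hzm]
      simp [hv]
    · simp [hv]
  · simp only [Adj0, thr, or_false]
    split_ifs with hv
    · rw [hv, ← lex_iff (m := S.m) (a := 0) (by omega) hzm]
      simp
    · simp [hv]
  · simp [Adj0, thr]

theorem thr_le (hV : S.VOk wn κ lb) (u : U) : thr S wn (κ u) (lb u) ≤ N * S.m := by
  have hum := hV.lt u
  rcases hκu : κ u with _ | (⟨ρ, e, i, s⟩ | ⟨ε, s⟩ | w')
  · simp [thr]
  · simp only [thr]
    split_ifs with hv
    · have := hV.wnlt (.inl (ρ, e, i))
      have : (wn (.inl (ρ, e, i)) + 1) * S.m ≤ N * S.m := Nat.mul_le_mul_right _ (by omega)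
      linarith
    · simp
  · simp only [thr]
    split_ifs with hv
    · have := hV.wnlt (.inr ε)
      have : (wn (.inr ε) + 1) * S.m ≤ N * S.m := Nat.mul_le_mul_right _ (by omega)
      rw [hv] at hum
      linarith
    · simp
  · simp [thr]

theorem gadCount (hV : S.VOk wn κ lb) (j : ZMod 2) (u : U) :
    Nat.card {z // IsGad κ z ∧ (S.graph wn κ lb j).Adj u z} = thr S wn (κ u) (lb u) := by
  have hT := thr_le hV u
  set T := thr S wn (κ u) (lb u) with hTdef
  have hm : 0 < S.m := (Nat.zero_le _).trans_lt (hV.lt u)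
  have hex : ∀ t : Fin T, ∃ z, ∃ h : (t : ℕ) / S.m < N,
      κ z = some (.gad ⟨t / S.m, h⟩) ∧ lb z = t % S.m := by
    intro t
    have h1 : (t : ℕ) / S.m < N := by
      rw [Nat.div_lt_iff_lt_mul hm]
      exact t.2.trans_le hT
    obtain ⟨z, hz, -⟩ := hV.ex (.gad ⟨t / S.m, h1⟩) (t % S.m) (Nat.mod_lt _ hm)
    exact ⟨z, h1, hz⟩
  choose f hf1 hf2 hf3 using hex
  have hadj : ∀ t : Fin T, (S.graph wn κ lb j).Adj u (f t) := by
    intro t
    rw [adj_gad_iff hV j u (f t) _ (hf2 t), ← hTdef, hf3]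
    simp only
    rw [Nat.div_add_mod']
    exact t.2
  have hbij : Function.Bijective (fun t : Fin T =>
      (⟨f t, ⟨_, hf2 t⟩, hadj t⟩ : {z // IsGad κ z ∧ (S.graph wn κ lb j).Adj u z})) := by
    constructor
    · intro t t' htt
      simp only [Subtype.mk.injEq] at htt
      have h2 := hf2 t
      have h3 := hf3 t
      rw [htt] at h2 h3
      rw [hf2 t'] at h2
      rw [hf3 t'] at h3
      have h4 : (t' : ℕ) / S.m = t / S.m := by
        have := Option.some_injective _ h2
        injection this with this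
        exact congrArg Fin.val this
      have h5 := Nat.div_add_mod' (t : ℕ) S.m
      have h6 := Nat.div_add_mod' (t' : ℕ) S.m
      rw [h4, h3] at h6
      exact Fin.ext (by omega)
    · rintro ⟨z, ⟨w, hw⟩, hz⟩
      rw [adj_gad_iff hV j u z w hw, ← hTdef] at hz
      have hzm := hV.lt z
      have h1 : ((w : ℕ) * S.m + lb z) / S.m = w := by
        rw [add_comm, Nat.add_mul_div_right _ _ hm, Nat.div_eq_of_lt hzm, zero_add]
      have h2 : ((w : ℕ) * S.m + lb z) % S.m = lb z := by
        rw [add_comm, Nat.add_mul_mod_self_right, Nat.mod_eq_of_lt hzm]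
      refine ⟨⟨(w : ℕ) * S.m + lb z, hz⟩, Subtype.ext ?_⟩
      refine (hV.ex (.gad w) (lb z) hzm).unique ⟨?_, ?_⟩ ⟨hw, rfl⟩
      · rw [hf2]
        congr 2
        exact Fin.ext h1
      · rw [hf3]
        exact h2
  rw [← Nat.card_congr (Equiv.ofBijective _ hbij)]
  simp

theorem same_thr (hS : S.WF) (hV : S.VOk wn κ lb) {x y : Fin (k' + 1) → U}
    (h : Same (k' + 1) (S.graph wn κ lb 0) (S.graph wn κ lb 1) x y) (i : Fin (k' + 1)) :
    thr S wn (κ (x i)) (lb (x i)) = thr S wn (κ (y i)) (lb (y i)) := by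
  rw [← gadCount hV 0, ← gadCount hV 1, same_gadCount hS hV h i]

/-- The threshold names the block. -/
theorem thr_nrm (hV : S.VOk wn κ lb) {u v : U} {ρ : R} {e : El p} {i : Fin (k' + 1)}
    {s : Fin B × Fin (k' + 2) → ZMod 2} (hu : κ u = some (.nrm ρ e i s))
    (hval : S.Valid (.nrm ρ e i (lb u)))
    (h : thr S wn (κ u) (lb u) = thr S wn (κ v) (lb v)) :
    (∃ s', κ v = some (.nrm ρ e i s')) ∧ lb v = lb u := by
  have hum := hV.lt u
  have hvm := hV.lt v
  have hn := hV.wnlt (.inl (ρ, e, i))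
  rw [hu] at h
  simp only [thr, if_pos hval] at h
  rcases hκv : κ v with _ | (⟨ρ', e', i', s'⟩ | ⟨ε, s'⟩ | w')
  · rw [hκv] at h
    simp only [thr] at h
    have : (wn (.inl (ρ, e, i)) + 2) * S.m ≤ N * S.m := Nat.mul_le_mul_right _ (by omega)
    exfalso
    linarith
  · rw [hκv] at h
    simp only [thr] at h
    split_ifs at h with hv
    obtain ⟨h1, h2⟩ := lex_inj hum hvm (Nat.succ_injective h)
    have h3 := hV.wninj h1
    simp only [Sum.inl.injEq, Prod.mk.injEq] at h3
    obtain ⟨rfl, rfl, rfl⟩ := h3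
    exact ⟨⟨s', rfl⟩, h2.symm⟩
  · rw [hκv] at h
    simp only [thr] at h
    split_ifs at h with hv
    obtain ⟨h1, h2⟩ := lex_inj (a' := 0) hum (by omega) (Nat.succ_injective h)
    exact absurd (hV.wninj h1) (by simp)
  · rw [hκv] at h
    simp [thr] at h

theorem thr_spc (hV : S.VOk wn κ lb) {u v : U} {ε : Option (El p)}
    {s : Fin k' → ZMod 2} (hu : κ u = some (.spc ε s)) (hu0 : lb u = 0)
    (h : thr S wn (κ u) (lb u) = thr S wn (κ v) (lb v)) :
    (∃ s', κ v = some (.spc ε s')) ∧ lb v = 0 := by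
  have hum := hV.lt u
  have hvm := hV.lt v
  have hn := hV.wnlt (.inr ε)
  rw [hu] at h
  simp only [thr, if_pos hu0] at h
  rcases hκv : κ v with _ | (⟨ρ', e', i', s'⟩ | ⟨ε', s'⟩ | w')
  · rw [hκv] at h
    simp only [thr] at h
    have : (wn (.inr ε) + 2) * S.m ≤ N * S.m := Nat.mul_le_mul_right _ (by omega)
    exfalso
    linarith
  · rw [hκv] at h
    simp only [thr] at h
    split_ifs at h with hv
    obtain ⟨h1, h2⟩ := lex_inj (a := 0) (by omega) hvm (Nat.succ_injective h)
    exact absurd (hV.wninj h1) (by simp)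
  · rw [hκv] at h
    simp only [thr] at h
    split_ifs at h with hv
    obtain ⟨h1, h2⟩ := lex_inj (a := 0) (a' := 0) (m := S.m) (by omega) (by omega)
      (Nat.succ_injective h)
    have h3 := hV.wninj h1
    simp only [Sum.inr.injEq] at h3
    subst h3
    exact ⟨⟨s', rfl⟩, hv⟩
  · rw [hκv] at h
    simp [thr] at h

/-- Two different valid blocks share at most one variable. -/
theorem slot_unique (hS : S.WF) {ρ ρ' : R} {e e' : El p} {i : Fin (k' + 1)} {a a' : ℕ}
    (hv : S.Valid (.nrm ρ e i a)) (hv' : S.Valid (.nrm ρ' e' i a'))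
    (hne : ¬ (ρ = ρ' ∧ e = e' ∧ a = a')) {J J' I I' : Slot B (k' + 1)}
    (h1 : S.ty ρ e J = S.ty ρ' e' J')
    (h1' : S.lab ρ J (S.π i) a = S.lab ρ' J' (S.π i) a')
    (h2 : S.ty ρ e I = S.ty ρ' e' I')
    (h2' : S.lab ρ I (S.π i) a = S.lab ρ' I' (S.π i) a') : J = I ∧ J' = I' := by
  by_cases hb : (ρ, e) = (ρ', e')
  · simp only [Prod.mk.injEq] at hb
    obtain ⟨rfl, rfl⟩ := hb
    have hJ := ty_inj hS ρ e h1
    have hI := ty_inj hS ρ e h2
    subst hJ hI
    have key : ∀ J : Slot B (k' + 1), S.lab ρ J (S.π i) a = S.lab ρ J (S.π i) a' → J = none := by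
      intro J hJ
      rcases J with _ | t
      · rfl
      · exact absurd ⟨rfl, rfl, hS.inj ρ hv.1 t.1 (S.π i) hv.2 hv'.2 hJ⟩ hne
    rw [key J h1', key I h2']
    exact ⟨rfl, rfl⟩
  · exact ⟨ty_share hS hb hv.1 hv'.1 h1 h2,
      ty_share hS (fun h => hb h.symm) hv'.1 hv.1 h1.symm h2.symm⟩

theorem adj_nn (hS : S.WF) (j : ZMod 2) {u u' : U} {ρ ρ' : R} {e e' : El p} {i : Fin (k' + 1)}
    {s s' : Fin B × Fin (k' + 2) → ZMod 2}
    (hu : κ u = some (.nrm ρ e i s)) (hu' : κ u' = some (.nrm ρ' e' i s'))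
    (hv : S.Valid (.nrm ρ e i (lb u))) (hv' : S.Valid (.nrm ρ' e' i (lb u')))
    (hne : ¬ (ρ = ρ' ∧ e = e' ∧ lb u = lb u')) {J J' : Slot B (k' + 1)}
    (h1 : S.ty ρ e J = S.ty ρ' e' J')
    (h1' : S.lab ρ J (S.π i) (lb u) = S.lab ρ' J' (S.π i) (lb u')) :
    (S.graph wn κ lb j).Adj u u' ↔ nval s J = nval s' J' := by
  rw [graph_adj, hu, hu']
  constructor
  · rintro (⟨-, -, -, -, I, I', h2, h2', h3⟩ | ⟨-, -, -, -, I', I, h2, h2', h3⟩)
    · obtain ⟨rfl, rfl⟩ := slot_unique hS hv hv' hne h1 h1' h2 h2'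
      exact h3
    · obtain ⟨rfl, rfl⟩ := slot_unique hS hv hv' hne h1 h1' h2.symm h2'.symm
      exact h3.symm
  · intro h
    exact Or.inl ⟨rfl, hv, hv', hne, J, J', h1, h1', h⟩

theorem adj_ns (hS : S.WF) (j : ZMod 2) {u u' : U} {ρ : R} {e : El p} {i : Fin (k' + 1)}
    {s : Fin B × Fin (k' + 2) → ZMod 2} {ε : Option (El p)} {s' : Fin k' → ZMod 2}
    (hu : κ u = some (.nrm ρ e i s)) (hu' : κ u' = some (.spc ε s'))
    (hv : S.Valid (.nrm ρ e i (lb u))) (hv' : lb u' = 0) {J : Slot B (k' + 1)}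
    (h1 : S.ty ρ e J = S.sty ε)
    (h1' : S.lab ρ J (S.π i) (lb u) = 0) :
    (S.graph wn κ lb j).Adj u u' ↔ nval s J = sval j ε s' i := by
  rw [graph_adj, hu, hu']
  constructor
  · rintro (⟨-, -, I, h2, h2', h3⟩ | h)
    · have := ty_inj hS ρ e (h1.trans h2.symm)
      subst this
      exact h3
    · exact h.elim
  · intro h
    exact Or.inl ⟨hv, hv', J, h1, h1', h⟩

/-- The vertex lies in a valid normal block of row `i` containing the variable `(g, i, a)`, with
value `v`. -/
def HasN (S : Sys F R Q B (k' + 1) p) (κ : U → Option (Kind R B k' p N)) (lb : U → ℕ)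
    (u : U) (g : F × El p) (i : Fin (k' + 1)) (a : ℕ) (v : ZMod 2) : Prop :=
  ∃ ρ e s J, κ u = some (.nrm ρ e i s) ∧ S.Valid (.nrm ρ e i (lb u)) ∧ S.ty ρ e J = g ∧
    S.lab ρ J (S.π i) (lb u) = a ∧ nval s J = v

theorem z2 : ∀ a b c d : ZMod 2, (a = b ↔ c = d) → a + c = b + d := by decide

/-- `HasN` for a pair of similar tuples, in normal form. -/
theorem hasN_pair (hS : S.WF) (hV : S.VOk wn κ lb) {x y : Fin (k' + 1) → U}
    (h : Same (k' + 1) (S.graph wn κ lb 0) (S.graph wn κ lb 1) x y) (i : Fin (k' + 1))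
    {g : F × El p} {a : ℕ} {v w : ZMod 2} (hx : HasN S κ lb (x i) g i a v)
    (hy : HasN S κ lb (y i) g i a w) :
    ∃ ρ e s s' J, κ (x i) = some (.nrm ρ e i s) ∧ κ (y i) = some (.nrm ρ e i s') ∧
      lb (y i) = lb (x i) ∧ S.Valid (.nrm ρ e i (lb (x i))) ∧ S.ty ρ e J = g ∧
      S.lab ρ J (S.π i) (lb (x i)) = a ∧ nval s J = v ∧ nval s' J = w := by
  obtain ⟨ρ, e, s, J, h1, h2, h3, h4, h5⟩ := hx
  obtain ⟨ρ', e', s', J', h1', h2', h3', h4', h5'⟩ := hy
  obtain ⟨⟨s'', h6⟩, h7⟩ := thr_nrm hV h1 h2 (same_thr hS hV h i)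
  rw [h1'] at h6
  simp only [Option.some.injEq, Kind.nrm.injEq, true_and] at h6
  obtain ⟨rfl, rfl, rfl⟩ := h6
  have := ty_inj hS _ _ (h3.trans h3'.symm)
  subst this
  exact ⟨_, _, s, s', J, h1, h1', h7, h2, h3, h4, h5, h5'⟩

theorem sum_sval (j : ZMod 2) (ε : Option (El p)) (s : Fin k' → ZMod 2) :
    ∑ i, sval j ε s i = if ε = none then j else 0 := by
  rw [Fin.sum_univ_succ]
  simp only [sval, Fin.cons_zero, Fin.cons_succ]
  rw [add_right_comm, CharTwo.add_self_eq_zero, zero_add]

/-- Comparison with a special block. -/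
theorem spc_compare (hS : S.WF) (hV : S.VOk wn κ lb) (ε : Option (El p))
    {x y : Fin (k' + 1) → U}
    (h : Same (k' + 1) (S.graph wn κ lb 0) (S.graph wn κ lb 1) x y)
    (v w : Fin (k' + 1) → ZMod 2) (hx : ∀ i, HasN S κ lb (x i) (S.sty ε) i 0 (v i))
    (hy : ∀ i, HasN S κ lb (y i) (S.sty ε) i 0 (w i)) :
    ∑ i, v i + ∑ i, w i = if ε = none then 1 else 0 := by
  obtain ⟨z, ⟨hz1, hz2⟩, -⟩ := hV.ex (.spc ε 0) 0 hS.hm
  obtain ⟨β, hβ1, hβ2⟩ := same_step hS h
  have hth := same_thr hS hV (hβ1 z 0) 0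
  simp only [Function.update_self] at hth
  obtain ⟨⟨s', hz1'⟩, hz2'⟩ := thr_spc hV hz1 hz2 hth
  have key : ∀ i, v i + w i = sval 0 ε 0 i + sval 1 ε s' i := by
    intro i
    obtain ⟨ρ, e, t, t', J, h1, h1', h2, h3, h4, h5, h6, h6'⟩ := hasN_pair hS hV h i (hx i) (hy i)
    rw [← h6, ← h6']
    refine z2 _ _ _ _ ?_
    rw [← adj_ns (wn := wn) hS 0 h1 hz1 h3 hz2 h4 h5,
      ← adj_ns (wn := wn) hS 1 h1' hz1' (h2 ▸ h3) hz2' h4 (h2 ▸ h5)]
    exact hβ2 z i
  rw [← Finset.sum_add_distrib, Finset.sum_congr rfl fun i _ => key i, Finset.sum_add_distrib,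
    sum_sval, sum_sval]
  split_ifs <;> simp

theorem replace_one (hS : S.WF) (hV : S.VOk wn κ lb) {x y : Fin (k' + 1) → U}
    (h : Same (k' + 1) (S.graph wn κ lb 0) (S.graph wn κ lb 1) x y) (i : Fin (k' + 1))
    {g : F × El p} {a : ℕ} {v w : ZMod 2} (hx : HasN S κ lb (x i) g i a v)
    (hy : HasN S κ lb (y i) g i a w) {ρ : R} {e : El p} {b : ℕ}
    (hval : S.Valid (.nrm ρ e i b)) {J : Slot B (k' + 1)} (hJ : S.ty ρ e J = g)
    (hl : S.lab ρ J (S.π i) b = a) :
    ∃ z z' s s', Same (k' + 1) (S.graph wn κ lb 0) (S.graph wn κ lb 1)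
        (Function.update x i z) (Function.update y i z') ∧
      κ z = some (.nrm ρ e i s) ∧ lb z = b ∧ κ z' = some (.nrm ρ e i s') ∧ lb z' = b ∧
      v + w = nval s J + nval s' J := by
  obtain ⟨ρ1, e1, s1, s1', J1, h1, h1', h2, h3, h4, h5, h6, h6'⟩ := hasN_pair hS hV h i hx hy
  by_cases hne : ρ1 = ρ ∧ e1 = e ∧ lb (x i) = b
  · obtain ⟨rfl, rfl, hb⟩ := hne
    have := ty_inj hS _ _ (h4.trans hJ.symm)
    subst this
    refine ⟨x i, y i, s1, s1', ?_, h1, hb, h1', h2.trans hb, by rw [h6, h6']⟩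
    rw [Function.update_eq_self, Function.update_eq_self]
    exact h
  · obtain ⟨z, ⟨hz1, hz2⟩, -⟩ := hV.ex (.nrm ρ e i 0) b hval.2.1
    obtain ⟨β, hβ1, hβ2⟩ := same_step hS h
    have hth := same_thr hS hV (hβ1 z i) i
    simp only [Function.update_self] at hth
    obtain ⟨⟨s', hz1'⟩, hz2'⟩ := thr_nrm hV hz1 (by rw [hz2]; exact hval) hth
    refine ⟨z, β z, 0, s', hβ1 z i, hz1, hz2, hz1', hz2'.trans hz2, ?_⟩
    rw [← h6, ← h6']
    refine z2 _ _ _ _ ?_
    rw [← adj_nn (wn := wn) hS 0 h1 hz1 h3 (by rw [hz2]; exact hval) (by rw [hz2]; exact hne)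
        (h4.trans hJ.symm) (by rw [hz2]; exact h5.trans hl.symm),
      ← adj_nn (wn := wn) hS 1 h1' hz1' (h2 ▸ h3) (by rw [hz2', hz2]; exact hval)
        (by rw [hz2', hz2, h2]; exact hne)
        (h4.trans hJ.symm) (by rw [hz2', hz2, h2]; exact h5.trans hl.symm)]
    exact hβ2 z i

theorem replace_all (hS : S.WF) (hV : S.VOk wn κ lb) {x y : Fin (k' + 1) → U}
    (h : Same (k' + 1) (S.graph wn κ lb 0) (S.graph wn κ lb 1) x y)
    {g : F × El p} {c : Fin (k' + 1) → ℕ} {v w : Fin (k' + 1) → ZMod 2}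
    (hx : ∀ i, HasN S κ lb (x i) g i (c i) (v i))
    (hy : ∀ i, HasN S κ lb (y i) g i (c i) (w i)) {ρ : R} {e : El p} {b : Fin (k' + 1) → ℕ}
    (hval : ∀ i, S.Valid (.nrm ρ e i (b i))) {J : Slot B (k' + 1)} (hJ : S.ty ρ e J = g)
    (hl : ∀ i, S.lab ρ J (S.π i) (b i) = c i) (A : Finset (Fin (k' + 1))) :
    ∃ x' y', Same (k' + 1) (S.graph wn κ lb 0) (S.graph wn κ lb 1) x' y' ∧
      (∀ i ∉ A, x' i = x i ∧ y' i = y i) ∧
      ∀ i ∈ A, ∃ s s', κ (x' i) = some (.nrm ρ e i s) ∧ lb (x' i) = b i ∧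
        κ (y' i) = some (.nrm ρ e i s') ∧ lb (y' i) = b i ∧
        v i + w i = nval s J + nval s' J := by
  induction A using Finset.induction_on with
  | empty => exact ⟨x, y, h, fun _ _ => ⟨rfl, rfl⟩, by simp⟩
  | insert i A hi ih =>
    obtain ⟨x', y', h', h1, h2⟩ := ih
    obtain ⟨h3, h4⟩ := h1 i hi
    obtain ⟨z, z', s, s', h5, h6, h7, h8, h9, h10⟩ := replace_one hS hV h' i
      (h3 ▸ hx i) (h4 ▸ hy i) (hval i) hJ (hl i)
    refine ⟨Function.update x' i z, Function.update y' i z', h5, ?_, ?_⟩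
    · intro l hl'
      rw [Finset.mem_insert, not_or] at hl'
      rw [Function.update_of_ne hl'.1, Function.update_of_ne hl'.1]
      exact h1 l hl'.2
    · intro l hl'
      by_cases hli : l = i
      · subst hli
        refine ⟨s, s', ?_⟩
        simp only [Function.update_self]
        exact ⟨h6, h7, h8, h9, h10⟩
      · have hlA : l ∈ A := (Finset.mem_insert.1 hl').resolve_left hli
        rw [Function.update_of_ne hli, Function.update_of_ne hli]
        exact h2 l hlA

/-- The invariant of Spoiler's strategy. -/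
theorem spoiler_claim (hS : S.WF) (hV : S.VOk wn κ lb) {f : F} {c : Q → ℕ} (hd : S.Der f c) :
    ∀ (e : El p) (x y : Fin (k' + 1) → U),
      Same (k' + 1) (S.graph wn κ lb 0) (S.graph wn κ lb 1) x y →
      ∀ v w : Fin (k' + 1) → ZMod 2,
        (∀ i, HasN S κ lb (x i) (f, e) i (c (S.π i)) (v i)) →
        (∀ i, HasN S κ lb (y i) (f, e) i (c (S.π i)) (w i)) →
        ∑ i, v i = ∑ i, w i := by
  induction hd with
  | ini =>
    intro e x y h v w hx hy
    have := spc_compare hS hV (some e) h v w hx hy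
    rw [if_neg (by simp)] at this
    exact CharTwo.add_eq_zero.1 this
  | step ρ a hρ ha hc hb ih =>
    intro e x y h v w hx hy
    obtain ⟨x', y', h', -, h2⟩ := replace_all hS hV h hx hy (ρ := ρ) (e := e)
      (b := fun i => a (S.π i)) (fun i => ⟨hρ, ha _, hc _⟩) (J := none) rfl (fun i => rfl)
      Finset.univ
    choose s s' h3 h4 h5 h6 h7 using fun i => h2 i (Finset.mem_univ i)
    have key : ∀ t : Fin B × Fin (k' + 2), ∑ i, s i t = ∑ i, s' i t := by
      intro t
      refine ih t.1 (S.ι (ρ, t), e.1 * S.ι (ρ, t) + e.2.1, e.2.2 + 1) x' y' h' _ _ ?_ ?_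
      · intro i
        refine ⟨ρ, e, s i, some t, h3 i, ?_, rfl, ?_, rfl⟩
        · rw [h4]; exact ⟨hρ, ha _, hc _⟩
        · rw [h4]; rfl
      · intro i
        refine ⟨ρ, e, s' i, some t, h5 i, ?_, rfl, ?_, rfl⟩
        · rw [h6]; exact ⟨hρ, ha _, hc _⟩
        · rw [h6]; rfl
    refine CharTwo.add_eq_zero.1 ?_
    rw [← Finset.sum_add_distrib, Finset.sum_congr rfl fun i _ => h7 i]
    simp only [nval]
    rw [Finset.sum_add_distrib, Finset.sum_comm, Finset.sum_comm (f := fun i t => s' i t)]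
    rw [Finset.sum_congr rfl fun t _ => key t]
    exact CharTwo.add_self_eq_zero _

/-- Spoiler's theorem. -/
theorem not_wlEquiv_of_der' [Finite R]
    (hS : S.WF) (hV : S.VOk wn κ lb) {c : Q → ℕ} (hfin : S.Der S.fin c) :
    ¬ WLEquiv (k' + 1) (S.graph wn κ lb 0) (S.graph wn κ lb 1) := by
  intro hwl
  generalize hf : S.fin = f at hfin
  have hd := hfin
  cases hfin with
  | ini => exact hS.ini_ne_fin hf.symm
  | step ρ a hρ ha hc hb =>
    have hz := hS.fin_zero ρ hρ hf.symm
    choose x hx _ using fun i => hV.ex (.nrm ρ 0 i 0) (a (S.π i)) (ha _)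
    obtain ⟨y, hy⟩ := hwl.exists_same x
    have hval : ∀ i, S.Valid (.nrm ρ (0 : El p) i (lb (x i))) := by
      intro i
      rw [(hx i).2]
      exact ⟨hρ, ha _, hc _⟩
    have h1 : ∀ i, ∃ s', κ (y i) = some (.nrm ρ 0 i s') ∧ lb (y i) = lb (x i) := by
      intro i
      obtain ⟨⟨s', h2⟩, h3⟩ := thr_nrm hV (hx i).1 (hval i) (same_thr hS hV hy i)
      exact ⟨s', h2, h3⟩
    choose s' h2 h3 using h1
    have hx' : ∀ i, HasN S κ lb (x i) (S.head ρ, 0) i 0
        (nval (0 : Fin B × Fin (k' + 2) → ZMod 2) none) := fun i =>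
      ⟨ρ, 0, 0, none, (hx i).1, hval i, rfl, hz _ _, rfl⟩
    have hy' : ∀ i, HasN S κ lb (y i) (S.head ρ, 0) i 0 (nval (s' i) none) := fun i =>
      ⟨ρ, 0, s' i, none, h2 i, by rw [h3]; exact hval i, rfl, hz _ _, rfl⟩
    have h4 := spoiler_claim hS hV hd 0 x y hy _ _
      (by simpa only [hz] using hx') (by simpa only [hz] using hy')
    have h5 := spc_compare hS hV none hy _ _ (by simpa only [sty, hf] using hx')
      (by simpa only [sty, hf] using hy')
    rw [h4, CharTwo.add_self_eq_zero, if_pos rfl] at h5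
    exact zero_ne_one h5

end Sys

end Vale.Agent.P310

/-!
Syntactic rules with label maps and label conditions taken from a finite list, and the table
that describes the adjacency of the graphs.
-/

namespace Vale.Agent.P310

open Finset

/-- Label maps. -/
inductive LM
  | id | succ | zero

/-- Evaluation of label maps. -/
def LM.eval : LM → ℕ → ℕ
  | .id, a => a
  | .succ, a => a + 1
  | .zero, _ => 0

/-- Features of a label `a`: `min a 2`, whether `a + 1 = m`, the comparison of `a` with `K`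
(`0` for `a < K`, `1` for `a = K`, `2` for `a > K`) and whether `a ∈ W`. -/
structure Feat where
  lo : Fin 3
  hi : Prop
  kc : Fin 3
  w : Prop

open Classical in
/-- The features of the label `a`. -/
noncomputable def feat (m K : ℕ) (W : ℕ → Prop) (a : ℕ) : Feat where
  lo := if a = 0 then 0 else if a = 1 then 1 else 2
  hi := a + 1 = m
  kc := if a < K then 0 else if a = K then 1 else 2
  w := W a

/-- The relation class of a pair of labels. -/
def rel (a a' : ℕ) : Fin 5 :=
  if a' = a then 2 else if a' = a + 1 then 3 else if a = a' + 1 then 1 else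
    if a < a' then 4 else 0

/-- The relation class of the swapped pair. -/
def revRel (r : Fin 5) : Fin 5 := 4 - r

theorem rel_swap (a a' : ℕ) : rel a' a = revRel (rel a a') := by
  unfold rel revRel
  split_ifs <;> first | rfl | (exfalso; omega)

theorem rel_eq_two (a a' : ℕ) : rel a a' = 2 ↔ a = a' := by
  unfold rel
  split_ifs <;> simp_all <;> omega

theorem rel_eq_one (a a' : ℕ) : rel a a' = 1 ↔ a = a' + 1 := by
  unfold rel
  split_ifs <;> simp_all; omega

theorem rel_eq_three (a a' : ℕ) : rel a a' = 3 ↔ a + 1 = a' := by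
  unfold rel
  split_ifs <;> simp_all <;> omega

theorem rel_le_two (a a' : ℕ) : rel a a' ≤ 2 ↔ a' ≤ a := by
  unfold rel
  split_ifs <;> simp_all

theorem feat_lo (m K : ℕ) (W : ℕ → Prop) (a : ℕ) : (feat m K W a).lo = 0 ↔ a = 0 := by
  unfold feat
  simp only
  split_ifs <;> simp_all

/-- Symbolic equality test. -/
def eqt : LM → LM → Fin 5 → Feat → Feat → Prop
  | .id, .id, r, _, _ => r = 2
  | .id, .succ, r, _, _ => r = 1
  | .succ, .id, r, _, _ => r = 3
  | .succ, .succ, r, _, _ => r = 2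
  | .zero, .zero, _, _, _ => True
  | .zero, .id, _, _, φ' => φ'.lo = 0
  | .id, .zero, _, φ, _ => φ.lo = 0
  | .zero, .succ, _, _, _ => False
  | .succ, .zero, _, _, _ => False

theorem eqt_iff (m K : ℕ) (W : ℕ → Prop) (μ μ' : LM) (a a' : ℕ) :
    eqt μ μ' (rel a a') (feat m K W a) (feat m K W a') ↔ μ.eval a = μ'.eval a' := by
  cases μ <;> cases μ' <;>
    simp only [eqt, LM.eval, rel_eq_two, rel_eq_one, rel_eq_three, feat_lo] <;>
    first | done | omega | simp

/-- Syntactic rules. -/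
structure Rule (F Q : Type) (B : ℕ) where
  head : F
  body : Fin B → F
  cond : Q → Feat → Prop
  hmap : Q → LM
  bmap : Fin B → Q → LM

instance : Finite LM := by
  refine Finite.of_injective (β := Fin 3)
    (fun μ => match μ with | .id => 0 | .succ => 1 | .zero => 2) ?_
  intro a b h
  cases a <;> cases b <;> simp_all

instance : Finite Feat := by
  refine Finite.of_injective (β := Fin 3 × Prop × Fin 3 × Prop)
    (fun φ => (φ.lo, φ.hi, φ.kc, φ.w)) ?_
  rintro ⟨a, b, c, d⟩ ⟨a', b', c', d'⟩ h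
  simpa using h

instance {F Q : Type} {B : ℕ} [Finite F] [Finite Q] : Finite (Rule F Q B) := by
  refine Finite.of_injective
    (β := F × (Fin B → F) × (Q → Feat → Prop) × (Q → LM) × (Fin B → Q → LM))
    (fun φ => (φ.head, φ.body, φ.cond, φ.hmap, φ.bmap)) ?_
  rintro ⟨a, b, c, d, e⟩ ⟨a', b', c', d', e'⟩ h
  simpa using h

variable {F Q : Type} {B k p : ℕ}

/-- The Horn system of a program. -/
noncomputable def toSys (prog : Rule F Q B → Prop) (ini fin : F) (π : Fin k → Q)
    (ι : Rule F Q B × Fin B × Fin (k + 1) → ZMod p) (m K : ℕ) (W : ℕ → Prop) :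
    Sys F (Rule F Q B) Q B k p where
  π := π
  m := m
  act := prog
  head := fun ρ => ρ.head
  body := fun ρ => ρ.body
  cond := fun ρ q a => ρ.cond q (feat m K W a)
  hmap := fun ρ q => (ρ.hmap q).eval
  bmap := fun ρ j q => (ρ.bmap j q).eval
  ini := ini
  fin := fin
  ι := ι

/-- Table indices: the graph, the relation class and the features of the two labels. -/
abbrev Th := Bool × Fin 5 × Feat × Feat

/-- The charge of the graph with index `b`. -/
def chOf (b : Bool) : ZMod 2 := if b then 1 else 0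

section table

variable {k' N : ℕ} (prog : Rule F Q B → Prop) (ini fin : F) (π : Fin (k' + 1) → Q)
    (ι : Rule F Q B × Fin B × Fin (k' + 1 + 1) → ZMod p)
    (wn : Cls (Rule F Q B) (k' + 1) p → ℕ)

/-- The syntactic label map of a slot. -/
def slab (ρ : Rule F Q B) : Slot B (k' + 1) → Q → LM
  | none => ρ.hmap
  | some t => ρ.bmap t.1

/-- The type of the variable in a slot, not depending on the parameters. -/
def sty0 (ρ : Rule F Q B) (e : El p) : Slot B (k' + 1) → F × El p
  | none => (ρ.head, e)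
  | some t => (ρ.body t.1, (ι (ρ, t), e.1 * ι (ρ, t) + e.2.1, e.2.2 + 1))

/-- The type of the variables of a special block, not depending on the parameters. -/
def ssty0 : Option (El p) → F × El p
  | none => (fin, 0)
  | some e => (ini, e)

/-- The symbolic form of the one-sided adjacency condition. -/
def sym0 (j : ZMod 2) (r : Fin 5) (φ φ' : Feat) :
    Option (Kind (Rule F Q B) B k' p N) → Option (Kind (Rule F Q B) B k' p N) → Prop
  | some (.nrm ρ e i s), some (.nrm ρ' e' i' s') =>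
      i = i' ∧ (prog ρ ∧ ρ.cond (π i) φ) ∧ (prog ρ' ∧ ρ'.cond (π i') φ') ∧
      ¬ (ρ = ρ' ∧ e = e' ∧ r = 2) ∧
      ∃ J J', sty0 ι ρ e J = sty0 ι ρ' e' J' ∧
        eqt (slab ρ J (π i)) (slab ρ' J' (π i)) r φ φ' ∧
        Sys.nval s J = Sys.nval s' J'
  | some (.nrm ρ e i s), some (.spc ε s') =>
      (prog ρ ∧ ρ.cond (π i) φ) ∧ φ'.lo = 0 ∧
      ∃ J, sty0 ι ρ e J = ssty0 ini fin ε ∧ eqt (slab ρ J (π i)) .zero r φ φ' ∧
        Sys.nval s J = Sys.sval j ε s' i
  | some (.nrm ρ e i _), some (.gad w) =>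
      (prog ρ ∧ ρ.cond (π i) φ) ∧
        ((w : ℕ) < wn (.inl (ρ, e, i)) ∨ ((w : ℕ) = wn (.inl (ρ, e, i)) ∧ r ≤ 2))
  | some (.spc ε _), some (.gad w) =>
      φ.lo = 0 ∧ ((w : ℕ) < wn (.inr ε) ∨ ((w : ℕ) = wn (.inr ε) ∧ r ≤ 2))
  | some (.gad _), none => True
  | _, _ => False

theorem eval_slab (ρ : Rule F Q B) (J : Slot B (k' + 1)) (q : Q) (a m K : ℕ) (W : ℕ → Prop) :
    (toSys prog ini fin π ι m K W).lab ρ J q a = (slab ρ J q).eval a := by
  cases J <;> rfl

theorem ty_eq_sty0 (ρ : Rule F Q B) (e : El p) (J : Slot B (k' + 1)) (m K : ℕ) (W : ℕ → Prop) :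
    (toSys prog ini fin π ι m K W).ty ρ e J = sty0 ι ρ e J := by
  cases J <;> rfl

theorem sty_eq_ssty0 (ε : Option (El p)) (m K : ℕ) (W : ℕ → Prop) :
    (toSys prog ini fin π ι m K W).sty ε = ssty0 ini fin ε := by
  cases ε <;> rfl

theorem adj0_iff_sym0 (j : ZMod 2) (m K : ℕ) (W : ℕ → Prop)
    (κ κ' : Option (Kind (Rule F Q B) B k' p N)) (a a' : ℕ) (ha : a < m) (ha' : a' < m) :
    (toSys prog ini fin π ι m K W).Adj0 wn j κ a κ' a' ↔
      sym0 prog ini fin π ι wn j (rel a a') (feat m K W a) (feat m K W a') κ κ' := by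
  rcases κ with _ | (⟨ρ, e, i, s⟩ | ⟨ε, s⟩ | w) <;>
    rcases κ' with _ | (⟨ρ', e', i', s'⟩ | ⟨ε', s'⟩ | w') <;>
    simp only [Sys.Adj0, sym0, Sys.Valid, eval_slab, ty_eq_sty0, sty_eq_ssty0, eqt_iff,
      rel_eq_two, rel_le_two, feat_lo, LM.eval]
  · simp [toSys, ha, ha']
  · simp [toSys, ha]
  · simp [toSys, ha]

/-- The table exists: there is a predicate on table indices and pairs of kinds, not depending
on `m`, `K`, `W`, that describes adjacency. -/
theorem exists_table :
    ∃ tab : Th → Option (Kind (Rule F Q B) B k' p N) →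
        Option (Kind (Rule F Q B) B k' p N) → Prop,
      ∀ (m K : ℕ) (W : ℕ → Prop) (U : Type) (κ : U → Option (Kind (Rule F Q B) B k' p N))
        (lb : U → ℕ) (_ : ∀ u, lb u < m) (j : Bool) (u v : U),
        ((toSys prog ini fin π ι m K W).graph wn κ lb (chOf j)).Adj u v ↔
          tab (j, rel (lb u) (lb v), feat m K W (lb u), feat m K W (lb v)) (κ u) (κ v) := by
  refine ⟨fun θ κ κ' =>
    sym0 prog ini fin π ι wn (chOf θ.1) θ.2.1 θ.2.2.1 θ.2.2.2 κ κ' ∨
    sym0 prog ini fin π ι wn (chOf θ.1) (revRel θ.2.1) θ.2.2.2 θ.2.2.1 κ' κ, ?_⟩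
  intro m K W U κ lb hlt j u v
  have h1 := adj0_iff_sym0 prog ini fin π ι wn (chOf j) m K W (κ u) (κ v) (lb u) (lb v)
    (hlt u) (hlt v)
  have h2 := adj0_iff_sym0 prog ini fin π ι wn (chOf j) m K W (κ v) (κ u) (lb v) (lb u)
    (hlt v) (hlt u)
  rw [rel_swap (lb u) (lb v)] at h2
  change (_ ∨ _) ↔ (_ ∨ _)
  rw [h1, h2]

end table

end Vale.Agent.P310

/-!
The Horn program that simulates a Turing machine on the adjacency matrices of its own graphs.
-/

namespace Vale.Agent.P310

/-- Fact types of the program. `t` is the number of table indices. -/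
inductive PF (M : TM) (nt : ℕ)
  | ini
  | fin
  | all
  | pt (θ : Fin nt)
  | qt (θ : Fin nt) (rc : Fin 5)
  | sym (pr : Bool) (j : Fin (M.aux + 1)) (g : M.Sym)
  | hd (pr : Bool) (j : Fin (M.aux + 1)) (b : Bool)
  | st (pr : Bool) (q : M.State)
  | hs (j : Fin (M.aux + 1)) (g : M.Sym)
  | gb (q : M.State) (g : Fin (M.aux + 1) → M.Sym)

/-- Coordinates: time digits, position digits, the table pointer. -/
abbrev PQ (r : ℕ) := Fin r ⊕ Fin (r + 6) ⊕ Unit

/-- Time coordinates. -/
def tc {r : ℕ} (i : Fin r) : PQ r := Sum.inl i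

/-- Position coordinates. -/
def pc {r : ℕ} (i : Fin (r + 6)) : PQ r := Sum.inr (Sum.inl i)

/-- The table pointer. -/
def zc {r : ℕ} : PQ r := Sum.inr (Sum.inr ())

/-- The most significant position digit. -/
def top {r : ℕ} : Fin (r + 6) := Fin.last (r + 5)

/-- Identity maps. -/
def ids {Q : Type} : Q → LM := fun _ => .id

/-- No condition. -/
def noCond {Q : Type} : Q → Feat → Prop := fun _ _ => True

/-- A condition at one coordinate. -/
def condAt {Q : Type} (q : Q) (P : Feat → Prop) : Q → Feat → Prop := fun q' φ => q' = q → P φ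

/-- A condition at two coordinates. -/
def condAt2 {Q : Type} (q : Q) (P : Feat → Prop) (q' : Q) (P' : Feat → Prop) :
    Q → Feat → Prop := fun x φ => (x = q → P φ) ∧ (x = q' → P' φ)

open Classical in
/-- Change identity maps at one coordinate. -/
noncomputable def one {Q : Type} (q : Q) (μ : LM) : Q → LM := fun x => if x = q then μ else .id

open Classical in
/-- Change identity maps at two coordinates. -/
noncomputable def two {Q : Type} (q : Q) (μ : LM) (q' : Q) (μ' : LM) : Q → LM := fun x =>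
  if x = q then μ else if x = q' then μ' else .id

open Classical in
/-- Change identity maps at three coordinates. -/
noncomputable def three {Q : Type} (q : Q) (μ : LM) (q' : Q) (μ' : LM) (q'' : Q) (μ'' : LM) :
    Q → LM := fun x =>
  if x = q then μ else if x = q' then μ' else if x = q'' then μ'' else .id

/-- Set all position coordinates to zero. -/
def zeroP {r : ℕ} : PQ r → LM
  | Sum.inl _ => .id
  | Sum.inr (Sum.inl _) => .zero
  | Sum.inr (Sum.inr _) => .id

/-- Increment of the position with carry pattern `i`. -/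
def carryP {r : ℕ} (i : Fin (r + 6)) : PQ r → LM
  | Sum.inl _ => .id
  | Sum.inr (Sum.inl i') => if i' < i then .zero else if i' = i then .succ else .id
  | Sum.inr (Sum.inr _) => .id

/-- The condition for `carryP`. -/
def condP {r : ℕ} (i : Fin (r + 6)) : PQ r → Feat → Prop
  | Sum.inl _, _ => True
  | Sum.inr (Sum.inl i'), φ => i' < i → φ.hi
  | Sum.inr (Sum.inr _), _ => True

/-- Increment of the time with carry pattern `i`. -/
def carryT {r : ℕ} (i : Fin r) : PQ r → LM
  | Sum.inl i' => if i' < i then .zero else if i' = i then .succ else .id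
  | Sum.inr _ => .id

/-- The condition for `carryT`. -/
def condT {r : ℕ} (i : Fin r) : PQ r → Feat → Prop
  | Sum.inl i', φ => i' < i → φ.hi
  | Sum.inr _, _ => True

/-- Rules with one body. -/
def mk1 {F Q : Type} {B : ℕ} (h b : F) (cond : Q → Feat → Prop) (hm : Q → LM) : Rule F Q B where
  head := h
  body := fun _ => b
  cond := cond
  hmap := hm
  bmap := fun _ => ids

/-- Rules with two bodies; the first one has label maps `bm`. -/
def mk2 {F Q : Type} {B : ℕ} (h b b' : F) (cond : Q → Feat → Prop) (hm bm : Q → LM) :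
    Rule F Q B where
  head := h
  body := fun j => if (j : ℕ) = 0 then b else b'
  cond := cond
  hmap := hm
  bmap := fun j => if (j : ℕ) = 0 then bm else ids

section program

variable (M : TM) {nt : ℕ} (e : Th ≃ Fin nt) (r : ℕ)

/-- The rules of the program. -/
inductive Prog : Rule (PF M nt) (PQ r) (M.aux + 2) → Prop
  | i1 : Prog (mk1 (.st false M.start) .ini noCond ids)
  | i2 : Prog (mk1 .all .ini noCond ids)
  | i3 (i : Fin (r + 6)) : Prog (mk1 .all .all noCond (one (pc i) .succ))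
  | i4 (j : Fin (M.aux + 1)) (i : Fin (r + 6)) :
      Prog (mk1 (.hd false j false) .all
        (condAt (pc i) fun φ => if i = top then φ.lo ≠ 1 else φ.lo ≠ 0) ids)
  | i5 (j : Fin (M.aux + 1)) :
      Prog (mk1 (.hd false j true) .all
        (fun q φ => ∀ i, q = pc i → if i = top then φ.lo = 1 else φ.lo = 0) ids)
  | i6 (j : Fin (M.aux + 1)) (hj : j ≠ 0) : Prog (mk1 (.sym false j M.blank) .all noCond ids)
  | i7 (i : Fin (r + 6)) :
      Prog (mk1 (.sym false 0 M.blank) .all
        (condAt (pc i) fun φ => if i = top then φ.lo ≠ 1 else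
          if (i : ℕ) = 4 then φ.lo = 2 else (4 < (i : ℕ) ∧ φ.lo ≠ 0)) ids)
  | i8 (θ : Th) (b : Bool) :
      Prog (mk1 (.sym false 0 (M.bit b)) (.qt (e θ) θ.2.1)
        (fun q φ => (q = pc 2 → φ = θ.2.2.1) ∧ (q = pc 0 → φ = θ.2.2.2) ∧
          (q = zc → (φ.w ↔ b = true)))
        (three (pc top) .succ (pc 4) (if θ.1 then .succ else .id) zc .zero))
  | w1 (θ : Fin nt) (hθ : (θ : ℕ) = 0) : Prog (mk1 (.pt θ) .ini noCond ids)
  | w2 (θ : Fin nt) :
      Prog (mk1 (.pt θ) (.pt θ) (condAt (pc 1) fun φ => φ.kc = 0) (two (pc 1) .succ zc .succ))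
  | w3 (θ : Fin nt) :
      Prog (mk1 (.pt θ) (.pt θ) (condAt2 (pc 1) (fun φ => φ.kc = 1) (pc 3) (fun φ => φ.kc = 0))
        (three (pc 1) .zero (pc 3) .succ zc .succ))
  | w4 (θ θ' : Fin nt) (h : (θ' : ℕ) = θ + 1) :
      Prog (mk1 (.pt θ') (.pt θ) (condAt2 (pc 1) (fun φ => φ.kc = 1) (pc 3) (fun φ => φ.kc = 1))
        (three (pc 1) .zero (pc 3) .zero zc .succ))
  | w5 (θ : Fin nt) : Prog (mk1 (.qt θ 2) (.pt θ) noCond ids)
  | w6 (θ : Fin nt) :
      Prog (mk1 (.qt θ 2) (.qt θ 2) (condAt (pc 1) fun φ => φ.kc ≠ 0) (one (pc 1) .succ))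
  | w7 (θ : Fin nt) :
      Prog (mk1 (.qt θ 2) (.qt θ 2) (condAt (pc 3) fun φ => φ.kc ≠ 0) (one (pc 3) .succ))
  | v1 (θ : Fin nt) : Prog (mk1 (.qt θ 2) (.qt θ 2) noCond (two (pc 0) .succ (pc 2) .succ))
  | v2 (θ : Fin nt) : Prog (mk1 (.qt θ 3) (.qt θ 2) noCond (one (pc 0) .succ))
  | v3 (θ : Fin nt) : Prog (mk1 (.qt θ 4) (.qt θ 3) noCond (one (pc 0) .succ))
  | v4 (θ : Fin nt) : Prog (mk1 (.qt θ 4) (.qt θ 4) noCond (one (pc 0) .succ))
  | v5 (θ : Fin nt) : Prog (mk1 (.qt θ 1) (.qt θ 2) noCond (one (pc 2) .succ))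
  | v6 (θ : Fin nt) : Prog (mk1 (.qt θ 0) (.qt θ 1) noCond (one (pc 2) .succ))
  | v7 (θ : Fin nt) : Prog (mk1 (.qt θ 0) (.qt θ 0) noCond (one (pc 2) .succ))
  | r1 (j : Fin (M.aux + 1)) (g : M.Sym) :
      Prog (mk2 (.hs j g) (.sym false j g) (.hd false j true) noCond zeroP ids)
  | r2 (q : M.State) (g : Fin (M.aux + 1) → M.Sym) :
      Prog
        { head := .gb q g
          body := Fin.cons (.st false q) fun j => .hs j (g j)
          cond := noCond
          hmap := ids
          bmap := fun _ => ids }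
  | r3 (q : M.State) (g : Fin (M.aux + 1) → M.Sym) (i : Fin (r + 6)) :
      Prog (mk1 (.gb q g) (.gb q g) noCond (one (pc i) .succ))
  | r4 (q : M.State) (g : Fin (M.aux + 1) → M.Sym)
      (a : M.State × (Fin (M.aux + 1) → M.Sym × Move)) (h : M.δ q g = some a) :
      Prog (mk1 (.st true a.1) (.gb q g) noCond zeroP)
  | r5 (j : Fin (M.aux + 1)) (g : M.Sym) :
      Prog (mk2 (.sym true j g) (.sym false j g) (.hd false j false) noCond ids ids)
  | r6 (j : Fin (M.aux + 1)) (q : M.State) (g : Fin (M.aux + 1) → M.Sym)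
      (a : M.State × (Fin (M.aux + 1) → M.Sym × Move)) (h : M.δ q g = some a) :
      Prog (mk2 (.sym true j (a.2 j).1) (.hd false j true) (.gb q g) noCond ids ids)
  | r7 (j : Fin (M.aux + 1)) (b : Bool) (q : M.State) (g : Fin (M.aux + 1) → M.Sym)
      (a : M.State × (Fin (M.aux + 1) → M.Sym × Move)) (h : M.δ q g = some a)
      (hm : (a.2 j).2 = .stay) :
      Prog (mk2 (.hd true j b) (.hd false j b) (.gb q g) noCond ids ids)
  | r8 (j : Fin (M.aux + 1)) (b : Bool) (q : M.State) (g : Fin (M.aux + 1) → M.Sym)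
      (a : M.State × (Fin (M.aux + 1) → M.Sym × Move)) (h : M.δ q g = some a)
      (hm : (a.2 j).2 = .right) (i : Fin (r + 6)) :
      Prog (mk2 (.hd true j b) (.hd false j b) (.gb q g) (condP i) (carryP i) ids)
  | r9 (j : Fin (M.aux + 1)) (b : Bool) (q : M.State) (g : Fin (M.aux + 1) → M.Sym)
      (a : M.State × (Fin (M.aux + 1) → M.Sym × Move)) (h : M.δ q g = some a)
      (hm : (a.2 j).2 = .left) (i : Fin (r + 6)) :
      Prog (mk2 (.hd true j b) (.hd false j b) (.gb q g) (condP i) ids (carryP i))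
  | r10s (j : Fin (M.aux + 1)) (g : M.Sym) (i : Fin r) :
      Prog (mk1 (.sym false j g) (.sym true j g) (condT i) (carryT i))
  | r10h (j : Fin (M.aux + 1)) (b : Bool) (i : Fin r) :
      Prog (mk1 (.hd false j b) (.hd true j b) (condT i) (carryT i))
  | r10q (q : M.State) (i : Fin r) :
      Prog (mk1 (.st false q) (.st true q) (condT i) (carryT i))
  | r11 (q : M.State) (g : Fin (M.aux + 1) → M.Sym) (h : M.δ q g = none) (ha : M.accept q) :
      Prog (mk1 .fin (.gb q g) noCond (fun _ => .zero))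

/-- The position of a table entry. -/
def idx (K θ κ κ' : ℕ) : ℕ := θ * (K + 1) ^ 2 + κ * (K + 1) + κ'

/-- The predicate on labels that encodes a table. -/
def WOf (K : ℕ) (tab : Th → ℕ → ℕ → Prop) (z : ℕ) : Prop :=
  ∃ θ κ κ', κ ≤ K ∧ κ' ≤ K ∧ z = idx K (e θ) κ κ' ∧ tab θ κ κ'

variable {M e r}
  {k p K m : ℕ} {π : Fin k → PQ r}
  {ι : Rule (PF M nt) (PQ r) (M.aux + 2) × Fin (M.aux + 2) × Fin (k + 1) → ZMod p}
  {tab : Th → ℕ → ℕ → Prop} {G : Bool → SimpleGraph (Fin (m * m))}

/-- The system of the program. -/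
noncomputable def progSys (M : TM) {nt : ℕ} (e : Th ≃ Fin nt) (r : ℕ) {k p : ℕ} (K m : ℕ)
    (π : Fin k → PQ r)
    (ι : Rule (PF M nt) (PQ r) (M.aux + 2) × Fin (M.aux + 2) × Fin (k + 1) → ZMod p)
    (tab : Th → ℕ → ℕ → Prop) :
    Sys (PF M nt) (Rule (PF M nt) (PQ r) (M.aux + 2)) (PQ r) (M.aux + 2) k p :=
  toSys (Prog M e r) .ini .fin π ι m K (WOf e K tab)

/-- The graphs are described by the table. -/
def TabOk (e : Th ≃ Fin nt) (K : ℕ) (tab : Th → ℕ → ℕ → Prop)
    (G : Bool → SimpleGraph (Fin (m * m))) : Prop :=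
  ∀ (j : Bool) (u v : Fin (m * m)), (G j).Adj u v ↔
    tab (j, rel u.modNat v.modNat, feat m K (WOf e K tab) u.modNat,
      feat m K (WOf e K tab) v.modNat) (min (u.divNat : ℕ) K) (min (v.divNat : ℕ) K)

end program

end Vale.Agent.P310

/-!
Values of digit tuples in base `m`, and carry patterns.
-/

namespace Vale.Agent.P310.Snd

open Finset

/-- The value of a tuple of digits in base `m`, least significant digit first. -/
def num (m : ℕ) {n : ℕ} (d : Fin n → ℕ) : ℕ := ∑ i, d i * m ^ (i : ℕ)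

theorem num_succ (m : ℕ) {n : ℕ} (d : Fin (n + 1) → ℕ) :
    num m d = d 0 + m * num m fun i => d i.succ := by
  unfold num
  rw [Fin.sum_univ_succ, Finset.mul_sum]
  congr 1
  · simp
  · refine Finset.sum_congr rfl fun i _ => ?_
    rw [Fin.val_succ, pow_succ]; ring

theorem num_add (m : ℕ) {n : ℕ} (d d' : Fin n → ℕ) :
    (num m fun i => d i + d' i) = num m d + num m d' := by
  unfold num
  rw [← Finset.sum_add_distrib]
  exact Finset.sum_congr rfl fun i _ => by ring

theorem num_single (m : ℕ) {n : ℕ} (i : Fin n) (v : ℕ) :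
    (num m fun i' => if i' = i then v else 0) = v * m ^ (i : ℕ) := by
  unfold num
  rw [Finset.sum_eq_single i]
  · simp
  · intro b _ hb; simp [hb]
  · intro h; exact absurd (Finset.mem_univ i) h

theorem num_zero (m : ℕ) {n : ℕ} {d : Fin n → ℕ} (h : ∀ i, d i = 0) : num m d = 0 := by
  unfold num
  exact Finset.sum_eq_zero fun i _ => by rw [h, zero_mul]

theorem le_num (m : ℕ) {n : ℕ} (d : Fin n → ℕ) (i : Fin n) : d i * m ^ (i : ℕ) ≤ num m d :=
  Finset.single_le_sum (f := fun i : Fin n => d i * m ^ (i : ℕ)) (fun _ _ => Nat.zero_le _)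
    (Finset.mem_univ i)

/-- Two digits at different places give a lower bound. -/
theorem le_num_two (m : ℕ) {n : ℕ} (d : Fin n → ℕ) {i j : Fin n} (hij : i ≠ j) :
    d i * m ^ (i : ℕ) + d j * m ^ (j : ℕ) ≤ num m d := by
  unfold num
  rw [← Finset.sum_pair (f := fun i : Fin n => d i * m ^ (i : ℕ)) hij]
  exact Finset.sum_le_sum_of_subset (Finset.subset_univ _)

theorem num_last (m : ℕ) {n : ℕ} (d : Fin (n + 1) → ℕ) :
    num m d = (num m fun i : Fin n => d i.castSucc) + d (Fin.last n) * m ^ n := by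
  unfold num
  rw [Fin.sum_univ_castSucc]
  simp

theorem num_lt {m n : ℕ} {d : Fin n → ℕ} (hd : ∀ i, d i < m) : num m d < m ^ n := by
  have := (finFunctionFinEquiv (fun i => (⟨d i, hd i⟩ : Fin m))).2
  rwa [finFunctionFinEquiv_apply_val] at this

theorem num_inj {m n : ℕ} {d d' : Fin n → ℕ} (hd : ∀ i, d i < m) (hd' : ∀ i, d' i < m)
    (h : num m d = num m d') : d = d' := by
  have h2 : finFunctionFinEquiv (fun i => (⟨d i, hd i⟩ : Fin m)) =
      finFunctionFinEquiv (fun i => (⟨d' i, hd' i⟩ : Fin m)) := by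
    apply Fin.ext
    rw [finFunctionFinEquiv_apply_val, finFunctionFinEquiv_apply_val]
    exact h
  have h3 := finFunctionFinEquiv.injective h2
  funext i
  exact congrArg Fin.val (congrFun h3 i)

theorem num_surj {m n x : ℕ} (hx : x < m ^ n) :
    ∃ d : Fin n → ℕ, (∀ i, d i < m) ∧ num m d = x := by
  refine ⟨fun i => ((finFunctionFinEquiv (m := m) (n := n)).symm ⟨x, hx⟩ i : Fin m),
    fun i => Fin.is_lt _, ?_⟩
  have := finFunctionFinEquiv_apply_val ((finFunctionFinEquiv (m := m) (n := n)).symm ⟨x, hx⟩)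
  rw [Equiv.apply_symm_apply] at this
  exact this.symm

/-- A carry raises the value by one. -/
theorem num_carry {m n : ℕ} {d d' : Fin n → ℕ} (i : Fin n)
    (h1 : ∀ i' < i, d i' + 1 = m ∧ d' i' = 0) (h2 : d' i = d i + 1)
    (h3 : ∀ i', i < i' → d' i' = d i') : num m d' = num m d + 1 := by
  induction n with
  | zero => exact i.elim0
  | succ n ih =>
    rw [num_succ m d, num_succ m d']
    cases i using Fin.cases with
    | zero =>
      have : (fun i : Fin n => d' i.succ) = fun i => d i.succ := by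
        funext i; exact h3 _ (Fin.succ_pos i)
      rw [this, h2]; ring
    | succ i =>
      have h0 := h1 0 (Fin.succ_pos i)
      have := ih (d := fun i => d i.succ) (d' := fun i => d' i.succ) i
        (fun i' hi' => h1 _ (Fin.succ_lt_succ_iff.2 hi')) h2
        (fun i' hi' => h3 _ (Fin.succ_lt_succ_iff.2 hi'))
      rw [this, h0.2]
      have h4 := h0.1
      rw [Nat.mul_add, Nat.mul_one]
      omega

/-- The carry pattern of a successor. -/
theorem exists_carry {m n : ℕ} {d : Fin n → ℕ} (hd : ∀ i, d i < m) (h : num m d + 1 < m ^ n) :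
    ∃ i : Fin n, (∀ i' < i, d i' + 1 = m) ∧ d i + 1 < m := by
  induction n with
  | zero => simp at h
  | succ n ih =>
    by_cases h0 : d 0 + 1 < m
    · exact ⟨0, fun i' hi' => absurd hi' (Fin.not_lt_zero i'), h0⟩
    · have h1 : d 0 + 1 = m := by have := hd 0; omega
      rw [num_succ] at h
      have h2 : num m (fun i : Fin n => d i.succ) + 1 < m ^ n := by
        have h3 : m * (num m (fun i : Fin n => d i.succ) + 1) < m * m ^ n := by
          rw [Nat.mul_add, Nat.mul_one, ← pow_succ']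
          omega
        exact Nat.lt_of_mul_lt_mul_left h3
      obtain ⟨i, hi1, hi2⟩ := ih (fun i => hd i.succ) h2
      refine ⟨i.succ, fun i' hi' => ?_, hi2⟩
      cases i' using Fin.cases with
      | zero => exact h1
      | succ i' => exact hi1 i' (Fin.succ_lt_succ_iff.1 hi')

/-- The carry pattern of a predecessor. -/
theorem exists_borrow {m n : ℕ} {d : Fin n → ℕ} (h : 0 < num m d) :
    ∃ i : Fin n, (∀ i' < i, d i' = 0) ∧ 0 < d i := by
  by_contra hcon
  push Not at hcon
  have : ∀ k : ℕ, ∀ i : Fin n, (i : ℕ) < k → d i = 0 := by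
    intro k
    induction k with
    | zero => intro i hi; omega
    | succ k ih =>
      intro i hi
      exact Nat.le_zero.1 (hcon i fun i' hi' => ih i' (by
        have : (i' : ℕ) < i := hi'
        omega))
  have := num_zero m (fun i : Fin n => this n i i.2)
  omega

end Vale.Agent.P310.Snd

/-!
The run of a Turing machine as a function of time, the input word, and the values of the
coordinates of the program.
-/

namespace Vale.Agent.P310.Snd

open Finset

/-- The configuration after `s` steps, frozen after halting. -/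
noncomputable def cfgAt (M : TM) (w : List Bool) : ℕ → M.Cfg
  | 0 => M.init w
  | s + 1 => (M.step (cfgAt M w s)).getD (cfgAt M w s)

theorem after_cfgAt (M : TM) (w : List Bool) (s : ℕ) : ∃ t, M.After w t (cfgAt M w s) := by
  induction s with
  | zero => exact ⟨0, .zero⟩
  | succ s ih =>
    obtain ⟨t, ht⟩ := ih
    cases h : M.step (cfgAt M w s) with
    | none => exact ⟨t, by simpa [cfgAt, h] using ht⟩
    | some c => exact ⟨t + 1, by simpa [cfgAt, h] using ht.succ h⟩

theorem cfgAt_of_after {M : TM} {w : List Bool} {t : ℕ} {c : M.Cfg} (h : M.After w t c) :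
    cfgAt M w t = c := by
  induction h with
  | zero => rfl
  | succ _ h2 ih => simp [cfgAt, ih, h2]

/-- Along a run, the machine does not halt earlier. -/
theorem step_of_after {M : TM} {w : List Bool} {t : ℕ} {c : M.Cfg} (h : M.After w t c) :
    ∀ s < t, M.step (cfgAt M w s) = some (cfgAt M w (s + 1)) := by
  induction h with
  | zero => intro s hs; omega
  | @succ t c c' h1 h2 ih =>
    intro s hs
    by_cases h : s < t
    · exact ih s h
    · have : s = t := by omega
      subst this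
      simp [cfgAt, cfgAt_of_after h1, h2]

theorem init_blank (M : TM) (w : List Bool) (j : Fin (M.aux + 1)) {x : ℤ}
    (h : j ≠ 0 ∨ x < 0 ∨ (w.length : ℤ) ≤ x) : (M.init w).tape j x = M.blank := by
  unfold TM.init
  dsimp only
  split_ifs with h1
  · obtain ⟨rfl, h2⟩ := h1
    have h3 : (w.length : ℤ) ≤ x := by
      rcases h with h | h | h
      · exact absurd rfl h
      · omega
      · exact h
    rw [List.getElem?_eq_none (by omega)]
    rfl
  · rfl

theorem init_bit (M : TM) {w : List Bool} {x : ℕ} {b : Bool} (h : w[x]? = some b) :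
    (M.init w).tape 0 (x : ℤ) = M.bit b := by
  unfold TM.init
  dsimp only
  rw [if_pos ⟨rfl, by omega⟩, Int.toNat_natCast, h]
  rfl

/-- The next configuration. -/
theorem cfgAt_succ {M : TM} {w : List Bool} {s : ℕ} {q : M.State}
    {g : Fin (M.aux + 1) → M.Sym} {a : M.State × (Fin (M.aux + 1) → M.Sym × Move)}
    (hq : (cfgAt M w s).state = q)
    (hg : ∀ j, (cfgAt M w s).tape j ((cfgAt M w s).head j) = g j) (ha : M.δ q g = some a) :
    cfgAt M w (s + 1) =
      { state := a.1
        head := fun j => (cfgAt M w s).head j + (a.2 j).2.disp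
        tape := fun j => Function.update ((cfgAt M w s).tape j) ((cfgAt M w s).head j)
          (a.2 j).1 } := by
  have hg' : (fun j => (cfgAt M w s).tape j ((cfgAt M w s).head j)) = g := funext hg
  have : M.step (cfgAt M w s) = some
      { state := a.1
        head := fun j => (cfgAt M w s).head j + (a.2 j).2.disp
        tape := fun j => Function.update ((cfgAt M w s).tape j) ((cfgAt M w s).head j)
          (a.2 j).1 } := by
    unfold TM.step
    rw [hg', hq, ha]
    rfl
  show (M.step (cfgAt M w s)).getD (cfgAt M w s) = _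
  rw [this]
  rfl

/-- Cells not scanned do not change. -/
theorem cfgAt_tape {M : TM} {w : List Bool} {s : ℕ} {j : Fin (M.aux + 1)} {x : ℤ}
    (h : (cfgAt M w s).head j ≠ x) : (cfgAt M w (s + 1)).tape j x = (cfgAt M w s).tape j x := by
  show ((M.step (cfgAt M w s)).getD (cfgAt M w s)).tape j x = _
  unfold TM.step
  cases hd : M.δ (cfgAt M w s).state (fun j => (cfgAt M w s).tape j ((cfgAt M w s).head j)) with
  | none => rfl
  | some a =>
    simp only [Option.map_some, Option.getD_some]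
    exact Function.update_of_ne (Ne.symm h) _ _

theorem matrixBits_length {n : ℕ} (G : SimpleGraph (Fin n)) : (matrixBits G).length = n * n := by
  simp [matrixBits]

theorem inputWord_length {n : ℕ} (G H : SimpleGraph (Fin n)) :
    (inputWord G H).length = 2 * (n * n) := by
  simp [inputWord, matrixBits_length, Nat.two_mul]

theorem matrixBits_get {n : ℕ} (G : SimpleGraph (Fin n)) {u v : ℕ} (hu : u < n) (hv : v < n) :
    (matrixBits G)[u * n + v]? =
      some (@decide (G.Adj ⟨u, hu⟩ ⟨v, hv⟩) (Classical.dec _)) := by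
  have h : u * n + v < n * n := by
    calc u * n + v < u * n + n := by omega
      _ = (u + 1) * n := by ring
      _ ≤ n * n := Nat.mul_le_mul_right _ hu
  have h1 : (⟨u * n + v, h⟩ : Fin (n * n)).divNat = ⟨u, hu⟩ := by
    apply Fin.ext
    simp only [Fin.coe_divNat]
    rw [Nat.add_comm, Nat.add_mul_div_right _ _ (by omega), Nat.div_eq_of_lt hv, Nat.zero_add]
  have h2 : (⟨u * n + v, h⟩ : Fin (n * n)).modNat = ⟨v, hv⟩ := by
    apply Fin.ext
    simp only [Fin.coe_modNat]
    rw [Nat.add_comm, Nat.add_mul_mod_self_right, Nat.mod_eq_of_lt hv]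
  unfold matrixBits
  rw [List.getElem?_ofFn, dif_pos h, h1, h2]

theorem inputWord_get {n : ℕ} (G : Bool → SimpleGraph (Fin n)) (j : Bool) {u v : ℕ}
    (hu : u < n) (hv : v < n) :
    (inputWord (G false) (G true))[j.toNat * (n * n) + (u * n + v)]? =
      some (@decide ((G j).Adj ⟨u, hu⟩ ⟨v, hv⟩) (Classical.dec _)) := by
  have h : u * n + v < n * n := by
    calc u * n + v < u * n + n := by omega
      _ = (u + 1) * n := by ring
      _ ≤ n * n := Nat.mul_le_mul_right _ hu
  cases j with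
  | false =>
    simp only [Bool.toNat_false, Nat.zero_mul, Nat.zero_add]
    unfold inputWord
    rw [List.getElem?_append_left (by rw [matrixBits_length]; exact h)]
    exact matrixBits_get _ hu hv
  | true =>
    simp only [Bool.toNat_true, Nat.one_mul]
    unfold inputWord
    rw [List.getElem?_append_right (by rw [matrixBits_length]; omega), matrixBits_length,
      Nat.add_sub_cancel_left]
    exact matrixBits_get _ hu hv

@[simp] theorem LM.eval_id (a : ℕ) : LM.id.eval a = a := rfl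
@[simp] theorem LM.eval_succ (a : ℕ) : LM.succ.eval a = a + 1 := rfl
@[simp] theorem LM.eval_zero (a : ℕ) : LM.zero.eval a = 0 := rfl

theorem lo_eq_zero {m K : ℕ} {W : ℕ → Prop} {a : ℕ} : (feat m K W a).lo = 0 ↔ a = 0 := by
  unfold feat
  dsimp only
  split_ifs <;> simp_all

theorem lo_eq_one {m K : ℕ} {W : ℕ → Prop} {a : ℕ} : (feat m K W a).lo = 1 ↔ a = 1 := by
  unfold feat
  dsimp only
  split_ifs <;> simp_all

theorem lo_eq_two {m K : ℕ} {W : ℕ → Prop} {a : ℕ} : (feat m K W a).lo = 2 ↔ 2 ≤ a := by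
  unfold feat
  dsimp only
  split_ifs <;> simp_all
  omega

theorem kc_eq_zero {m K : ℕ} {W : ℕ → Prop} {a : ℕ} : (feat m K W a).kc = 0 ↔ a < K := by
  unfold feat
  dsimp only
  split_ifs <;> simp_all

theorem kc_eq_one {m K : ℕ} {W : ℕ → Prop} {a : ℕ} : (feat m K W a).kc = 1 ↔ a = K := by
  unfold feat
  dsimp only
  split_ifs <;> simp_all
  omega

theorem rel_eq_two {a a' : ℕ} : rel a a' = 2 ↔ a' = a := by
  unfold rel
  split_ifs <;> simp_all

theorem rel_eq_three {a a' : ℕ} : rel a a' = 3 ↔ a' = a + 1 := by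
  unfold rel
  split_ifs <;> simp_all

theorem rel_eq_one {a a' : ℕ} : rel a a' = 1 ↔ a = a' + 1 := by
  unfold rel
  split_ifs <;> simp_all
  omega

theorem rel_eq_four {a a' : ℕ} : rel a a' = 4 ↔ a + 1 < a' := by
  unfold rel
  split_ifs <;> simp_all <;> omega

theorem rel_eq_zero {a a' : ℕ} : rel a a' = 0 ↔ a' + 1 < a := by
  unfold rel
  split_ifs <;> simp_all <;> omega

theorem val0 {r : ℕ} : ((0 : Fin (r + 6)) : ℕ) = 0 := rfl
theorem val1 {r : ℕ} : ((1 : Fin (r + 6)) : ℕ) = 1 := rfl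
theorem val2 {r : ℕ} : ((2 : Fin (r + 6)) : ℕ) = 2 := rfl
theorem val3 {r : ℕ} : ((3 : Fin (r + 6)) : ℕ) = 3 := rfl
theorem val4 {r : ℕ} : ((4 : Fin (r + 6)) : ℕ) = 4 := rfl
theorem ne01 {r : ℕ} : ((0 : Fin (r + 6)) = 1) = False :=
  eq_false fun h => absurd (congrArg Fin.val h) (by rw [val0, val1]; omega)
theorem ne02 {r : ℕ} : ((0 : Fin (r + 6)) = 2) = False :=
  eq_false fun h => absurd (congrArg Fin.val h) (by rw [val0, val2]; omega)
theorem ne03 {r : ℕ} : ((0 : Fin (r + 6)) = 3) = False :=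
  eq_false fun h => absurd (congrArg Fin.val h) (by rw [val0, val3]; omega)
theorem ne04 {r : ℕ} : ((0 : Fin (r + 6)) = 4) = False :=
  eq_false fun h => absurd (congrArg Fin.val h) (by rw [val0, val4]; omega)
theorem ne10 {r : ℕ} : ((1 : Fin (r + 6)) = 0) = False :=
  eq_false fun h => absurd (congrArg Fin.val h) (by rw [val1, val0]; omega)
theorem ne12 {r : ℕ} : ((1 : Fin (r + 6)) = 2) = False :=
  eq_false fun h => absurd (congrArg Fin.val h) (by rw [val1, val2]; omega)
theorem ne13 {r : ℕ} : ((1 : Fin (r + 6)) = 3) = False :=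
  eq_false fun h => absurd (congrArg Fin.val h) (by rw [val1, val3]; omega)
theorem ne14 {r : ℕ} : ((1 : Fin (r + 6)) = 4) = False :=
  eq_false fun h => absurd (congrArg Fin.val h) (by rw [val1, val4]; omega)
theorem ne20 {r : ℕ} : ((2 : Fin (r + 6)) = 0) = False :=
  eq_false fun h => absurd (congrArg Fin.val h) (by rw [val2, val0]; omega)
theorem ne21 {r : ℕ} : ((2 : Fin (r + 6)) = 1) = False :=
  eq_false fun h => absurd (congrArg Fin.val h) (by rw [val2, val1]; omega)
theorem ne23 {r : ℕ} : ((2 : Fin (r + 6)) = 3) = False :=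
  eq_false fun h => absurd (congrArg Fin.val h) (by rw [val2, val3]; omega)
theorem ne24 {r : ℕ} : ((2 : Fin (r + 6)) = 4) = False :=
  eq_false fun h => absurd (congrArg Fin.val h) (by rw [val2, val4]; omega)
theorem ne30 {r : ℕ} : ((3 : Fin (r + 6)) = 0) = False :=
  eq_false fun h => absurd (congrArg Fin.val h) (by rw [val3, val0]; omega)
theorem ne31 {r : ℕ} : ((3 : Fin (r + 6)) = 1) = False :=
  eq_false fun h => absurd (congrArg Fin.val h) (by rw [val3, val1]; omega)
theorem ne32 {r : ℕ} : ((3 : Fin (r + 6)) = 2) = False :=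
  eq_false fun h => absurd (congrArg Fin.val h) (by rw [val3, val2]; omega)
theorem ne34 {r : ℕ} : ((3 : Fin (r + 6)) = 4) = False :=
  eq_false fun h => absurd (congrArg Fin.val h) (by rw [val3, val4]; omega)
theorem ne40 {r : ℕ} : ((4 : Fin (r + 6)) = 0) = False :=
  eq_false fun h => absurd (congrArg Fin.val h) (by rw [val4, val0]; omega)
theorem ne41 {r : ℕ} : ((4 : Fin (r + 6)) = 1) = False :=
  eq_false fun h => absurd (congrArg Fin.val h) (by rw [val4, val1]; omega)
theorem ne42 {r : ℕ} : ((4 : Fin (r + 6)) = 2) = False :=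
  eq_false fun h => absurd (congrArg Fin.val h) (by rw [val4, val2]; omega)
theorem ne43 {r : ℕ} : ((4 : Fin (r + 6)) = 3) = False :=
  eq_false fun h => absurd (congrArg Fin.val h) (by rw [val4, val3]; omega)

section coords

variable {r : ℕ}

/-- The time coded by the coordinates. -/
def tv (m : ℕ) (c : PQ r → ℕ) : ℕ := num m fun i => c (tc i)

/-- The position coded by the coordinates. -/
def pv (m : ℕ) (c : PQ r → ℕ) : ℕ := num m fun i => c (pc i)

theorem pc_inj {i j : Fin (r + 6)} : (pc i : PQ r) = pc j ↔ i = j := by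
  simp [pc]

theorem pc_ne_zc (i : Fin (r + 6)) : (pc i : PQ r) ≠ zc := by
  simp [pc, zc]

theorem tc_ne_zc (i : Fin r) : (tc i : PQ r) ≠ zc := by
  simp [tc, zc]

theorem tc_ne_pc (i : Fin r) (j : Fin (r + 6)) : (tc i : PQ r) ≠ pc j := by
  simp [tc, pc]

theorem tv_congr {m : ℕ} {c c' : PQ r → ℕ} (h : ∀ i, c (tc i) = c' (tc i)) :
    tv m c = tv m c' := by
  unfold tv; congr 1; funext i; exact h i

theorem pv_congr {m : ℕ} {c c' : PQ r → ℕ} (h : ∀ i, c (pc i) = c' (pc i)) :
    pv m c = pv m c' := by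
  unfold pv; congr 1; funext i; exact h i

theorem tv_zero {m : ℕ} {c : PQ r → ℕ} (h : ∀ i, c (tc i) = 0) : tv m c = 0 :=
  num_zero m h

/-- The digits of the position of cell `0`. -/
theorem num_off (m r : ℕ) : (num m fun i : Fin (r + 6) => if i = top then 1 else 0) =
    m ^ (r + 5) := by
  rw [num_single, one_mul]; rfl

theorem pv_eq_off {m : ℕ} (hm : 2 ≤ m) {c : PQ r → ℕ} (hc : ∀ q, c q < m) :
    pv m c = m ^ (r + 5) ↔ ∀ i, c (pc i) = if i = top then 1 else 0 := by
  constructor
  · intro h i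
    rw [← num_off m r] at h
    exact congrFun (num_inj (fun i => hc (pc i)) (fun i => by split_ifs <;> omega) h) i
  · intro h
    rw [← num_off m r]
    unfold pv
    congr 1
    funext i
    exact h i

/-- The value of the position with a carry. -/
theorem pv_carry {m : ℕ} {a : PQ r → ℕ} (i : Fin (r + 6)) (h : ∀ i' < i, a (pc i') + 1 = m) :
    (pv m fun q => (carryP i q).eval (a q)) = pv m a + 1 := by
  unfold pv
  refine num_carry i (fun i' hi' => ⟨h i' hi', ?_⟩) ?_ fun i' hi' => ?_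
  · simp [carryP, pc, hi']
  · simp [carryP, pc]
  · have h1 : ¬ i' < i := not_lt.2 hi'.le
    have h2 : i' ≠ i := hi'.ne'
    simp [carryP, pc, h1, h2]

/-- The value of the time with a carry. -/
theorem tv_carry {m : ℕ} {a : PQ r → ℕ} (i : Fin r) (h : ∀ i' < i, a (tc i') + 1 = m) :
    (tv m fun q => (carryT i q).eval (a q)) = tv m a + 1 := by
  unfold tv
  refine num_carry i (fun i' hi' => ⟨h i' hi', ?_⟩) ?_ fun i' hi' => ?_
  · simp [carryT, tc, hi']
  · simp [carryT, tc]
  · have h1 : ¬ i' < i := not_lt.2 hi'.le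
    have h2 : i' ≠ i := hi'.ne'
    simp [carryT, tc, h1, h2]

theorem tv_zeroP (m : ℕ) (a : PQ r → ℕ) : (tv m fun x => (zeroP x).eval (a x)) = tv m a := rfl

theorem tv_carryP (m : ℕ) (a : PQ r → ℕ) (i : Fin (r + 6)) :
    (tv m fun x => (carryP i x).eval (a x)) = tv m a := rfl

theorem pv_carryT (m : ℕ) (a : PQ r → ℕ) (i : Fin r) :
    (pv m fun x => (carryT i x).eval (a x)) = pv m a := rfl

theorem tv_one (m : ℕ) (a : PQ r → ℕ) (i : Fin (r + 6)) (μ : LM) :
    (tv m fun x => (one (pc i) μ x).eval (a x)) = tv m a :=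
  tv_congr fun i' => by simp [one, tc_ne_pc]

/-- The value of a position with only the four lowest digits. -/
theorem num_low {m r : ℕ} {d : Fin (r + 6) → ℕ} (h : ∀ i : Fin (r + 6), 4 ≤ (i : ℕ) → d i = 0) :
    num m d = d 0 + d 1 * m + d 2 * m ^ 2 + d 3 * m ^ 3 := by
  rw [num_succ, num_succ, num_succ, num_succ, num_zero m (fun i => h _ (by
    show 4 ≤ (i : ℕ) + 1 + 1 + 1 + 1
    omega))]
  show d 0 + m * (d 1 + m * (d 2 + m * (d 3 + m * 0))) = _
  ring

end coords

theorem idx_inj {K θ κ κ' θ₁ κ₁ κ₁' : ℕ} (h1 : κ ≤ K) (h2 : κ' ≤ K) (h3 : κ₁ ≤ K) (h4 : κ₁' ≤ K)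
    (h : idx K θ κ κ' = idx K θ₁ κ₁ κ₁') : θ = θ₁ ∧ κ = κ₁ ∧ κ' = κ₁' := by
  have e1 : ∀ θ κ κ' : ℕ, idx K θ κ κ' = κ' + (κ + θ * (K + 1)) * (K + 1) := by
    intro θ κ κ'; unfold idx; ring
  rw [e1, e1] at h
  have h5 := congrArg (· % (K + 1)) h
  have h6 := congrArg (· / (K + 1)) h
  simp only [Nat.add_mul_mod_self_right, Nat.add_mul_div_right _ _ (Nat.succ_pos K)] at h5 h6
  rw [Nat.mod_eq_of_lt (by omega), Nat.mod_eq_of_lt (by omega)] at h5
  rw [Nat.div_eq_of_lt (by omega), Nat.div_eq_of_lt (by omega), Nat.zero_add, Nat.zero_add] at h6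
  have h7 := congrArg (· % (K + 1)) h6
  have h8 := congrArg (· / (K + 1)) h6
  simp only [Nat.add_mul_mod_self_right, Nat.add_mul_div_right _ _ (Nat.succ_pos K)] at h7 h8
  rw [Nat.mod_eq_of_lt (by omega), Nat.mod_eq_of_lt (by omega)] at h7
  rw [Nat.div_eq_of_lt (by omega), Nat.div_eq_of_lt (by omega), Nat.zero_add, Nat.zero_add] at h8
  exact ⟨h8, h7, h5⟩

theorem wOf_idx {nt : ℕ} {e : Th ≃ Fin nt} {K : ℕ} {tab : Th → ℕ → ℕ → Prop} {θ : Th} {κ κ' : ℕ}
    (h1 : κ ≤ K) (h2 : κ' ≤ K) : WOf e K tab (idx K (e θ) κ κ') ↔ tab θ κ κ' := by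
  constructor
  · rintro ⟨θ₁, κ₁, κ₁', h3, h4, h5, h6⟩
    obtain ⟨h7, rfl, rfl⟩ := idx_inj h1 h2 h3 h4 h5
    have : θ = θ₁ := e.injective (Fin.ext h7)
    rw [this]; exact h6
  · intro h
    exact ⟨θ, κ, κ', h1, h2, rfl, h⟩

theorem divNat_mk {m k a : ℕ} (ha : a < m) (h : k * m + a < m * m) :
    (((⟨k * m + a, h⟩ : Fin (m * m)).divNat : Fin m) : ℕ) = k := by
  rw [Fin.coe_divNat]
  show (k * m + a) / m = k
  rw [Nat.add_comm, Nat.add_mul_div_right _ _ (by omega), Nat.div_eq_of_lt ha, Nat.zero_add]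

theorem modNat_mk {m k a : ℕ} (ha : a < m) (h : k * m + a < m * m) :
    (((⟨k * m + a, h⟩ : Fin (m * m)).modNat : Fin m) : ℕ) = a := by
  rw [Fin.coe_modNat]
  show (k * m + a) % m = a
  rw [Nat.add_comm, Nat.add_mul_mod_self_right, Nat.mod_eq_of_lt ha]

theorem lt_mm {m k a : ℕ} (hk : k < m) (ha : a < m) : k * m + a < m * m := by
  calc k * m + a < k * m + m := by omega
    _ = (k + 1) * m := by ring
    _ ≤ m * m := Nat.mul_le_mul_right _ hk

/-- The input bit of a cell of the initial tape. -/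
theorem init_tab {M : TM} {nt : ℕ} {e : Th ≃ Fin nt} {K m : ℕ} {tab : Th → ℕ → ℕ → Prop}
    {G : Bool → SimpleGraph (Fin (m * m))} (hG : TabOk e K tab G) (j b : Bool) {k a k' a' : ℕ}
    (hk : k < m) (ha : a < m) (hk' : k' < m) (ha' : a' < m)
    (hb : tab (j, rel a a', feat m K (WOf e K tab) a, feat m K (WOf e K tab) a') (min k K)
      (min k' K) ↔ b = true) :
    (M.init (inputWord (G false) (G true))).tape 0
      ((a' + k' * m + a * m ^ 2 + k * m ^ 3 + j.toNat * m ^ 4 : ℕ) : ℤ) = M.bit b := by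
  have hu := lt_mm hk ha
  have hv := lt_mm hk' ha'
  have h1 := inputWord_get G j hu hv
  have h2 : ((G j).Adj ⟨k * m + a, hu⟩ ⟨k' * m + a', hv⟩) ↔ b = true := by
    rw [hG, divNat_mk ha, divNat_mk ha', modNat_mk ha, modNat_mk ha']
    exact hb
  have h3 : j.toNat * (m * m * (m * m)) + ((k * m + a) * (m * m) + (k' * m + a')) =
      a' + k' * m + a * m ^ 2 + k * m ^ 3 + j.toNat * m ^ 4 := by ring
  rw [h3] at h1
  refine init_bit M (h1.trans ?_)
  congr 1
  by_cases hb' : b = true
  · rw [hb']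
    exact @decide_eq_true _ (Classical.dec _) (h2.2 hb')
  · have : b = false := by simpa using hb'
    rw [this]
    exact @decide_eq_false _ (Classical.dec _) fun h => hb' (h2.1 h)

end Vale.Agent.P310.Snd

/-!
Syntactic rules with label maps and label conditions taken from a finite list, and the table
that describes the adjacency of the graphs.
-/

namespace Vale.Agent.P310.V2

open Finset

/-- Label maps. -/
inductive LM
  | id | succ | zero

/-- Evaluation of label maps. -/
def LM.eval : LM → ℕ → ℕ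
  | .id, a => a
  | .succ, a => a + 1
  | .zero, _ => 0

/-- Features of a label `a`: `min a 2`, whether `a + 1 = m`, the comparison of `a` with `K`
(`0` for `a < K`, `1` for `a = K`, `2` for `a > K`), with `km` and with `am`, and whether
`a ∈ W`. -/
structure Feat where
  lo : Fin 3
  hi : Prop
  kc : Fin 3
  ck : Fin 3
  ca : Fin 3
  w : Prop

/-- The three way comparison. -/
def cmp3 (a b : ℕ) : Fin 3 := if a < b then 0 else if a = b then 1 else 2

/-- The features of the label `a`. -/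
def feat (m K km am : ℕ) (W : ℕ → Prop) (a : ℕ) : Feat where
  lo := if a = 0 then 0 else if a = 1 then 1 else 2
  hi := a + 1 = m
  kc := cmp3 a K
  ck := cmp3 a km
  ca := cmp3 a am
  w := W a

/-- The relation class of a pair of labels. -/
def rel (a a' : ℕ) : Fin 5 :=
  if a' = a then 2 else if a' = a + 1 then 3 else if a = a' + 1 then 1 else
    if a < a' then 4 else 0

/-- The relation class of the swapped pair. -/
def revRel (r : Fin 5) : Fin 5 := 4 - r

theorem rel_swap (a a' : ℕ) : rel a' a = revRel (rel a a') := by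
  unfold rel revRel
  split_ifs <;> first | rfl | (exfalso; omega)

theorem rel_eq_two (a a' : ℕ) : rel a a' = 2 ↔ a = a' := by
  unfold rel
  split_ifs <;> simp_all <;> omega

theorem rel_eq_one (a a' : ℕ) : rel a a' = 1 ↔ a = a' + 1 := by
  unfold rel
  split_ifs <;> simp_all; omega

theorem rel_eq_three (a a' : ℕ) : rel a a' = 3 ↔ a + 1 = a' := by
  unfold rel
  split_ifs <;> simp_all <;> omega

theorem rel_le_two (a a' : ℕ) : rel a a' ≤ 2 ↔ a' ≤ a := by
  unfold rel
  split_ifs <;> simp_all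

theorem feat_lo (m K km am : ℕ) (W : ℕ → Prop) (a : ℕ) :
    (feat m K km am W a).lo = 0 ↔ a = 0 := by
  unfold feat
  simp only
  split_ifs <;> simp_all

/-- Symbolic equality test. -/
def eqt : LM → LM → Fin 5 → Feat → Feat → Prop
  | .id, .id, r, _, _ => r = 2
  | .id, .succ, r, _, _ => r = 1
  | .succ, .id, r, _, _ => r = 3
  | .succ, .succ, r, _, _ => r = 2
  | .zero, .zero, _, _, _ => True
  | .zero, .id, _, _, φ' => φ'.lo = 0
  | .id, .zero, _, φ, _ => φ.lo = 0
  | .zero, .succ, _, _, _ => False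
  | .succ, .zero, _, _, _ => False

theorem eqt_iff {ft : ℕ → Feat} (hft : ∀ a, (ft a).lo = 0 ↔ a = 0) (μ μ' : LM) (a a' : ℕ) :
    eqt μ μ' (rel a a') (ft a) (ft a') ↔ μ.eval a = μ'.eval a' := by
  cases μ <;> cases μ' <;>
    simp only [eqt, LM.eval, rel_eq_two, rel_eq_one, rel_eq_three, hft] <;>
    first | done | omega | simp

/-- Syntactic rules. -/
structure Rule (F Q : Type) (B : ℕ) where
  head : F
  body : Fin B → F
  cond : Q → Feat → Prop
  hmap : Q → LM
  bmap : Fin B → Q → LM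

instance : Finite LM := by
  refine Finite.of_injective (β := Fin 3)
    (fun μ => match μ with | .id => 0 | .succ => 1 | .zero => 2) ?_
  intro a b h
  cases a <;> cases b <;> simp_all

instance : Finite Feat := by
  refine Finite.of_injective (β := Fin 3 × Prop × Fin 3 × Fin 3 × Fin 3 × Prop)
    (fun φ => (φ.lo, φ.hi, φ.kc, φ.ck, φ.ca, φ.w)) ?_
  rintro ⟨a, b, c, d, e, f⟩ ⟨a', b', c', d', e', f'⟩ h
  simpa using h

instance {F Q : Type} {B : ℕ} [Finite F] [Finite Q] : Finite (Rule F Q B) := by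
  refine Finite.of_injective
    (β := F × (Fin B → F) × (Q → Feat → Prop) × (Q → LM) × (Fin B → Q → LM))
    (fun φ => (φ.head, φ.body, φ.cond, φ.hmap, φ.bmap)) ?_
  rintro ⟨a, b, c, d, e⟩ ⟨a', b', c', d', e'⟩ h
  simpa using h

variable {F Q : Type} {B k p : ℕ}

/-- The Horn system of a program. -/
noncomputable def toSys (prog : Rule F Q B → Prop) (ini fin : F) (π : Fin k → Q)
    (ι : Rule F Q B × Fin B × Fin (k + 1) → ZMod p) (m : ℕ) (ft : ℕ → Feat) :
    Sys F (Rule F Q B) Q B k p where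
  π := π
  m := m
  act := prog
  head := fun ρ => ρ.head
  body := fun ρ => ρ.body
  cond := fun ρ q a => ρ.cond q (ft a)
  hmap := fun ρ q => (ρ.hmap q).eval
  bmap := fun ρ j q => (ρ.bmap j q).eval
  ini := ini
  fin := fin
  ι := ι

/-- Table indices: the graph, the relation class and the features of the two labels. -/
abbrev Th := Bool × Fin 5 × Feat × Feat

/-- The charge of the graph with index `b`. -/
def chOf (b : Bool) : ZMod 2 := if b then 1 else 0

section table

variable {k' N : ℕ} (prog : Rule F Q B → Prop) (ini fin : F) (π : Fin (k' + 1) → Q)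
    (ι : Rule F Q B × Fin B × Fin (k' + 1 + 1) → ZMod p)
    (wn : Cls (Rule F Q B) (k' + 1) p → ℕ)

/-- The syntactic label map of a slot. -/
def slab (ρ : Rule F Q B) : Slot B (k' + 1) → Q → LM
  | none => ρ.hmap
  | some t => ρ.bmap t.1

/-- The type of the variable in a slot, not depending on the parameters. -/
def sty0 (ρ : Rule F Q B) (e : El p) : Slot B (k' + 1) → F × El p
  | none => (ρ.head, e)
  | some t => (ρ.body t.1, (ι (ρ, t), e.1 * ι (ρ, t) + e.2.1, e.2.2 + 1))

/-- The type of the variables of a special block, not depending on the parameters. -/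
def ssty0 : Option (El p) → F × El p
  | none => (fin, 0)
  | some e => (ini, e)

/-- The symbolic form of the one-sided adjacency condition. -/
def sym0 (j : ZMod 2) (r : Fin 5) (φ φ' : Feat) :
    Option (Kind (Rule F Q B) B k' p N) → Option (Kind (Rule F Q B) B k' p N) → Prop
  | some (.nrm ρ e i s), some (.nrm ρ' e' i' s') =>
      i = i' ∧ (prog ρ ∧ ρ.cond (π i) φ) ∧ (prog ρ' ∧ ρ'.cond (π i') φ') ∧
      ¬ (ρ = ρ' ∧ e = e' ∧ r = 2) ∧
      ∃ J J', sty0 ι ρ e J = sty0 ι ρ' e' J' ∧
        eqt (slab ρ J (π i)) (slab ρ' J' (π i)) r φ φ' ∧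
        Sys.nval s J = Sys.nval s' J'
  | some (.nrm ρ e i s), some (.spc ε s') =>
      (prog ρ ∧ ρ.cond (π i) φ) ∧ φ'.lo = 0 ∧
      ∃ J, sty0 ι ρ e J = ssty0 ini fin ε ∧ eqt (slab ρ J (π i)) .zero r φ φ' ∧
        Sys.nval s J = Sys.sval j ε s' i
  | some (.nrm ρ e i _), some (.gad w) =>
      (prog ρ ∧ ρ.cond (π i) φ) ∧
        ((w : ℕ) < wn (.inl (ρ, e, i)) ∨ ((w : ℕ) = wn (.inl (ρ, e, i)) ∧ r ≤ 2))
  | some (.spc ε _), some (.gad w) =>
      φ.lo = 0 ∧ ((w : ℕ) < wn (.inr ε) ∨ ((w : ℕ) = wn (.inr ε) ∧ r ≤ 2))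
  | some (.gad _), none => True
  | _, _ => False

theorem eval_slab (ρ : Rule F Q B) (J : Slot B (k' + 1)) (q : Q) (a m : ℕ) (ft : ℕ → Feat) :
    (toSys prog ini fin π ι m ft).lab ρ J q a = (slab ρ J q).eval a := by
  cases J <;> rfl

theorem ty_eq_sty0 (ρ : Rule F Q B) (e : El p) (J : Slot B (k' + 1)) (m : ℕ) (ft : ℕ → Feat) :
    (toSys prog ini fin π ι m ft).ty ρ e J = sty0 ι ρ e J := by
  cases J <;> rfl

theorem sty_eq_ssty0 (ε : Option (El p)) (m : ℕ) (ft : ℕ → Feat) :
    (toSys prog ini fin π ι m ft).sty ε = ssty0 ini fin ε := by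
  cases ε <;> rfl

theorem adj0_iff_sym0 (j : ZMod 2) (m : ℕ) {ft : ℕ → Feat} (hft : ∀ a, (ft a).lo = 0 ↔ a = 0)
    (κ κ' : Option (Kind (Rule F Q B) B k' p N)) (a a' : ℕ) (ha : a < m) (ha' : a' < m) :
    (toSys prog ini fin π ι m ft).Adj0 wn j κ a κ' a' ↔
      sym0 prog ini fin π ι wn j (rel a a') (ft a) (ft a') κ κ' := by
  rcases κ with _ | (⟨ρ, e, i, s⟩ | ⟨ε, s⟩ | w) <;>
    rcases κ' with _ | (⟨ρ', e', i', s'⟩ | ⟨ε', s'⟩ | w') <;>
    simp only [Sys.Adj0, sym0, Sys.Valid, eval_slab, ty_eq_sty0, sty_eq_ssty0, eqt_iff hft,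
      rel_eq_two, rel_le_two, hft, LM.eval]
  · simp [toSys, ha, ha']
  · simp [toSys, ha]
  · simp [toSys, ha]

/-- The table exists: there is a predicate on table indices and pairs of kinds, not depending
on `m` and the feature function, that describes adjacency. -/
theorem exists_table :
    ∃ tab : Th → Option (Kind (Rule F Q B) B k' p N) →
        Option (Kind (Rule F Q B) B k' p N) → Prop,
      ∀ (m : ℕ) (ft : ℕ → Feat) (_ : ∀ a, (ft a).lo = 0 ↔ a = 0) (U : Type)
        (κ : U → Option (Kind (Rule F Q B) B k' p N))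
        (lb : U → ℕ) (_ : ∀ u, lb u < m) (j : Bool) (u v : U),
        ((toSys prog ini fin π ι m ft).graph wn κ lb (chOf j)).Adj u v ↔
          tab (j, rel (lb u) (lb v), ft (lb u), ft (lb v)) (κ u) (κ v) := by
  refine ⟨fun θ κ κ' =>
    sym0 prog ini fin π ι wn (chOf θ.1) θ.2.1 θ.2.2.1 θ.2.2.2 κ κ' ∨
    sym0 prog ini fin π ι wn (chOf θ.1) (revRel θ.2.1) θ.2.2.2 θ.2.2.1 κ' κ, ?_⟩
  intro m ft hft U κ lb hlt j u v
  have h1 := adj0_iff_sym0 prog ini fin π ι wn (chOf j) m hft (κ u) (κ v) (lb u) (lb v)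
    (hlt u) (hlt v)
  have h2 := adj0_iff_sym0 prog ini fin π ι wn (chOf j) m hft (κ v) (κ u) (lb v) (lb u)
    (hlt v) (hlt u)
  rw [rel_swap (lb u) (lb v)] at h2
  change (_ ∨ _) ↔ (_ ∨ _)
  rw [h1, h2]

end table

end Vale.Agent.P310.V2

/-!
The Horn program that simulates a Turing machine on the adjacency matrices of its own graphs,
for graphs on `n` vertices, `n` arbitrary.
-/

namespace Vale.Agent.P310.V2

/-- Fact types of the program. `nt` is the number of table indices. -/
inductive PF (M : TM) (nt : ℕ)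
  | ini
  | fin
  | all
  | ew
  | dw (b : Bool)
  | pt (θ : Fin nt)
  | qt (θ : Fin nt) (rc : Fin 5)
  | sym (pr : Bool) (j : Fin (M.aux + 1)) (g : M.Sym)
  | hd (pr : Bool) (j : Fin (M.aux + 1)) (b : Bool)
  | st (pr : Bool) (q : M.State)
  | hs (j : Fin (M.aux + 1)) (g : M.Sym)
  | gb (q : M.State) (g : Fin (M.aux + 1) → M.Sym)

/-- Coordinates: time digits, position digits, the coordinates `uc 0, uc 1` (label and kind of
the column vertex), `uc 2, uc 3` (label and kind of the row vertex), the table pointer. -/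
abbrev PQ (r : ℕ) := Fin r ⊕ Fin (r + 6) ⊕ Fin 4 ⊕ Unit

/-- Time coordinates. -/
def tc {r : ℕ} (i : Fin r) : PQ r := Sum.inl i

/-- Position coordinates. -/
def pc {r : ℕ} (i : Fin (r + 6)) : PQ r := Sum.inr (Sum.inl i)

/-- Vertex coordinates. -/
def uc {r : ℕ} (i : Fin 4) : PQ r := Sum.inr (Sum.inr (Sum.inl i))

/-- The table pointer. -/
def zc {r : ℕ} : PQ r := Sum.inr (Sum.inr (Sum.inr ()))

/-- The most significant position digit. -/
def top {r : ℕ} : Fin (r + 6) := Fin.last (r + 5)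

/-- Identity maps. -/
def ids {Q : Type} : Q → LM := fun _ => .id

/-- No condition. -/
def noCond {Q : Type} : Q → Feat → Prop := fun _ _ => True

/-- A condition at one coordinate. -/
def condAt {Q : Type} (q : Q) (P : Feat → Prop) : Q → Feat → Prop := fun q' φ => q' = q → P φ

/-- Conjunction of conditions. -/
def cand {Q : Type} (c c' : Q → Feat → Prop) : Q → Feat → Prop := fun q φ => c q φ ∧ c' q φ

/-- Label maps given separately on the four groups of coordinates. -/
def maps {r : ℕ} (f : Fin r → LM) (g : Fin (r + 6) → LM) (h : Fin 4 → LM) (z : LM) : PQ r → LM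
  | Sum.inl i => f i
  | Sum.inr (Sum.inl i) => g i
  | Sum.inr (Sum.inr (Sum.inl i)) => h i
  | Sum.inr (Sum.inr (Sum.inr _)) => z

/-- Increment of digits with carry pattern `i`. -/
def cry {n : ℕ} (i : Fin n) : Fin n → LM :=
  fun i' => if i' < i then .zero else if i' = i then .succ else .id

/-- Change one coordinate. -/
def at1 {n : ℕ} (i : Fin n) (μ : LM) : Fin n → LM := fun i' => if i' = i then μ else .id

/-- The condition for position increments with pattern `i`. -/
def condP {r : ℕ} (i : Fin (r + 6)) : PQ r → Feat → Prop :=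
  fun q φ => ∀ i', q = pc i' → i' < i → φ.hi

/-- The condition for time increments with pattern `i`. -/
def condT {r : ℕ} (i : Fin r) : PQ r → Feat → Prop :=
  fun q φ => ∀ i', q = tc i' → i' < i → φ.hi

/-- The column vertex is the last one. -/
def lastV {r : ℕ} : PQ r → Feat → Prop :=
  cand (condAt (uc 1) fun φ => φ.ck = 1) (condAt (uc 0) fun φ => φ.ca = 1)

/-- The row vertex is the last one. -/
def lastU {r : ℕ} : PQ r → Feat → Prop :=
  cand (condAt (uc 3) fun φ => φ.ck = 1) (condAt (uc 2) fun φ => φ.ca = 1)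

/-- The column vertex is smaller than `n`; two variants. -/
def okV {r : ℕ} (b : Bool) : PQ r → Feat → Prop :=
  if b then condAt (uc 1) fun φ => φ.ck = 0 else
    cand (condAt (uc 1) fun φ => φ.ck = 1) (condAt (uc 0) fun φ => φ.ca ≠ 2)

/-- The row vertex is smaller than `n`; two variants. -/
def okU {r : ℕ} (b : Bool) : PQ r → Feat → Prop :=
  if b then condAt (uc 3) fun φ => φ.ck = 0 else
    cand (condAt (uc 3) fun φ => φ.ck = 1) (condAt (uc 2) fun φ => φ.ca ≠ 2)

/-- Rules with one body. -/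
def mk1 {F Q : Type} {B : ℕ} (h b : F) (cond : Q → Feat → Prop) (hm : Q → LM) : Rule F Q B where
  head := h
  body := fun _ => b
  cond := cond
  hmap := hm
  bmap := fun _ => ids

/-- Rules with two bodies; the first one has label maps `bm`. -/
def mk2 {F Q : Type} {B : ℕ} (h b b' : F) (cond : Q → Feat → Prop) (hm bm : Q → LM) :
    Rule F Q B where
  head := h
  body := fun j => if (j : ℕ) = 0 then b else b'
  cond := cond
  hmap := hm
  bmap := fun j => if (j : ℕ) = 0 then bm else ids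

section program

variable (M : TM) {nt : ℕ} (e : Th ≃ Fin nt) (r : ℕ)

/-- The rules of the program. -/
inductive Prog : Rule (PF M nt) (PQ r) (M.aux + 2) → Prop
  | i1 : Prog (mk1 (.st false M.start) .ini noCond ids)
  | i2 : Prog (mk1 .all .ini noCond ids)
  | i3 (i : Fin (r + 6)) : Prog (mk1 .all .all noCond (maps ids (at1 i .succ) ids .id))
  | i4 (j : Fin (M.aux + 1)) (i : Fin (r + 6)) :
      Prog (mk1 (.hd false j false) .all
        (condAt (pc i) fun φ => if i = top then φ.lo ≠ 1 else φ.lo ≠ 0) ids)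
  | i5 (j : Fin (M.aux + 1)) :
      Prog (mk1 (.hd false j true) .all
        (fun q φ => ∀ i, q = pc i → if i = top then φ.lo = 1 else φ.lo = 0) ids)
  | i6 (j : Fin (M.aux + 1)) (hj : j ≠ 0) : Prog (mk1 (.sym false j M.blank) .all noCond ids)
  | i7 : Prog (mk1 (.sym false 0 M.blank) .all (condAt (pc top) fun φ => φ.lo = 0) ids)
  | i8 (θ : Th) (b bu bv : Bool) :
      Prog (mk2 (.sym false 0 (M.bit b)) (.dw θ.1) (.qt (e θ) θ.2.1)
        (cand (cand (condAt (uc 2) fun φ => φ = θ.2.2.1) (condAt (uc 0) fun φ => φ = θ.2.2.2))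
          (cand (condAt zc fun φ => (φ.w ↔ b = true)) (cand (okU bu) (okV bv))))
        (maps ids ids (fun _ => .zero) .zero) ids)
  | e1 (i : Fin (r + 6)) :
      Prog (mk1 .ew (.dw true) (cand (condP i) (cand lastU lastV))
        (maps ids (cry i) (fun _ => .zero) .zero))
  | e2 (i : Fin (r + 6)) : Prog (mk1 .ew .ew (condP i) (maps ids (cry i) ids .id))
  | e3 : Prog (mk1 (.sym false 0 M.blank) .ew noCond ids)
  | d0 : Prog (mk1 (.dw false) .ini noCond (maps ids (at1 top .succ) ids .id))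
  | d1 (b : Bool) (i : Fin (r + 6)) :
      Prog (mk1 (.dw b) (.dw b) (condP i) (maps ids (cry i) (at1 0 .succ) .id))
  | d2 (b : Bool) (i : Fin (r + 6)) :
      Prog (mk1 (.dw b) (.dw b) (cand (condP i) (condAt (uc 0) fun φ => φ.hi))
        (maps ids (cry i) ![.zero, .succ, .id, .id] .id))
  | d3 (b : Bool) (i : Fin (r + 6)) :
      Prog (mk1 (.dw b) (.dw b) (cand (condP i) lastV)
        (maps ids (cry i) ![.zero, .zero, .succ, .id] .id))
  | d4 (b : Bool) (i : Fin (r + 6)) :
      Prog (mk1 (.dw b) (.dw b) (cand (condP i) (cand lastV (condAt (uc 2) fun φ => φ.hi)))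
        (maps ids (cry i) ![.zero, .zero, .zero, .succ] .id))
  | d5 (i : Fin (r + 6)) :
      Prog (mk1 (.dw true) (.dw false) (cand (condP i) (cand lastU lastV))
        (maps ids (cry i) (fun _ => .zero) .id))
  | d6 (b : Bool) : Prog (mk1 (.dw b) (.dw b) noCond (maps ids ids ids .succ))
  | w1 (θ : Fin nt) (hθ : (θ : ℕ) = 0) : Prog (mk1 (.pt θ) .ini noCond ids)
  | w2 (θ : Fin nt) :
      Prog (mk1 (.pt θ) (.pt θ) (condAt (uc 1) fun φ => φ.kc = 0)
        (maps ids ids (at1 1 .succ) .succ))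
  | w3 (θ : Fin nt) :
      Prog (mk1 (.pt θ) (.pt θ)
        (cand (condAt (uc 1) fun φ => φ.kc = 1) (condAt (uc 3) fun φ => φ.kc = 0))
        (maps ids ids ![.id, .zero, .id, .succ] .succ))
  | w4 (θ θ' : Fin nt) (h : (θ' : ℕ) = θ + 1) :
      Prog (mk1 (.pt θ') (.pt θ)
        (cand (condAt (uc 1) fun φ => φ.kc = 1) (condAt (uc 3) fun φ => φ.kc = 1))
        (maps ids ids ![.id, .zero, .id, .zero] .succ))
  | w5 (θ : Fin nt) : Prog (mk1 (.qt θ 2) (.pt θ) noCond ids)
  | w6 (θ : Fin nt) :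
      Prog (mk1 (.qt θ 2) (.qt θ 2) (condAt (uc 1) fun φ => φ.kc ≠ 0)
        (maps ids ids (at1 1 .succ) .id))
  | w7 (θ : Fin nt) :
      Prog (mk1 (.qt θ 2) (.qt θ 2) (condAt (uc 3) fun φ => φ.kc ≠ 0)
        (maps ids ids (at1 3 .succ) .id))
  | v1 (θ : Fin nt) :
      Prog (mk1 (.qt θ 2) (.qt θ 2) noCond (maps ids ids ![.succ, .id, .succ, .id] .id))
  | v2 (θ : Fin nt) : Prog (mk1 (.qt θ 3) (.qt θ 2) noCond (maps ids ids (at1 0 .succ) .id))
  | v3 (θ : Fin nt) : Prog (mk1 (.qt θ 4) (.qt θ 3) noCond (maps ids ids (at1 0 .succ) .id))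
  | v4 (θ : Fin nt) : Prog (mk1 (.qt θ 4) (.qt θ 4) noCond (maps ids ids (at1 0 .succ) .id))
  | v5 (θ : Fin nt) : Prog (mk1 (.qt θ 1) (.qt θ 2) noCond (maps ids ids (at1 2 .succ) .id))
  | v6 (θ : Fin nt) : Prog (mk1 (.qt θ 0) (.qt θ 1) noCond (maps ids ids (at1 2 .succ) .id))
  | v7 (θ : Fin nt) : Prog (mk1 (.qt θ 0) (.qt θ 0) noCond (maps ids ids (at1 2 .succ) .id))
  | q1 (θ : Fin nt) (rc : Fin 5) (i : Fin (r + 6)) :
      Prog (mk1 (.qt θ rc) (.qt θ rc) noCond (maps ids (at1 i .succ) ids .id))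
  | r1 (j : Fin (M.aux + 1)) (g : M.Sym) :
      Prog (mk2 (.hs j g) (.sym false j g) (.hd false j true) noCond
        (maps ids (fun _ => .zero) ids .id) ids)
  | r2 (q : M.State) (g : Fin (M.aux + 1) → M.Sym) :
      Prog
        { head := .gb q g
          body := Fin.cons (.st false q) fun j => .hs j (g j)
          cond := noCond
          hmap := ids
          bmap := fun _ => ids }
  | r3 (q : M.State) (g : Fin (M.aux + 1) → M.Sym) (i : Fin (r + 6)) :
      Prog (mk1 (.gb q g) (.gb q g) noCond (maps ids (at1 i .succ) ids .id))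
  | r4 (q : M.State) (g : Fin (M.aux + 1) → M.Sym)
      (a : M.State × (Fin (M.aux + 1) → M.Sym × Move)) (h : M.δ q g = some a) :
      Prog (mk1 (.st true a.1) (.gb q g) noCond (maps ids (fun _ => .zero) ids .id))
  | r5 (j : Fin (M.aux + 1)) (g : M.Sym) :
      Prog (mk2 (.sym true j g) (.sym false j g) (.hd false j false) noCond ids ids)
  | r6 (j : Fin (M.aux + 1)) (q : M.State) (g : Fin (M.aux + 1) → M.Sym)
      (a : M.State × (Fin (M.aux + 1) → M.Sym × Move)) (h : M.δ q g = some a) :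
      Prog (mk2 (.sym true j (a.2 j).1) (.hd false j true) (.gb q g) noCond ids ids)
  | r7 (j : Fin (M.aux + 1)) (b : Bool) (q : M.State) (g : Fin (M.aux + 1) → M.Sym)
      (a : M.State × (Fin (M.aux + 1) → M.Sym × Move)) (h : M.δ q g = some a)
      (hm : (a.2 j).2 = .stay) :
      Prog (mk2 (.hd true j b) (.hd false j b) (.gb q g) noCond ids ids)
  | r8 (j : Fin (M.aux + 1)) (b : Bool) (q : M.State) (g : Fin (M.aux + 1) → M.Sym)
      (a : M.State × (Fin (M.aux + 1) → M.Sym × Move)) (h : M.δ q g = some a)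
      (hm : (a.2 j).2 = .right) (i : Fin (r + 6)) :
      Prog (mk2 (.hd true j b) (.hd false j b) (.gb q g) (condP i)
        (maps ids (cry i) ids .id) ids)
  | r9 (j : Fin (M.aux + 1)) (b : Bool) (q : M.State) (g : Fin (M.aux + 1) → M.Sym)
      (a : M.State × (Fin (M.aux + 1) → M.Sym × Move)) (h : M.δ q g = some a)
      (hm : (a.2 j).2 = .left) (i : Fin (r + 6)) :
      Prog (mk2 (.hd true j b) (.hd false j b) (.gb q g) (condP i) ids
        (maps ids (cry i) ids .id))
  | r10s (j : Fin (M.aux + 1)) (g : M.Sym) (i : Fin r) :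
      Prog (mk1 (.sym false j g) (.sym true j g) (condT i) (maps (cry i) ids ids .id))
  | r10h (j : Fin (M.aux + 1)) (b : Bool) (i : Fin r) :
      Prog (mk1 (.hd false j b) (.hd true j b) (condT i) (maps (cry i) ids ids .id))
  | r10q (q : M.State) (i : Fin r) :
      Prog (mk1 (.st false q) (.st true q) (condT i) (maps (cry i) ids ids .id))
  | r11 (q : M.State) (g : Fin (M.aux + 1) → M.Sym) (h : M.δ q g = none) (ha : M.accept q) :
      Prog (mk1 .fin (.gb q g) noCond (fun _ => .zero))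

/-- The position of a table entry. -/
def idx (K θ κ κ' : ℕ) : ℕ := θ * (K + 1) ^ 2 + κ * (K + 1) + κ'

/-- The predicate on labels that encodes a table. -/
def WOf (K : ℕ) (tab : Th → ℕ → ℕ → Prop) (z : ℕ) : Prop :=
  ∃ θ κ κ', κ ≤ K ∧ κ' ≤ K ∧ z = idx K (e θ) κ κ' ∧ tab θ κ κ'

/-- The feature function: `m` labels, `K` kinds, `n` vertices. -/
def ftOf (K m n : ℕ) (tab : Th → ℕ → ℕ → Prop) : ℕ → Feat :=
  feat m K ((n - 1) / m) ((n - 1) % m) (WOf e K tab)

variable {M e r}

/-- The system of the program. -/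
noncomputable def progSys (M : TM) {nt : ℕ} (e : Th ≃ Fin nt) (r : ℕ) {k p : ℕ} (K m n : ℕ)
    (π : Fin k → PQ r)
    (ι : Rule (PF M nt) (PQ r) (M.aux + 2) × Fin (M.aux + 2) × Fin (k + 1) → ZMod p)
    (tab : Th → ℕ → ℕ → Prop) :
    Sys (PF M nt) (Rule (PF M nt) (PQ r) (M.aux + 2)) (PQ r) (M.aux + 2) k p :=
  toSys (Prog M e r) .ini .fin π ι m (ftOf e K m n tab)

/-- The graphs are described by the table; vertex `u` has kind number `u / m` and label
`u % m`. -/
def TabOk {nt : ℕ} (e : Th ≃ Fin nt) (K m : ℕ) {n : ℕ} (tab : Th → ℕ → ℕ → Prop)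
    (G : Bool → SimpleGraph (Fin n)) : Prop :=
  ∀ (j : Bool) (u v : Fin n), (G j).Adj u v ↔
    tab (j, rel (u % m) (v % m), ftOf e K m n tab (u % m), ftOf e K m n tab (v % m))
      (min (u / m) K) (min (v / m) K)

end program

end Vale.Agent.P310.V2

/-!
Soundness of the program for graphs on `n` vertices: if the final fact is derivable, the
machine accepts.
-/

namespace Vale.Agent.P310.V2.Snd

open Finset
open Vale.Agent.P310.Snd (cfgAt after_cfgAt cfgAt_succ cfgAt_tape init_blank init_bit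
  inputWord_length inputWord_get num num_carry num_add num_single num_zero num_lt num_inj
  num_last)

theorem cmp3_eq_zero {a b : ℕ} : cmp3 a b = 0 ↔ a < b := by
  unfold cmp3
  split_ifs <;> simp_all

theorem cmp3_eq_one {a b : ℕ} : cmp3 a b = 1 ↔ a = b := by
  unfold cmp3
  split_ifs <;> simp_all
  omega

theorem cmp3_eq_two {a b : ℕ} : cmp3 a b = 2 ↔ b < a := by
  unfold cmp3
  split_ifs <;> simp_all <;> omega

theorem feat_lo_zero {m K km am : ℕ} {W : ℕ → Prop} {a : ℕ} :
    (feat m K km am W a).lo = 0 ↔ a = 0 := by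
  unfold feat
  dsimp only
  split_ifs <;> simp_all

theorem feat_lo_one {m K km am : ℕ} {W : ℕ → Prop} {a : ℕ} :
    (feat m K km am W a).lo = 1 ↔ a = 1 := by
  unfold feat
  dsimp only
  split_ifs <;> simp_all

theorem rel_four {a a' : ℕ} : rel a a' = 4 ↔ a + 1 < a' := by
  unfold rel
  split_ifs <;> simp_all <;> omega

theorem rel_zero {a a' : ℕ} : rel a a' = 0 ↔ a' + 1 < a := by
  unfold rel
  split_ifs <;> simp_all <;> omega

/-- The value of digits with a carry. -/
theorem num_cry {m n : ℕ} {d : Fin n → ℕ} (i : Fin n) (h : ∀ i' < i, d i' + 1 = m) :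
    (num m fun i' => (cry i i').eval (d i')) = num m d + 1 := by
  refine num_carry i (fun i' hi' => ⟨h i' hi', ?_⟩) ?_ fun i' hi' => ?_
  · simp [cry, hi', LM.eval]
  · simp [cry, LM.eval]
  · have h1 : ¬ i' < i := not_lt.2 hi'.le
    have h2 : i' ≠ i := hi'.ne'
    simp [cry, h1, h2, LM.eval]

section coords

variable {r : ℕ}

/-- The time coded by the coordinates. -/
def tv (m : ℕ) (c : PQ r → ℕ) : ℕ := num m fun i => c (tc i)

/-- The position coded by the coordinates. -/
def pv (m : ℕ) (c : PQ r → ℕ) : ℕ := num m fun i => c (pc i)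

/-- The number of the row vertex. -/
def uv (m : ℕ) (c : PQ r → ℕ) : ℕ := c (uc 3) * m + c (uc 2)

/-- The number of the column vertex. -/
def vv (m : ℕ) (c : PQ r → ℕ) : ℕ := c (uc 1) * m + c (uc 0)

theorem tv_zero {m : ℕ} {c : PQ r → ℕ} (h : ∀ i, c (tc i) = 0) : tv m c = 0 :=
  num_zero m h

theorem num_off (m r : ℕ) : (num m fun i : Fin (r + 6) => if i = top then 1 else 0) =
    m ^ (r + 5) := by
  rw [num_single, one_mul]; rfl

theorem pv_eq_off {m : ℕ} (hm : 2 ≤ m) {c : PQ r → ℕ} (hc : ∀ q, c q < m) :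
    pv m c = m ^ (r + 5) ↔ ∀ i, c (pc i) = if i = top then 1 else 0 := by
  constructor
  · intro h i
    rw [← num_off m r] at h
    exact congrFun (num_inj (fun i => hc (pc i)) (fun i => by split_ifs <;> omega) h) i
  · intro h
    rw [← num_off m r]
    unfold pv
    congr 1
    funext i
    exact h i

theorem pv_cry {m : ℕ} {a : PQ r → ℕ} (i : Fin (r + 6)) (h : ∀ i' < i, a (pc i') + 1 = m)
    (f : Fin r → LM) (g : Fin 4 → LM) (z : LM) :
    (pv m fun q => (maps f (cry i) g z q).eval (a q)) = pv m a + 1 :=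
  num_cry (d := fun i => a (pc i)) i h

theorem tv_cry {m : ℕ} {a : PQ r → ℕ} (i : Fin r) (h : ∀ i' < i, a (tc i') + 1 = m)
    (f : Fin (r + 6) → LM) (g : Fin 4 → LM) (z : LM) :
    (tv m fun q => (maps (cry i) f g z q).eval (a q)) = tv m a + 1 :=
  num_cry (d := fun i => a (tc i)) i h

theorem tv_ids (m : ℕ) (a : PQ r → ℕ) (f : Fin (r + 6) → LM) (g : Fin 4 → LM) (z : LM) :
    (tv m fun q => (maps ids f g z q).eval (a q)) = tv m a := rfl

theorem pv_ids (m : ℕ) (a : PQ r → ℕ) (f : Fin r → LM) (g : Fin 4 → LM) (z : LM) :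
    (pv m fun q => (maps f ids g z q).eval (a q)) = pv m a := rfl

end coords

theorem idx_inj {K θ κ κ' θ₁ κ₁ κ₁' : ℕ} (h1 : κ ≤ K) (h2 : κ' ≤ K) (h3 : κ₁ ≤ K) (h4 : κ₁' ≤ K)
    (h : idx K θ κ κ' = idx K θ₁ κ₁ κ₁') : θ = θ₁ ∧ κ = κ₁ ∧ κ' = κ₁' :=
  Vale.Agent.P310.Snd.idx_inj h1 h2 h3 h4 h

theorem wOf_idx {nt : ℕ} {e : Th ≃ Fin nt} {K : ℕ} {tab : Th → ℕ → ℕ → Prop} {θ : Th} {κ κ' : ℕ}
    (h1 : κ ≤ K) (h2 : κ' ≤ K) : WOf e K tab (idx K (e θ) κ κ') ↔ tab θ κ κ' := by
  constructor
  · rintro ⟨θ₁, κ₁, κ₁', h3, h4, h5, h6⟩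
    obtain ⟨h7, rfl, rfl⟩ := idx_inj h1 h2 h3 h4 h5
    have : θ = θ₁ := e.injective (Fin.ext h7)
    rw [this]; exact h6
  · intro h
    exact ⟨θ, κ, κ', h1, h2, rfl, h⟩

/-- The input bit of a cell of the initial tape. -/
theorem init_tab {M : TM} {nt : ℕ} {e : Th ≃ Fin nt} {K m n : ℕ} {tab : Th → ℕ → ℕ → Prop}
    {G : Bool → SimpleGraph (Fin n)} (hG : TabOk e K m tab G) (j b : Bool) {k a k' a' : ℕ}
    (ha : a < m) (ha' : a' < m) (hu : k * m + a < n) (hv : k' * m + a' < n)
    (hb : tab (j, rel a a', ftOf e K m n tab a, ftOf e K m n tab a') (min k K)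
      (min k' K) ↔ b = true) :
    (M.init (inputWord (G false) (G true))).tape 0
      ((j.toNat * (n * n) + ((k * m + a) * n + (k' * m + a')) : ℕ) : ℤ) = M.bit b := by
  have h1 := inputWord_get G j hu hv
  have hd : ∀ x y : ℕ, y < m → (x * m + y) / m = x := fun x y hy => by
    rw [Nat.add_comm, Nat.add_mul_div_right _ _ (by omega), Nat.div_eq_of_lt hy, Nat.zero_add]
  have hmod : ∀ x y : ℕ, y < m → (x * m + y) % m = y := fun x y hy => by
    rw [Nat.add_comm, Nat.add_mul_mod_self_right, Nat.mod_eq_of_lt hy]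
  have h2 : ((G j).Adj ⟨k * m + a, hu⟩ ⟨k' * m + a', hv⟩) ↔ b = true := by
    rw [hG]
    dsimp only
    rw [hd _ _ ha, hd _ _ ha', hmod _ _ ha, hmod _ _ ha']
    exact hb
  refine init_bit M (h1.trans ?_)
  congr 1
  by_cases hb' : b = true
  · rw [hb']
    exact @decide_eq_true _ (Classical.dec _) (h2.2 hb')
  · have : b = false := by simpa using hb'
    rw [this]
    exact @decide_eq_false _ (Classical.dec _) fun h => hb' (h2.1 h)

section

variable (M : TM) {nt : ℕ} (e : Th ≃ Fin nt) (r : ℕ) (m n K : ℕ) (w : List Bool)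

/-- The invariant: the meaning of the facts. -/
def Inv : PF M nt → (PQ r → ℕ) → Prop
  | .ini, c => ∀ q, c q = 0
  | .fin, _ => ∃ s, M.step (cfgAt M w s) = none ∧ M.accept (cfgAt M w s).state
  | .all, c => ∀ i, c (tc i) = 0
  | .ew, c => (∀ i, c (tc i) = 0) ∧ m ^ (r + 5) + 2 * (n * n) ≤ pv m c
  | .dw b, c => (∀ i, c (tc i) = 0) ∧
      pv m c = m ^ (r + 5) + b.toNat * (n * n) + uv m c * n + vv m c
  | .pt θ, c => c (uc 1) ≤ K ∧ c (uc 3) ≤ K ∧ c zc = idx K θ (c (uc 3)) (c (uc 1)) ∧
      c (uc 0) = 0 ∧ c (uc 2) = 0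
  | .qt θ rc, c => c zc = idx K θ (min (c (uc 3)) K) (min (c (uc 1)) K) ∧
      rel (c (uc 2)) (c (uc 0)) = rc
  | .sym pr j g, c =>
      (cfgAt M w (tv m c + pr.toNat)).tape j ((pv m c : ℤ) - (m : ℤ) ^ (r + 5)) = g
  | .hd pr j b, c =>
      ((cfgAt M w (tv m c + pr.toNat)).head j = (pv m c : ℤ) - (m : ℤ) ^ (r + 5) ↔ b = true)
  | .st pr q, c => (cfgAt M w (tv m c + pr.toNat)).state = q
  | .hs j g, c => (cfgAt M w (tv m c)).tape j ((cfgAt M w (tv m c)).head j) = g
  | .gb q g, c => (cfgAt M w (tv m c)).state = q ∧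
      ∀ j, (cfgAt M w (tv m c)).tape j ((cfgAt M w (tv m c)).head j) = g j

variable {M e r m n K w}
  {k p : ℕ} {π : Fin k → PQ r}
  {ι : Rule (PF M nt) (PQ r) (M.aux + 2) × Fin (M.aux + 2) × Fin (k + 1) → ZMod p}
  {tab : Th → ℕ → ℕ → Prop}

/-- Induction principle for derivations of the program. -/
theorem der_ind {motive : PF M nt → (PQ r → ℕ) → Prop}
    (h0 : motive .ini (fun _ => 0))
    (hs : ∀ ρ : Rule (PF M nt) (PQ r) (M.aux + 2), Prog M e r ρ → ∀ a : PQ r → ℕ,
      (∀ q, a q < m) → (∀ q, ρ.cond q (ftOf e K m n tab (a q))) →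
      (∀ j, motive (ρ.body j) (fun q => (ρ.bmap j q).eval (a q))) →
      motive ρ.head (fun q => (ρ.hmap q).eval (a q)))
    {f : PF M nt} {c : PQ r → ℕ} (h : (progSys M e r K m n π ι tab).Der f c) : motive f c := by
  induction h with
  | ini => exact h0
  | step ρ a hρ ha hc hb ih => exact hs ρ hρ a ha hc ih

theorem last_of {x y : ℕ} (hn : 0 < n) (h1 : cmp3 x ((n - 1) / m) = 1)
    (h2 : cmp3 y ((n - 1) % m) = 1) : x * m + y + 1 = n := by
  rw [cmp3_eq_one] at h1 h2
  have := Nat.div_add_mod' (n - 1) m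
  rw [← h1, ← h2] at this
  omega

theorem lt_of_ok {x y : ℕ} (hn : 0 < n) (hy : y < m) (b : Bool)
    (h : if b then cmp3 x ((n - 1) / m) = 0 else
      (cmp3 x ((n - 1) / m) = 1 ∧ cmp3 y ((n - 1) % m) ≠ 2)) : x * m + y < n := by
  have h0 := Nat.div_add_mod' (n - 1) m
  cases b with
  | true =>
    have h1 : x < (n - 1) / m := by simpa [cmp3_eq_zero] using h
    have h2 : (x + 1) * m ≤ (n - 1) / m * m := Nat.mul_le_mul_right _ h1
    have h3 : (x + 1) * m = x * m + m := by ring
    omega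
  | false =>
    have h1 : x = (n - 1) / m ∧ y ≤ (n - 1) % m := by
      simpa [cmp3_eq_one, cmp3_eq_two] using h
    rw [h1.1]
    omega

theorem inv_of_der {G : Bool → SimpleGraph (Fin n)} (hm : 2 ≤ m) (hn : 0 < n)
    (hG : TabOk e K m tab G)
    (hw : w = inputWord (G false) (G true))
    {f : PF M nt} {c : PQ r → ℕ} (h : (progSys M e r K m n π ι tab).Der f c) :
    Inv M r m n K w f c := by
  refine der_ind (motive := Inv M r m n K w) ?_ ?_ h
  · intro q; rfl
  · intro ρ hρ a ha hc hb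
    have hoff : ((m ^ (r + 5) : ℕ) : ℤ) = (m : ℤ) ^ (r + 5) := by push_cast; rfl
    cases hρ with
    | i1 =>
      have hb0 : ∀ q, a q = 0 := hb 0
      show (cfgAt M w (tv m a + 0)).state = M.start
      rw [tv_zero fun i => hb0 _]
      rfl
    | i2 =>
      have hb0 : ∀ q, a q = 0 := hb 0
      exact fun i => hb0 _
    | i3 i =>
      have hb0 : ∀ i, a (tc i) = 0 := hb 0
      exact hb0
    | i4 j i =>
      have hb0 : ∀ i, a (tc i) = 0 := hb 0
      have hci : if i = top then (ftOf e K m n tab (a (pc i))).lo ≠ 1 else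
          (ftOf e K m n tab (a (pc i))).lo ≠ 0 := hc (pc i) rfl
      show (cfgAt M w (tv m a + 0)).head j = (pv m a : ℤ) - (m : ℤ) ^ (r + 5) ↔ false = true
      rw [tv_zero hb0]
      have : pv m a ≠ m ^ (r + 5) := by
        rw [Ne, pv_eq_off hm ha]
        intro h
        have := h i
        unfold ftOf at hci
        rw [Ne, feat_lo_one, Ne, feat_lo_zero] at hci
        split_ifs at hci this <;> omega
      have h2 : (pv m a : ℤ) ≠ (m : ℤ) ^ (r + 5) := by exact_mod_cast this
      have h3 : (cfgAt M w (0 + 0)).head j = 0 := rfl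
      rw [h3]
      simp only [Bool.false_eq_true, iff_false]
      omega
    | i5 j =>
      have hb0 : ∀ i, a (tc i) = 0 := hb 0
      show (cfgAt M w (tv m a + 0)).head j = (pv m a : ℤ) - (m : ℤ) ^ (r + 5) ↔ true = true
      rw [tv_zero hb0]
      have : pv m a = m ^ (r + 5) := by
        rw [pv_eq_off hm ha]
        intro i
        have := hc (pc i) i rfl
        unfold ftOf at this
        rw [feat_lo_one, feat_lo_zero] at this
        split_ifs at this ⊢ <;> exact this
      have h2 : (pv m a : ℤ) = (m : ℤ) ^ (r + 5) := by exact_mod_cast this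
      have h3 : (cfgAt M w (0 + 0)).head j = 0 := rfl
      rw [h3, h2]
      simp
    | i6 j hj =>
      have hb0 : ∀ i, a (tc i) = 0 := hb 0
      show (cfgAt M w (tv m a + 0)).tape j _ = M.blank
      rw [tv_zero hb0]
      exact init_blank M w j (Or.inl hj)
    | i7 =>
      have hb0 : ∀ i, a (tc i) = 0 := hb 0
      have hci : (ftOf e K m n tab (a (pc top))).lo = 0 := hc (pc top) rfl
      unfold ftOf at hci
      rw [feat_lo_zero] at hci
      show (cfgAt M w (tv m a + 0)).tape 0 _ = M.blank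
      rw [tv_zero hb0]
      refine init_blank M w 0 (Or.inr (Or.inl ?_))
      have h1 : pv m a = (num m fun i : Fin (r + 5) => a (pc i.castSucc)) +
        a (pc top) * m ^ (r + 5) := num_last m _
      have h2 : (num m fun i : Fin (r + 5) => a (pc i.castSucc)) < m ^ (r + 5) :=
        num_lt fun i => ha _
      have h3 : (pv m a : ℤ) < (m : ℤ) ^ (r + 5) := by
        rw [← hoff]
        rw [hci, Nat.zero_mul] at h1
        have h4 : pv m a < m ^ (r + 5) := by omega
        exact_mod_cast h4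
      exact sub_neg_of_lt h3
    | i8 θ b bu bv =>
      have hb0 : Inv M r m n K w (.dw θ.1) a := hb 0
      have hb1 : Inv M r m n K w (.qt (e θ) θ.2.1) a := hb 1
      obtain ⟨b1, b2⟩ := hb0
      obtain ⟨b3, b4⟩ := hb1
      have c1 : ftOf e K m n tab (a (uc 2)) = θ.2.2.1 := (hc (uc 2)).1.1 rfl
      have c2 : ftOf e K m n tab (a (uc 0)) = θ.2.2.2 := (hc (uc 0)).1.2 rfl
      have c3 : (ftOf e K m n tab (a zc)).w ↔ b = true := (hc zc).2.1 rfl
      have c4 : uv m a < n := by
        refine lt_of_ok hn (ha _) bu ?_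
        cases bu with
        | true => exact (hc (uc 3)).2.2.1 rfl
        | false => exact ⟨(hc (uc 3)).2.2.1.1 rfl, (hc (uc 2)).2.2.1.2 rfl⟩
      have c5 : vv m a < n := by
        refine lt_of_ok hn (ha _) bv ?_
        cases bv with
        | true => exact (hc (uc 1)).2.2.2 rfl
        | false => exact ⟨(hc (uc 1)).2.2.2.1 rfl, (hc (uc 0)).2.2.2.2 rfl⟩
      show (cfgAt M w (tv m a + 0)).tape 0 ((pv m a : ℤ) - (m : ℤ) ^ (r + 5)) = M.bit b
      rw [tv_zero b1, b2, ← hoff]
      have e2 : ((m ^ (r + 5) + θ.1.toNat * (n * n) + uv m a * n + vv m a : ℕ) : ℤ) -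
          ((m ^ (r + 5) : ℕ) : ℤ) =
          ((θ.1.toNat * (n * n) + ((a (uc 3) * m + a (uc 2)) * n + (a (uc 1) * m + a (uc 0))) :
            ℕ) : ℤ) := by
        unfold uv vv
        push_cast; ring
      rw [e2, hw]
      refine init_tab hG θ.1 b (ha _) (ha _) c4 c5 ?_
      rw [b4, c1, c2, ← c3]
      show tab θ _ _ ↔ WOf e K tab (a zc)
      rw [b3, wOf_idx (min_le_right _ _) (min_le_right _ _)]
    | e1 i =>
      have hb0 : Inv M r m n K w (.dw true) a := hb 0
      obtain ⟨b1, b2⟩ := hb0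
      have hcar : ∀ i' < i, a (pc i') + 1 = m := fun i' hi' => (hc (pc i')).1 i' rfl hi'
      have hu : uv m a + 1 = n :=
        last_of hn ((hc (uc 3)).2.1.1 rfl) ((hc (uc 2)).2.1.2 rfl)
      have hv : vv m a + 1 = n :=
        last_of hn ((hc (uc 1)).2.2.1 rfl) ((hc (uc 0)).2.2.2 rfl)
      refine ⟨b1, ?_⟩
      show m ^ (r + 5) + 2 * (n * n) ≤
        pv m fun q => (maps ids (cry i) (fun _ => .zero) .zero q).eval (a q)
      rw [pv_cry i hcar, b2]
      have h3 : n * n = (uv m a + 1) * n := by rw [hu]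
      have h4 : (uv m a + 1) * n = uv m a * n + n := by ring
      simp only [Bool.toNat_true]
      omega
    | e2 i =>
      have hb0 : Inv M r m n K w .ew a := hb 0
      obtain ⟨b1, b2⟩ := hb0
      have hcar : ∀ i' < i, a (pc i') + 1 = m := fun i' hi' => hc (pc i') i' rfl hi'
      refine ⟨b1, ?_⟩
      show m ^ (r + 5) + 2 * (n * n) ≤ pv m fun q => (maps ids (cry i) ids .id q).eval (a q)
      rw [pv_cry i hcar]
      omega
    | e3 =>
      have hb0 : Inv M r m n K w .ew a := hb 0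
      obtain ⟨b1, b2⟩ := hb0
      show (cfgAt M w (tv m a + 0)).tape 0 ((pv m a : ℤ) - (m : ℤ) ^ (r + 5)) = M.blank
      rw [tv_zero b1]
      refine init_blank M w 0 (Or.inr (Or.inr ?_))
      rw [hw, inputWord_length, ← hoff]
      have : ((m ^ (r + 5) + 2 * (n * n) : ℕ) : ℤ) ≤ (pv m a : ℤ) := by exact_mod_cast b2
      push_cast at this ⊢
      linarith
    | d0 =>
      have hb0 : ∀ q, a q = 0 := hb 0
      refine ⟨fun i => hb0 _, ?_⟩
      have h1 : (pv m fun q : PQ r => (maps ids (at1 top .succ) ids .id q).eval (a q)) =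
          m ^ (r + 5) := by
        rw [← num_off m r]
        unfold pv
        congr 1
        funext i
        show (at1 top .succ i).eval (a (pc i)) = _
        rw [hb0]
        unfold at1
        split_ifs <;> rfl
      have h2 : uv m (fun q : PQ r => (maps ids (at1 top .succ) ids .id q).eval (a q)) = 0 := by
        show a (uc 3) * m + a (uc 2) = 0
        rw [hb0, hb0, Nat.zero_mul]
      have h3 : vv m (fun q : PQ r => (maps ids (at1 top .succ) ids .id q).eval (a q)) = 0 := by
        show a (uc 1) * m + a (uc 0) = 0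
        rw [hb0, hb0, Nat.zero_mul]
      show (pv m fun q : PQ r => (maps ids (at1 top .succ) ids .id q).eval (a q)) =
        m ^ (r + 5) + false.toNat * (n * n) +
        uv m (fun q : PQ r => (maps ids (at1 top .succ) ids .id q).eval (a q)) * n +
        vv m (fun q : PQ r => (maps ids (at1 top .succ) ids .id q).eval (a q))
      rw [h1, h2, h3]
      simp
    | d1 b i =>
      have hb0 : Inv M r m n K w (.dw b) a := hb 0
      obtain ⟨b1, b2⟩ := hb0
      have hcar : ∀ i' < i, a (pc i') + 1 = m := fun i' hi' => hc (pc i') i' rfl hi'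
      refine ⟨b1, ?_⟩
      show (pv m fun q => (maps ids (cry i) (at1 0 .succ) .id q).eval (a q)) =
        m ^ (r + 5) + b.toNat * (n * n) + (a (uc 3) * m + a (uc 2)) * n +
        (a (uc 1) * m + (a (uc 0) + 1))
      rw [pv_cry i hcar, b2]
      unfold uv vv
      ring
    | d2 b i =>
      have hb0 : Inv M r m n K w (.dw b) a := hb 0
      obtain ⟨b1, b2⟩ := hb0
      have hcar : ∀ i' < i, a (pc i') + 1 = m := fun i' hi' => (hc (pc i')).1 i' rfl hi'
      have h0 : a (uc 0) + 1 = m := (hc (uc 0)).2 rfl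
      refine ⟨b1, ?_⟩
      show (pv m fun q => (maps ids (cry i) ![.zero, .succ, .id, .id] .id q).eval (a q)) =
        m ^ (r + 5) + b.toNat * (n * n) + (a (uc 3) * m + a (uc 2)) * n +
        ((a (uc 1) + 1) * m + 0)
      rw [pv_cry i hcar, b2]
      unfold uv vv
      have h4 : (a (uc 1) + 1) * m = a (uc 1) * m + m := by ring
      omega
    | d3 b i =>
      have hb0 : Inv M r m n K w (.dw b) a := hb 0
      obtain ⟨b1, b2⟩ := hb0
      have hcar : ∀ i' < i, a (pc i') + 1 = m := fun i' hi' => (hc (pc i')).1 i' rfl hi'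
      have hv : vv m a + 1 = n :=
        last_of hn ((hc (uc 1)).2.1 rfl) ((hc (uc 0)).2.2 rfl)
      refine ⟨b1, ?_⟩
      show (pv m fun q => (maps ids (cry i) ![.zero, .zero, .succ, .id] .id q).eval (a q)) =
        m ^ (r + 5) + b.toNat * (n * n) + (a (uc 3) * m + (a (uc 2) + 1)) * n + (0 * m + 0)
      rw [pv_cry i hcar, b2]
      unfold uv
      have h4 : (a (uc 3) * m + (a (uc 2) + 1)) * n = (a (uc 3) * m + a (uc 2)) * n + n := by
        ring
      omega
    | d4 b i =>
      have hb0 : Inv M r m n K w (.dw b) a := hb 0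
      obtain ⟨b1, b2⟩ := hb0
      have hcar : ∀ i' < i, a (pc i') + 1 = m := fun i' hi' => (hc (pc i')).1 i' rfl hi'
      have hv : vv m a + 1 = n :=
        last_of hn ((hc (uc 1)).2.1.1 rfl) ((hc (uc 0)).2.1.2 rfl)
      have h0 : a (uc 2) + 1 = m := (hc (uc 2)).2.2 rfl
      refine ⟨b1, ?_⟩
      show (pv m fun q => (maps ids (cry i) ![.zero, .zero, .zero, .succ] .id q).eval (a q)) =
        m ^ (r + 5) + b.toNat * (n * n) + ((a (uc 3) + 1) * m + 0) * n + (0 * m + 0)
      rw [pv_cry i hcar, b2]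
      unfold uv
      have h4 : ((a (uc 3) + 1) * m + 0) * n = (a (uc 3) * m + (a (uc 2) + 1)) * n := by
        rw [h0]; ring
      have h5 : (a (uc 3) * m + (a (uc 2) + 1)) * n = (a (uc 3) * m + a (uc 2)) * n + n := by
        ring
      omega
    | d5 i =>
      have hb0 : Inv M r m n K w (.dw false) a := hb 0
      obtain ⟨b1, b2⟩ := hb0
      have hcar : ∀ i' < i, a (pc i') + 1 = m := fun i' hi' => (hc (pc i')).1 i' rfl hi'
      have hu : uv m a + 1 = n :=
        last_of hn ((hc (uc 3)).2.1.1 rfl) ((hc (uc 2)).2.1.2 rfl)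
      have hv : vv m a + 1 = n :=
        last_of hn ((hc (uc 1)).2.2.1 rfl) ((hc (uc 0)).2.2.2 rfl)
      refine ⟨b1, ?_⟩
      show (pv m fun q => (maps ids (cry i) (fun _ => .zero) .id q).eval (a q)) =
        m ^ (r + 5) + 1 * (n * n) + (0 * m + 0) * n + (0 * m + 0)
      rw [pv_cry i hcar, b2]
      have h3 : n * n = (uv m a + 1) * n := by rw [hu]
      have h4 : (uv m a + 1) * n = uv m a * n + n := by ring
      simp only [Bool.toNat_false, Nat.zero_mul, Nat.one_mul, Nat.add_zero]
      omega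
    | d6 b =>
      have hb0 : Inv M r m n K w (.dw b) a := hb 0
      exact hb0
    | w1 θ hθ =>
      have hb0 : ∀ q, a q = 0 := hb 0
      refine ⟨?_, ?_, ?_, hb0 _, hb0 _⟩
      · show a (uc 1) ≤ K
        rw [hb0]; exact Nat.zero_le _
      · show a (uc 3) ≤ K
        rw [hb0]; exact Nat.zero_le _
      · show a zc = idx K θ (a (uc 3)) (a (uc 1))
        rw [hb0, hb0, hb0, hθ]; simp [idx]
    | w2 θ =>
      have hb0 : Inv M r m n K w (.pt θ) a := hb 0
      obtain ⟨b3, b4, b5, b6, b7⟩ := hb0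
      have hc1 : cmp3 (a (uc 1)) K = 0 := hc (uc 1) rfl
      rw [cmp3_eq_zero] at hc1
      refine ⟨hc1, b4, ?_, b6, b7⟩
      show a zc + 1 = idx K θ (a (uc 3)) (a (uc 1) + 1)
      rw [b5]
      unfold idx
      ring
    | w3 θ =>
      have hb0 : Inv M r m n K w (.pt θ) a := hb 0
      obtain ⟨b3, b4, b5, b6, b7⟩ := hb0
      have hc1 : cmp3 (a (uc 1)) K = 1 := (hc (uc 1)).1 rfl
      have hc3 : cmp3 (a (uc 3)) K = 0 := (hc (uc 3)).2 rfl
      rw [cmp3_eq_one] at hc1
      rw [cmp3_eq_zero] at hc3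
      refine ⟨Nat.zero_le _, hc3, ?_, b6, b7⟩
      show a zc + 1 = idx K θ (a (uc 3) + 1) 0
      rw [b5, hc1]
      unfold idx
      ring
    | w4 θ θ' h =>
      have hb0 : Inv M r m n K w (.pt θ) a := hb 0
      obtain ⟨b3, b4, b5, b6, b7⟩ := hb0
      have hc1 : cmp3 (a (uc 1)) K = 1 := (hc (uc 1)).1 rfl
      have hc3 : cmp3 (a (uc 3)) K = 1 := (hc (uc 3)).2 rfl
      rw [cmp3_eq_one] at hc1
      rw [cmp3_eq_one] at hc3
      refine ⟨Nat.zero_le _, Nat.zero_le _, ?_, b6, b7⟩
      show a zc + 1 = idx K θ' 0 0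
      rw [b5, hc1, hc3, h]
      unfold idx
      ring
    | w5 θ =>
      have hb0 : Inv M r m n K w (.pt θ) a := hb 0
      obtain ⟨b3, b4, b5, b6, b7⟩ := hb0
      refine ⟨?_, ?_⟩
      · show a zc = idx K θ (min (a (uc 3)) K) (min (a (uc 1)) K)
        rw [b5, min_eq_left b3, min_eq_left b4]
      · show rel (a (uc 2)) (a (uc 0)) = 2
        rw [b6, b7]; rfl
    | w6 θ =>
      have hb0 : Inv M r m n K w (.qt θ 2) a := hb 0
      obtain ⟨b3, b4⟩ := hb0
      have hc1 : cmp3 (a (uc 1)) K ≠ 0 := hc (uc 1) rfl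
      rw [Ne, cmp3_eq_zero, not_lt] at hc1
      refine ⟨?_, b4⟩
      show a zc = idx K θ (min (a (uc 3)) K) (min (a (uc 1) + 1) K)
      rw [b3, min_eq_right hc1, min_eq_right (le_trans hc1 (Nat.le_succ _))]
    | w7 θ =>
      have hb0 : Inv M r m n K w (.qt θ 2) a := hb 0
      obtain ⟨b3, b4⟩ := hb0
      have hc1 : cmp3 (a (uc 3)) K ≠ 0 := hc (uc 3) rfl
      rw [Ne, cmp3_eq_zero, not_lt] at hc1
      refine ⟨?_, b4⟩
      show a zc = idx K θ (min (a (uc 3) + 1) K) (min (a (uc 1)) K)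
      rw [b3, min_eq_right hc1, min_eq_right (le_trans hc1 (Nat.le_succ _))]
    | v1 θ =>
      have hb0 : Inv M r m n K w (.qt θ 2) a := hb 0
      obtain ⟨b3, b4⟩ := hb0
      rw [rel_eq_two] at b4
      refine ⟨b3, ?_⟩
      show rel (a (uc 2) + 1) (a (uc 0) + 1) = 2
      rw [rel_eq_two, b4]
    | v2 θ =>
      have hb0 : Inv M r m n K w (.qt θ 2) a := hb 0
      obtain ⟨b3, b4⟩ := hb0
      rw [rel_eq_two] at b4
      refine ⟨b3, ?_⟩
      show rel (a (uc 2)) (a (uc 0) + 1) = 3
      rw [rel_eq_three, b4]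
    | v3 θ =>
      have hb0 : Inv M r m n K w (.qt θ 3) a := hb 0
      obtain ⟨b3, b4⟩ := hb0
      rw [rel_eq_three] at b4
      refine ⟨b3, ?_⟩
      show rel (a (uc 2)) (a (uc 0) + 1) = 4
      rw [rel_four]
      omega
    | v4 θ =>
      have hb0 : Inv M r m n K w (.qt θ 4) a := hb 0
      obtain ⟨b3, b4⟩ := hb0
      rw [rel_four] at b4
      refine ⟨b3, ?_⟩
      show rel (a (uc 2)) (a (uc 0) + 1) = 4
      rw [rel_four]
      omega
    | v5 θ =>
      have hb0 : Inv M r m n K w (.qt θ 2) a := hb 0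
      obtain ⟨b3, b4⟩ := hb0
      rw [rel_eq_two] at b4
      refine ⟨b3, ?_⟩
      show rel (a (uc 2) + 1) (a (uc 0)) = 1
      rw [rel_eq_one, b4]
    | v6 θ =>
      have hb0 : Inv M r m n K w (.qt θ 1) a := hb 0
      obtain ⟨b3, b4⟩ := hb0
      rw [rel_eq_one] at b4
      refine ⟨b3, ?_⟩
      show rel (a (uc 2) + 1) (a (uc 0)) = 0
      rw [rel_zero]
      omega
    | v7 θ =>
      have hb0 : Inv M r m n K w (.qt θ 0) a := hb 0
      obtain ⟨b3, b4⟩ := hb0
      rw [rel_zero] at b4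
      refine ⟨b3, ?_⟩
      show rel (a (uc 2) + 1) (a (uc 0)) = 0
      rw [rel_zero]
      omega
    | q1 θ rc i =>
      have hb0 : Inv M r m n K w (.qt θ rc) a := hb 0
      exact hb0
    | r1 j g =>
      have hb0 : Inv M r m n K w (.sym false j g) a := hb 0
      have hb1 : Inv M r m n K w (.hd false j true) a := hb 1
      have h0 : (cfgAt M w (tv m a)).tape j ((pv m a : ℤ) - (m : ℤ) ^ (r + 5)) = g := hb0
      have h1 : (cfgAt M w (tv m a)).head j = (pv m a : ℤ) - (m : ℤ) ^ (r + 5) :=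
        (show _ ↔ _ from hb1).2 rfl
      show (cfgAt M w (tv m a)).tape j ((cfgAt M w (tv m a)).head j) = g
      rw [h1, h0]
    | r2 q g =>
      have hb0 : Inv M r m n K w (.st false q) a := hb 0
      have hb1 : ∀ j, Inv M r m n K w (.hs j (g j)) a := fun j => hb j.succ
      exact ⟨hb0, fun j => hb1 j⟩
    | r3 q g i =>
      have hb0 : Inv M r m n K w (.gb q g) a := hb 0
      exact hb0
    | r4 q g b h =>
      have hb0 : Inv M r m n K w (.gb q g) a := hb 0
      obtain ⟨h1, h2⟩ := hb0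
      show (cfgAt M w (tv m a + 1)).state = b.1
      rw [cfgAt_succ h1 h2 h]
    | r5 j g =>
      have hb0 : Inv M r m n K w (.sym false j g) a := hb 0
      have hb1 : Inv M r m n K w (.hd false j false) a := hb 1
      have h0 : (cfgAt M w (tv m a)).tape j ((pv m a : ℤ) - (m : ℤ) ^ (r + 5)) = g := hb0
      have h1 : (cfgAt M w (tv m a)).head j ≠ (pv m a : ℤ) - (m : ℤ) ^ (r + 5) := by
        intro h
        exact absurd ((show _ ↔ _ from hb1).1 h) (by simp)
      show (cfgAt M w (tv m a + 1)).tape j ((pv m a : ℤ) - (m : ℤ) ^ (r + 5)) = g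
      rw [cfgAt_tape h1, h0]
    | r6 j q g b h =>
      have hb0 : Inv M r m n K w (.hd false j true) a := hb 0
      have hb1 : Inv M r m n K w (.gb q g) a := hb 1
      have h0 : (cfgAt M w (tv m a)).head j = (pv m a : ℤ) - (m : ℤ) ^ (r + 5) :=
        (show _ ↔ _ from hb0).2 rfl
      obtain ⟨h1, h2⟩ := hb1
      show (cfgAt M w (tv m a + 1)).tape j ((pv m a : ℤ) - (m : ℤ) ^ (r + 5)) = (b.2 j).1
      rw [cfgAt_succ h1 h2 h]
      simp only [h0, Function.update_self]
    | r7 j b q g x h hm' =>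
      have hb0 : Inv M r m n K w (.hd false j b) a := hb 0
      have hb1 : Inv M r m n K w (.gb q g) a := hb 1
      have h0 : (cfgAt M w (tv m a)).head j = (pv m a : ℤ) - (m : ℤ) ^ (r + 5) ↔ b = true := hb0
      obtain ⟨h1, h2⟩ := hb1
      show (cfgAt M w (tv m a + 1)).head j = (pv m a : ℤ) - (m : ℤ) ^ (r + 5) ↔ b = true
      rw [cfgAt_succ h1 h2 h, ← h0]
      simp only [hm', Move.disp, add_zero]
    | r8 j b q g x h hm' i =>
      have hb0 : Inv M r m n K w (.hd false j b) a := hb 0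
      have hb1 : Inv M r m n K w (.gb q g) a := hb 1
      have h0 : (cfgAt M w (tv m a)).head j = (pv m a : ℤ) - (m : ℤ) ^ (r + 5) ↔ b = true := hb0
      obtain ⟨h1, h2⟩ := hb1
      have hcar : ∀ i' < i, a (pc i') + 1 = m := fun i' hi' => hc (pc i') i' rfl hi'
      show (cfgAt M w (tv m a + 1)).head j =
        ((pv m fun q => (maps ids (cry i) ids .id q).eval (a q) : ℕ) : ℤ) -
          (m : ℤ) ^ (r + 5) ↔ b = true
      rw [pv_cry i hcar, cfgAt_succ h1 h2 h, ← h0]
      simp only [hm', Move.disp]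
      push_cast
      constructor <;> intro h <;> linarith
    | r9 j b q g x h hm' i =>
      have hb0 : Inv M r m n K w (.hd false j b)
        (fun q => (maps ids (cry i) ids .id q).eval (a q)) := hb 0
      have hb1 : Inv M r m n K w (.gb q g) a := hb 1
      have hcar : ∀ i' < i, a (pc i') + 1 = m := fun i' hi' => hc (pc i') i' rfl hi'
      have h0 : (cfgAt M w (tv m a)).head j =
        ((pv m fun q => (maps ids (cry i) ids .id q).eval (a q) : ℕ) : ℤ) -
          (m : ℤ) ^ (r + 5) ↔ b = true := hb0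
      rw [pv_cry i hcar] at h0
      obtain ⟨h1, h2⟩ := hb1
      show (cfgAt M w (tv m a + 1)).head j = (pv m a : ℤ) - (m : ℤ) ^ (r + 5) ↔ b = true
      rw [cfgAt_succ h1 h2 h, ← h0]
      simp only [hm', Move.disp]
      push_cast
      constructor <;> intro h <;> linarith
    | r10s j g i =>
      have hb0 : Inv M r m n K w (.sym true j g) a := hb 0
      have hcar : ∀ i' < i, a (tc i') + 1 = m := fun i' hi' => hc (tc i') i' rfl hi'
      show (cfgAt M w ((tv m fun q => (maps (cry i) ids ids .id q).eval (a q)) + 0)).tape j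
        ((pv m a : ℤ) - (m : ℤ) ^ (r + 5)) = g
      rw [tv_cry i hcar]
      exact hb0
    | r10h j b i =>
      have hb0 : Inv M r m n K w (.hd true j b) a := hb 0
      have hcar : ∀ i' < i, a (tc i') + 1 = m := fun i' hi' => hc (tc i') i' rfl hi'
      show (cfgAt M w ((tv m fun q => (maps (cry i) ids ids .id q).eval (a q)) + 0)).head j =
        (pv m a : ℤ) - (m : ℤ) ^ (r + 5) ↔ b = true
      rw [tv_cry i hcar]
      exact hb0
    | r10q q i =>
      have hb0 : Inv M r m n K w (.st true q) a := hb 0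
      have hcar : ∀ i' < i, a (tc i') + 1 = m := fun i' hi' => hc (tc i') i' rfl hi'
      show (cfgAt M w ((tv m fun q => (maps (cry i) ids ids .id q).eval (a q)) + 0)).state = q
      rw [tv_cry i hcar]
      exact hb0
    | r11 q g h hacc =>
      have hb0 : Inv M r m n K w (.gb q g) a := hb 0
      obtain ⟨h1, h2⟩ := hb0
      refine ⟨tv m a, ?_, ?_⟩
      · unfold TM.step
        have hg' : (fun j => (cfgAt M w (tv m a)).tape j ((cfgAt M w (tv m a)).head j)) = g :=
          funext h2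
        rw [hg', h1, h]
        rfl
      · rw [h1]; exact hacc

end

end Vale.Agent.P310.V2.Snd

namespace Vale.Agent.P310.V2

/-- Soundness: if the final fact is derivable, the machine halts and accepts. -/
theorem prog_sound {M : TM} {nt : ℕ} {e : Th ≃ Fin nt} {r m n K : ℕ}
    {k p : ℕ} {π : Fin k → PQ r}
    {ι : Rule (PF M nt) (PQ r) (M.aux + 2) × Fin (M.aux + 2) × Fin (k + 1) → ZMod p}
    {tab : Th → ℕ → ℕ → Prop} {G : Bool → SimpleGraph (Fin n)} (hm : 2 ≤ m)
    (hn : 0 < n) (_hnm : n ≤ m * m) (_hK : nt * (K + 1) ^ 2 ≤ m)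
    (hG : TabOk e K m tab G)
    {c : PQ r → ℕ} (h : (progSys M e r K m n π ι tab).Der .fin c) :
    ∃ t c', M.After (inputWord (G false) (G true)) t c' ∧ M.step c' = none ∧
      M.accept c'.state := by
  obtain ⟨s, h1, h2⟩ := Snd.inv_of_der hm hn hG rfl h
  obtain ⟨t, ht⟩ := Vale.Agent.P310.Snd.after_cfgAt M (inputWord (G false) (G true)) s
  exact ⟨t, _, ht, h1, h2⟩

end Vale.Agent.P310.V2

/-!
Digit strings: value, carry patterns, predecessors and successors.
-/

namespace Vale.Agent.P310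

open Finset

/-- The value of a digit string in base `m`, least significant digit first. -/
def num (m : ℕ) {n : ℕ} (d : Fin n → ℕ) : ℕ := ∑ i, d i * m ^ (i : ℕ)

/-- Increment with carry pattern `i`. -/
def carry {n : ℕ} (i : Fin n) (d : Fin n → ℕ) : Fin n → ℕ :=
  fun i' => if i' < i then 0 else if i' = i then d i' + 1 else d i'

variable {m n : ℕ}

theorem num_zero : num m (fun _ : Fin n => 0) = 0 := by simp [num]

theorem num_succ (d : Fin (n + 1) → ℕ) :
    num m d = d 0 + m * num m (fun i => d i.succ) := by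
  simp only [num, Fin.sum_univ_succ, Fin.val_zero, pow_zero, mul_one, Fin.val_succ, pow_succ,
    Finset.mul_sum]
  congr 1
  exact Finset.sum_congr rfl fun i _ => by ring

theorem num_lt (d : Fin n → ℕ) (hd : ∀ i, d i < m) : num m d < m ^ n := by
  induction n with
  | zero => simp [num]
  | succ n ih =>
    rw [num_succ, pow_succ]
    have h1 := ih (fun i => d i.succ) (fun i => hd _)
    have h2 := hd 0
    have h3 : m * (num m (fun i => d i.succ) + 1) ≤ m * m ^ n := Nat.mul_le_mul_left _ h1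
    nlinarith

theorem num_inj (d d' : Fin n → ℕ) (hd : ∀ i, d i < m) (hd' : ∀ i, d' i < m)
    (h : num m d = num m d') : d = d' := by
  induction n with
  | zero => exact funext fun i => i.elim0
  | succ n ih =>
    rw [num_succ, num_succ] at h
    have h0 : d 0 = d' 0 := by
      have := congrArg (· % m) h
      simpa [Nat.add_mul_mod_self_left, Nat.mod_eq_of_lt (hd 0), Nat.mod_eq_of_lt (hd' 0)]
        using this
    have hm : 0 < m := lt_of_le_of_lt (Nat.zero_le _) (hd 0)
    have h1 : num m (fun i => d i.succ) = num m (fun i => d' i.succ) := by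
      rw [h0] at h
      exact Nat.eq_of_mul_eq_mul_left hm (Nat.add_left_cancel h)
    have h2 := ih _ _ (fun i => hd _) (fun i => hd' _) h1
    funext i
    refine Fin.cases h0 (fun j => ?_) i
    exact congrFun h2 j

theorem exists_num (hm : 0 < m) (N : ℕ) (hN : N < m ^ n) :
    ∃ d : Fin n → ℕ, (∀ i, d i < m) ∧ num m d = N := by
  induction n generalizing N with
  | zero =>
    refine ⟨fun _ => 0, fun i => i.elim0, ?_⟩
    simp only [pow_zero, Nat.lt_one_iff] at hN
    simp [num, hN]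
  | succ n ih =>
    have h1 : N / m < m ^ n := by
      rw [Nat.div_lt_iff_lt_mul hm, ← pow_succ]
      exact hN
    obtain ⟨d, hd, hd'⟩ := ih (N / m) h1
    refine ⟨Fin.cons (N % m) d, fun i => ?_, ?_⟩
    · refine Fin.cases ?_ (fun j => ?_) i
      · simpa using Nat.mod_lt _ hm
      · simpa using hd j
    · rw [num_succ]
      simp only [Fin.cons_zero, Fin.cons_succ]
      rw [hd']
      exact Nat.mod_add_div N m

theorem num_carry (i : Fin n) (d : Fin n → ℕ) (h : ∀ i' < i, d i' + 1 = m) :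
    num m (carry i d) = num m d + 1 := by
  induction n with
  | zero => exact i.elim0
  | succ n ih =>
    rw [num_succ, num_succ d]
    induction i using Fin.cases with
    | zero =>
      have h1 : (fun j : Fin n => carry 0 d j.succ) = fun j => d j.succ := by
        funext j
        simp [carry, Fin.succ_ne_zero]
      have h2 : carry 0 d 0 = d 0 + 1 := by simp [carry]
      rw [h1, h2]
      ring
    | succ i =>
      have h1 : (fun j : Fin n => carry i.succ d j.succ) = carry i (fun j => d j.succ) := by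
        funext j
        simp [carry]
      have h2 : carry i.succ d 0 = 0 := by simp [carry]
      have h3 := ih i (fun j => d j.succ) (fun j hj => h j.succ (Fin.succ_lt_succ_iff.mpr hj))
      rw [h1, h2, h3]
      have h4 := h 0 (Fin.succ_pos i)
      nlinarith

/-- Predecessor. -/
theorem exists_pred (hm : 0 < m) (d' : Fin n → ℕ) (hd' : ∀ i, d' i < m) (h : 0 < num m d') :
    ∃ (i : Fin n) (d : Fin n → ℕ), (∀ i, d i < m) ∧ (∀ i' < i, d i' + 1 = m) ∧
      d' = carry i d := by
  induction n with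
  | zero => simp [num] at h
  | succ n ih =>
    by_cases h0 : d' 0 = 0
    · have h1 : 0 < num m (fun i => d' i.succ) := by
        rw [num_succ, h0, zero_add] at h
        exact Nat.pos_of_mul_pos_left h
      obtain ⟨i, d, hd, hi, hc⟩ := ih (fun i => d' i.succ) (fun i => hd' _) h1
      refine ⟨i.succ, Fin.cons (m - 1) d, fun j => ?_, fun j hj => ?_, ?_⟩
      · refine Fin.cases ?_ (fun j => ?_) j
        · simp only [Fin.cons_zero]
          omega
        · simpa using hd j
      · revert hj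
        refine Fin.cases ?_ (fun j => ?_) j
        · intro _
          simp only [Fin.cons_zero]
          omega
        · intro hj
          simpa using hi j (Fin.succ_lt_succ_iff.mp hj)
      · funext j
        refine Fin.cases ?_ (fun j => ?_) j
        · simp [carry, h0]
        · have := congrFun hc j
          rw [this]
          simp [carry]
    · refine ⟨0, fun j => if j = 0 then d' 0 - 1 else d' j, fun j => ?_, fun j hj => ?_, ?_⟩
      · have := hd' 0
        have := hd' j
        simp only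
        split_ifs
        · omega
        · assumption
      · exact absurd hj (Fin.not_lt_zero j)
      · funext j
        by_cases hj : j = 0
        · subst hj
          simp only [carry, lt_irrefl, if_false, if_true]
          omega
        · simp [carry, hj]

/-- Successor. -/
theorem exists_succ (d : Fin n → ℕ) (hd : ∀ i, d i < m) (h : num m d + 1 < m ^ n) :
    ∃ i : Fin n, (∀ i' < i, d i' + 1 = m) ∧ d i + 1 < m := by
  induction n with
  | zero => simp [num] at h
  | succ n ih =>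
    by_cases h0 : d 0 + 1 = m
    · have h1 : num m (fun i => d i.succ) + 1 < m ^ n := by
        rw [num_succ, pow_succ] at h
        have h2 : m * (num m (fun i => d i.succ) + 1) < m * m ^ n := by nlinarith
        exact lt_of_mul_lt_mul_left h2 (Nat.zero_le _)
      obtain ⟨i, hi, hi'⟩ := ih (fun i => d i.succ) (fun i => hd _) h1
      refine ⟨i.succ, fun j hj => ?_, hi'⟩
      revert hj
      refine Fin.cases ?_ (fun j => ?_) j
      · intro _
        exact h0
      · intro hj
        exact hi j (Fin.succ_lt_succ_iff.mp hj)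
    · refine ⟨0, fun j hj => absurd hj (Fin.not_lt_zero j), ?_⟩
      have := hd 0
      omega

theorem carry_lt (i : Fin n) (d : Fin n → ℕ) (hd : ∀ i, d i < m) (hi : d i + 1 < m) (j : Fin n) :
    carry i d j < m := by
  unfold carry
  split_ifs with h1 h2
  · exact lt_of_le_of_lt (Nat.zero_le _) hi
  · subst h2
    exact hi
  · exact hd j

/-- The digit string with a single one. -/
theorem num_single (i : Fin n) (x : ℕ) :
    num m (fun j => if j = i then x else 0) = x * m ^ (i : ℕ) := by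
  simp [num]

end Vale.Agent.P310

/-! Finiteness of the fact types and well-formedness of the program. -/

namespace Vale.Agent.P310.V2

/-- The fact types as a sum of finite types. -/
abbrev PFCode (M : TM) (nt : ℕ) : Type :=
  ((Unit ⊕ Unit ⊕ Unit) ⊕ (Unit ⊕ Bool)) ⊕ (Fin nt ⊕ (Fin nt × Fin 5)) ⊕
    ((Bool × Fin (M.aux + 1) × M.Sym) ⊕ (Bool × Fin (M.aux + 1) × Bool)) ⊕
      ((Bool × M.State) ⊕ (Fin (M.aux + 1) × M.Sym)) ⊕ (M.State × (Fin (M.aux + 1) → M.Sym))

/-- Decoding. -/
def PFCode.dec {M : TM} {nt : ℕ} : PFCode M nt → PF M nt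
  | .inl (.inl (.inl _)) => .ini
  | .inl (.inl (.inr (.inl _))) => .fin
  | .inl (.inl (.inr (.inr _))) => .all
  | .inl (.inr (.inl _)) => .ew
  | .inl (.inr (.inr b)) => .dw b
  | .inr (.inl (.inl θ)) => .pt θ
  | .inr (.inl (.inr x)) => .qt x.1 x.2
  | .inr (.inr (.inl (.inl x))) => .sym x.1 x.2.1 x.2.2
  | .inr (.inr (.inl (.inr x))) => .hd x.1 x.2.1 x.2.2
  | .inr (.inr (.inr (.inl (.inl x)))) => .st x.1 x.2
  | .inr (.inr (.inr (.inl (.inr x)))) => .hs x.1 x.2
  | .inr (.inr (.inr (.inr x))) => .gb x.1 x.2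

theorem PFCode.dec_surjective {M : TM} {nt : ℕ} :
    Function.Surjective (PFCode.dec : PFCode M nt → PF M nt) := by
  intro x
  cases x with
  | ini => exact ⟨.inl (.inl (.inl ())), rfl⟩
  | fin => exact ⟨.inl (.inl (.inr (.inl ()))), rfl⟩
  | all => exact ⟨.inl (.inl (.inr (.inr ()))), rfl⟩
  | ew => exact ⟨.inl (.inr (.inl ())), rfl⟩
  | dw b => exact ⟨.inl (.inr (.inr b)), rfl⟩
  | pt θ => exact ⟨.inr (.inl (.inl θ)), rfl⟩
  | qt θ rc => exact ⟨.inr (.inl (.inr (θ, rc))), rfl⟩
  | sym pr j g => exact ⟨.inr (.inr (.inl (.inl (pr, j, g)))), rfl⟩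
  | hd pr j b => exact ⟨.inr (.inr (.inl (.inr (pr, j, b)))), rfl⟩
  | st pr q => exact ⟨.inr (.inr (.inr (.inl (.inl (pr, q))))), rfl⟩
  | hs j g => exact ⟨.inr (.inr (.inr (.inl (.inr (j, g))))), rfl⟩
  | gb q g => exact ⟨.inr (.inr (.inr (.inr (q, g)))), rfl⟩

instance {M : TM} {nt : ℕ} [Finite M.Sym] [Finite M.State] : Finite (PF M nt) :=
  Finite.of_surjective _ PFCode.dec_surjective

section wf

variable {M : TM} {nt : ℕ} {e : Th ≃ Fin nt} {r : ℕ}
  {k p K m n : ℕ} {π : Fin k → PQ r}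
  {ι : Rule (PF M nt) (PQ r) (M.aux + 2) × Fin (M.aux + 2) × Fin (k + 1) → ZMod p}
  {tab : Th → ℕ → ℕ → Prop}

theorem prog_inj {ρ : Rule (PF M nt) (PQ r) (M.aux + 2)} (h : Prog M e r ρ)
    (m : ℕ) (ft : ℕ → Feat) (hft : ∀ a, (ft a).hi ↔ a + 1 = m) (j : Fin (M.aux + 2)) (q : PQ r) :
    Set.InjOn ((ρ.bmap j q).eval) {a | a < m ∧ ρ.cond q (ft a)} := by
  have key1 : ∀ (hd b : PF M nt) (c : PQ r → Feat → Prop) (hm : PQ r → LM),
      Set.InjOn (((mk1 hd b c hm : Rule (PF M nt) (PQ r) (M.aux + 2)).bmap j q).eval)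
        {a | a < m ∧ (mk1 hd b c hm : Rule (PF M nt) (PQ r) (M.aux + 2)).cond q
          (ft a)} := by
    intro hd b c hm a _ a' _ haa
    exact haa
  have key2 : ∀ (hd b b' : PF M nt) (c : PQ r → Feat → Prop) (hm : PQ r → LM),
      Set.InjOn (((mk2 hd b b' c hm ids : Rule (PF M nt) (PQ r) (M.aux + 2)).bmap j q).eval)
        {a | a < m ∧ (mk2 hd b b' c hm ids : Rule (PF M nt) (PQ r) (M.aux + 2)).cond q
          (ft a)} := by
    intro hd b b' c hm a _ a' _ haa
    simp only [mk2, ite_self] at haa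
    exact haa
  cases h with
  | r2 q g =>
    intro a _ a' _ haa
    exact haa
  | r9 j' b q' g a' h hm i =>
    intro x hx y hy hxy
    simp only [mk2] at hxy hx hy
    split_ifs at hxy with hj
    · rcases q with t | t | t | t
      · exact hxy
      · simp only [maps, cry] at hxy
        split_ifs at hxy with h1 h2
        · have hx2 := (hft x).1 (hx.2 t rfl h1)
          have hy2 := (hft y).1 (hy.2 t rfl h1)
          omega
        · simpa [LM.eval] using hxy
        · exact hxy
      · exact hxy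
      · exact hxy
    · exact hxy
  | _ => first | exact key1 _ _ _ _ | exact key2 _ _ _ _ _

theorem prog_head_ne {ρ : Rule (PF M nt) (PQ r) (M.aux + 2)} (h : Prog M e r ρ) :
    ρ.head ≠ .ini := by
  cases h <;> simp [mk1, mk2]

theorem prog_body_ne {ρ : Rule (PF M nt) (PQ r) (M.aux + 2)} (h : Prog M e r ρ)
    (j : Fin (M.aux + 2)) : ρ.body j ≠ .fin := by
  cases h with
  | r2 q g =>
    refine Fin.cases ?_ (fun j => ?_) j <;> simp
  | _ => first | (simp [mk1]; done) | (simp only [mk2]; split_ifs <;> simp)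

theorem prog_fin_zero {ρ : Rule (PF M nt) (PQ r) (M.aux + 2)} (h : Prog M e r ρ)
    (hf : ρ.head = .fin) (q : PQ r) (a : ℕ) : (ρ.hmap q).eval a = 0 := by
  cases h with
  | r11 q' g h ha => rfl
  | _ => simp [mk1, mk2] at hf

theorem progSys_wf (hp : p.Prime) (hk : 2 ≤ k) (hm : 0 < m) (hπ : Function.Surjective π)
    (htwin : ∀ i, ∃ i', i' ≠ i ∧ π i' = π i) (hι : Function.Injective ι) :
    (progSys M e r K m n π ι tab).WF where
  prime := hp
  hk := hk
  hB := by omega
  hm := hm
  surj := hπ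
  twin := htwin
  inj := fun ρ hρ j q => prog_inj hρ m _ (fun _ => Iff.rfl) j q
  head_ne := fun ρ hρ => prog_head_ne hρ
  body_ne := fun ρ hρ j => prog_body_ne hρ j
  fin_zero := fun ρ hρ hf q a => prog_fin_zero hρ hf q a
  ini_ne_fin := by
    intro h
    cases h
  ιinj := hι

end wf

end Vale.Agent.P310.V2

/-!
Basic facts used for soundness and completeness of the program: features, table positions,
the initial tape.
-/

namespace Vale.Agent.P310.V2

open Finset

section features

theorem cmp3_zero {a b : ℕ} : cmp3 a b = 0 ↔ a < b := by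
  unfold cmp3
  by_cases h0 : a < b
  · simp [h0]
  · by_cases h1 : a = b <;> simp [h0, h1]

theorem cmp3_one {a b : ℕ} : cmp3 a b = 1 ↔ a = b := by
  unfold cmp3
  by_cases h0 : a < b
  · simp [h0, h0.ne]
  · by_cases h1 : a = b <;> simp [h0, h1]

theorem cmp3_two {a b : ℕ} : cmp3 a b = 2 ↔ b < a := by
  unfold cmp3
  by_cases h0 : a < b
  · simp [h0, h0.le]
  · by_cases h1 : a = b
    · simp [h1]
    · simp only [h0, h1, if_false, true_iff]
      omega

variable {nt : ℕ} {e : Th ≃ Fin nt} {K m n : ℕ} {tab : Th → ℕ → ℕ → Prop} {a : ℕ}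

theorem ft_lo_zero : (ftOf e K m n tab a).lo = 0 ↔ a = 0 := by
  by_cases h0 : a = 0
  · simp [ftOf, feat, h0]
  · by_cases h1 : a = 1 <;> simp [ftOf, feat, h0, h1]

theorem ft_lo_one : (ftOf e K m n tab a).lo = 1 ↔ a = 1 := by
  by_cases h0 : a = 0
  · simp [ftOf, feat, h0]
  · by_cases h1 : a = 1 <;> simp [ftOf, feat, h0, h1]

theorem ft_lo_two : (ftOf e K m n tab a).lo = 2 ↔ 2 ≤ a := by
  by_cases h0 : a = 0
  · simp [ftOf, feat, h0]
  · by_cases h1 : a = 1
    · simp [ftOf, feat, h1]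
    · simp only [ftOf, feat, h0, h1, if_false, true_iff]
      omega

theorem ft_kc_zero : (ftOf e K m n tab a).kc = 0 ↔ a < K := cmp3_zero

theorem ft_kc_one : (ftOf e K m n tab a).kc = 1 ↔ a = K := cmp3_one

theorem ft_kc_two : (ftOf e K m n tab a).kc = 2 ↔ K < a := cmp3_two

theorem ft_ck_zero : (ftOf e K m n tab a).ck = 0 ↔ a < (n - 1) / m := cmp3_zero

theorem ft_ck_one : (ftOf e K m n tab a).ck = 1 ↔ a = (n - 1) / m := cmp3_one

theorem ft_ca_one : (ftOf e K m n tab a).ca = 1 ↔ a = (n - 1) % m := cmp3_one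

theorem ft_ca_two : (ftOf e K m n tab a).ca = 2 ↔ (n - 1) % m < a := cmp3_two

theorem ft_hi : (ftOf e K m n tab a).hi ↔ a + 1 = m := Iff.rfl

theorem ft_w : (ftOf e K m n tab a).w ↔ WOf e K tab a := Iff.rfl

end features

section index

variable {nt : ℕ} {e : Th ≃ Fin nt} {K : ℕ}

theorem two_digits {b x y x' y' : ℕ} (hy : y < b) (hy' : y' < b) (h : x * b + y = x' * b + y') :
    x = x' ∧ y = y' := by
  have hb : 0 < b := lt_of_le_of_lt (Nat.zero_le _) hy
  have h1 : y = y' := by
    have := congrArg (· % b) h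
    simpa [Nat.mul_add_mod_of_lt, Nat.add_comm, Nat.add_mul_mod_self_right,
      Nat.mod_eq_of_lt hy, Nat.mod_eq_of_lt hy'] using this
  subst h1
  exact ⟨Nat.eq_of_mul_eq_mul_right hb (Nat.add_right_cancel h), rfl⟩

theorem idx_inj {θ κ κ' θ' l l' : ℕ} (h1 : κ ≤ K) (h2 : κ' ≤ K) (h3 : l ≤ K) (h4 : l' ≤ K)
    (h : idx K θ κ κ' = idx K θ' l l') : θ = θ' ∧ κ = l ∧ κ' = l' := by
  have e1 : (θ * (K + 1) + κ) * (K + 1) + κ' = (θ' * (K + 1) + l) * (K + 1) + l' := by
    unfold idx at h
    nlinarith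
  obtain ⟨e2, e3⟩ := two_digits (Nat.lt_succ_of_le h2) (Nat.lt_succ_of_le h4) e1
  obtain ⟨e4, e5⟩ := two_digits (Nat.lt_succ_of_le h1) (Nat.lt_succ_of_le h3) e2
  exact ⟨e4, e5, e3⟩

theorem idx_lt {θ κ κ' n : ℕ} (hθ : θ < n) (h1 : κ ≤ K) (h2 : κ' ≤ K) :
    idx K θ κ κ' < n * (K + 1) ^ 2 := by
  unfold idx
  have h3 : (θ + 1) * (K + 1) ^ 2 ≤ n * (K + 1) ^ 2 := Nat.mul_le_mul_right _ hθ
  have h4 : κ * (K + 1) + κ' < (K + 1) ^ 2 := by nlinarith
  nlinarith

theorem WOf_idx {tab : Th → ℕ → ℕ → Prop} {θ : Th} {κ κ' : ℕ} (h1 : κ ≤ K) (h2 : κ' ≤ K) :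
    WOf e K tab (idx K (e θ) κ κ') ↔ tab θ κ κ' := by
  constructor
  · rintro ⟨θ', l, l', h3, h4, h5, h6⟩
    obtain ⟨e1, e2, e3⟩ := idx_inj h1 h2 h3 h4 h5
    have e4 : θ = θ' := e.injective (Fin.ext e1)
    rw [e4, e2, e3]
    exact h6
  · intro h
    exact ⟨θ, κ, κ', h1, h2, rfl, h⟩

end index

section word

variable {n : ℕ} (G H : SimpleGraph (Fin n))

theorem length_mBits : (matrixBits G).length = n * n := by simp [matrixBits]

theorem length_iWord : (inputWord G H).length = 2 * (n * n) := by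
  simp [inputWord, length_mBits, two_mul]

open Classical in
theorem mBits_get (u v : Fin n) :
    (matrixBits G)[(u : ℕ) * n + v]? = some (decide (G.Adj u v)) := by
  have hlt : (u : ℕ) * n + v < n * n := by
    have h1 := u.2
    have h2 := v.2
    nlinarith
  rw [List.getElem?_eq_getElem (by rw [length_mBits]; exact hlt)]
  simp only [matrixBits, List.getElem_ofFn, Option.some.injEq]
  have e1 : (⟨(u : ℕ) * n + v, hlt⟩ : Fin (n * n)).divNat = u := by
    ext
    simp only [Fin.coe_divNat]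
    rw [Nat.mul_comm, Nat.mul_add_div (by have := v.2; omega), Nat.div_eq_of_lt v.2, add_zero]
  have e2 : (⟨(u : ℕ) * n + v, hlt⟩ : Fin (n * n)).modNat = v := by
    ext
    simp only [Fin.coe_modNat]
    rw [Nat.mul_comm, Nat.mul_add_mod, Nat.mod_eq_of_lt v.2]
  rw [e1, e2]

open Classical in
theorem iWord_get (j : Bool) (u v : Fin n) :
    (inputWord G H)[(if j then n * n else 0) + ((u : ℕ) * n + v)]?
      = some (decide ((if j then H else G).Adj u v)) := by
  have hlt : (u : ℕ) * n + v < n * n := by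
    have h1 := u.2
    have h2 := v.2
    nlinarith
  cases j with
  | false =>
    simp only [Bool.false_eq_true, if_false, zero_add]
    rw [inputWord, List.getElem?_append_left (by rw [length_mBits]; exact hlt)]
    exact mBits_get G u v
  | true =>
    simp only [if_true]
    rw [inputWord, List.getElem?_append_right (by rw [length_mBits]; omega),
      length_mBits, Nat.add_sub_cancel_left]
    exact mBits_get H u v

end word

section tape

/-- The offset of cell `0` among the positions. -/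
def off (m r : ℕ) : ℤ := ((m ^ (r + 5) : ℕ) : ℤ)

variable {M : TM} {nt K m n r : ℕ} {e : Th ≃ Fin nt} {tab : Th → ℕ → ℕ → Prop}
  {G : Bool → SimpleGraph (Fin n)}

/-- The position of the matrix entry `(u, v)` of the graph with index `b`. -/
def cell (n : ℕ) (b : Bool) (u v : ℕ) : ℕ := (if b then n * n else 0) + (u * n + v)

theorem cell_lt {b : Bool} {u v : ℕ} (hu : u < n) (hv : v < n) : cell n b u v < 2 * (n * n) := by
  unfold cell
  have : u * n + v < n * n := by nlinarith
  cases b <;> simp <;> omega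

theorem exists_cell {x : ℕ} (hx : x < 2 * (n * n)) :
    ∃ b u v, u < n ∧ v < n ∧ x = cell n b u v := by
  have hn : 0 < n := by
    rcases Nat.eq_zero_or_pos n with h | h
    · subst h
      simp at hx
    · exact h
  have key : ∀ y, y < n * n → ∃ u v, u < n ∧ v < n ∧ y = u * n + v := fun y hy =>
    ⟨y / n, y % n, (Nat.div_lt_iff_lt_mul hn).2 hy, Nat.mod_lt _ hn, (Nat.div_add_mod' y n).symm⟩
  by_cases h : x < n * n
  · obtain ⟨u, v, hu, hv, h1⟩ := key x h
    exact ⟨false, u, v, hu, hv, by simp [cell, h1]⟩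
  · obtain ⟨u, v, hu, hv, h1⟩ := key (x - n * n) (by omega)
    refine ⟨true, u, v, hu, hv, ?_⟩
    simp only [cell, if_true]
    omega

open Classical in
/-- The initial symbol at a cell of the input word. -/
theorem init_tape_cell (hG : TabOk e K m tab G) (b : Bool) {u v : ℕ} (hu : u < n) (hv : v < n) :
    (M.init (inputWord (G false) (G true))).tape 0 ((cell n b u v : ℕ) : ℤ)
      = M.bit (decide (tab (b, rel (u % m) (v % m), ftOf e K m n tab (u % m),
          ftOf e K m n tab (v % m)) (min (u / m) K) (min (v / m) K))) := by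
  have h1 := iWord_get (G false) (G true) b ⟨u, hu⟩ ⟨v, hv⟩
  have h2 : (if b then G true else G false) = G b := by cases b <;> rfl
  rw [h2] at h1
  simp only [TM.init, true_and, Int.natCast_nonneg, if_true, Int.toNat_natCast]
  rw [show cell n b u v = (if b then n * n else 0) + (((⟨u, hu⟩ : Fin n) : ℕ) * n +
    ((⟨v, hv⟩ : Fin n) : ℕ)) from rfl, h1]
  simp only [Option.elim_some]
  congr 1
  exact decide_eq_decide.mpr (hG b ⟨u, hu⟩ ⟨v, hv⟩)

/-- The initial symbol to the left of the input word. -/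
theorem init_tape_neg {x : ℤ} (hx : x < 0) :
    (M.init (inputWord (G false) (G true))).tape 0 x = M.blank := by
  simp only [TM.init, true_and]
  rw [if_neg (by omega)]

/-- The initial symbol to the right of the input word. -/
theorem init_tape_big {x : ℕ} (hx : 2 * (n * n) ≤ x) :
    (M.init (inputWord (G false) (G true))).tape 0 (x : ℤ) = M.blank := by
  simp only [TM.init, true_and, Int.natCast_nonneg, if_true, Int.toNat_natCast]
  rw [List.getElem?_eq_none (by rw [length_iWord]; exact hx)]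
  rfl

/-- The initial symbol on the other tapes. -/
theorem init_tape_ne {j : Fin (M.aux + 1)} (hj : j ≠ 0) (x : ℤ) :
    (M.init (inputWord (G false) (G true))).tape j x = M.blank := by
  simp [TM.init, hj]

end tape

end Vale.Agent.P310.V2

/-!
Completeness of the program: if the machine accepts in fewer than `m ^ r` steps, the final fact
is derivable.
-/

namespace Vale.Agent.P310.V2

open Finset

/-- A context given by time digits, position digits, vertex coordinates and the pointer. -/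
def ctx {r : ℕ} (t : Fin r → ℕ) (d : Fin (r + 6) → ℕ) (u : Fin 4 → ℕ) (z : ℕ) : PQ r → ℕ :=
  Sum.elim t (Sum.elim d (Sum.elim u fun _ => z))

/-- The zero vertex coordinates. -/
def u0 : Fin 4 → ℕ := fun _ => 0

section ctxlemmas

variable {r : ℕ} {t : Fin r → ℕ} {d : Fin (r + 6) → ℕ} {u : Fin 4 → ℕ} {z : ℕ}

theorem ctx_lt {m : ℕ} (ht : ∀ i, t i < m)
    (hd : ∀ i, d i < m) (hu : ∀ i, u i < m) (hz : z < m) : ∀ q, ctx t d u z q < m := by
  rintro (i | i | i | i)
  · exact ht i
  · exact hd i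
  · exact hu i
  · exact hz

theorem ctx_zero : ctx (r := r) (fun _ => 0) (fun _ => 0) u0 0 = fun _ => 0 := by
  funext q
  rcases q with q | q | q | q <;> rfl

theorem ctx_ids : (fun q => (ids q : LM).eval (ctx t d u z q)) = ctx t d u z := rfl

theorem ctx_all_zero : (fun q => (LM.zero).eval (ctx t d u z q)) = fun _ => 0 := rfl

theorem ctx_maps {f : Fin r → LM} {g : Fin (r + 6) → LM} {h : Fin 4 → LM} {y : LM}
    {t' : Fin r → ℕ} {d' : Fin (r + 6) → ℕ} {u' : Fin 4 → ℕ} {z' : ℕ}
    (h1 : (fun i => (f i).eval (t i)) = t') (h2 : (fun i => (g i).eval (d i)) = d')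
    (h3 : (fun i => (h i).eval (u i)) = u') (h4 : y.eval z = z') :
    (fun q => (maps f g h y q).eval (ctx t d u z q)) = ctx t' d' u' z' := by
  subst h1 h2 h3 h4
  funext q
  rcases q with q | q | q | q <;> rfl

theorem ev_ids {n : ℕ} {v : Fin n → ℕ} : (fun i => (ids i : LM).eval (v i)) = v := rfl

theorem ev_zero {n : ℕ} {v : Fin n → ℕ} : (fun i => (LM.zero).eval (v i)) = fun _ => 0 := rfl

theorem ev_cry {n : ℕ} {i : Fin n} {v : Fin n → ℕ} :
    (fun i' => (cry i i').eval (v i')) = carry i v := by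
  funext i'
  simp only [cry, carry]
  split_ifs <;> rfl

theorem ev_at1 {n : ℕ} {i : Fin n} {v : Fin n → ℕ} :
    (fun i' => (at1 i .succ i').eval (v i')) = Function.update v i (v i + 1) := by
  funext i'
  simp only [at1]
  by_cases h : i' = i
  · subst h
    simp [LM.eval]
  · simp [h, LM.eval]

theorem ctx_pc (i : Fin (r + 6)) : ctx t d u z (pc i) = d i := rfl

theorem ctx_uc (i : Fin 4) : ctx t d u z (uc i) = u i := rfl

theorem ctx_zc : ctx t d u z zc = z := rfl

theorem pc_inj {i j : Fin (r + 6)} : (pc i : PQ r) = pc j ↔ i = j := by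
  simp [pc]

theorem tc_inj {i j : Fin r} : (tc i : PQ r) = tc j ↔ i = j := by
  simp [tc]

end ctxlemmas

/-- Every digit string can be reached from zero by increments. -/
theorem incr_closure {m n : ℕ} (P : (Fin n → ℕ) → Prop) (h0 : P fun _ => 0)
    (hs : ∀ d i, (∀ j, d j < m) → P d → P (Function.update d i (d i + 1))) :
    ∀ d, (∀ i, d i < m) → P d := by
  intro d
  induction hN : ∑ i, d i generalizing d with
  | zero =>
    intro _
    have : d = fun _ => 0 := by
      funext i
      exact (Finset.sum_eq_zero_iff.mp hN) i (Finset.mem_univ i)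
    rw [this]
    exact h0
  | succ N ih =>
    intro hd
    obtain ⟨i, hi⟩ : ∃ i, d i ≠ 0 := by
      by_contra hcon
      push Not at hcon
      have : ∑ i, d i = 0 := Finset.sum_eq_zero fun i _ => hcon i
      omega
    have h1 : ∀ j, Function.update d i (d i - 1) j < m := by
      intro j
      by_cases hj : j = i
      · subst hj
        have := hd j
        simp only [Function.update_self]
        omega
      · simpa [Function.update_of_ne hj] using hd j
    have h2 : ∑ j, Function.update d i (d i - 1) j = N := by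
      have e1 := Finset.sum_update_of_mem (Finset.mem_univ i) d (d i - 1)
      have e2 := Finset.sum_update_of_mem (Finset.mem_univ i) d (d i)
      rw [Function.update_eq_self] at e2
      omega
    have h3 := hs _ i h1 (ih _ h2 h1)
    have h4 : Function.update (Function.update d i (d i - 1)) i
        (Function.update d i (d i - 1) i + 1) = d := by
      funext j
      by_cases hj : j = i
      · subst hj
        simp only [Function.update_self]
        omega
      · simp [Function.update_of_ne hj]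
    rwa [h4] at h3

section closed

variable {M : TM} {nt : ℕ} {e : Th ≃ Fin nt} {r m K n : ℕ} {tab : Th → ℕ → ℕ → Prop}

/-- Predicates on facts that are closed under the rules. -/
structure Closed (M : TM) {nt : ℕ} (e : Th ≃ Fin nt) (r K m n : ℕ) (tab : Th → ℕ → ℕ → Prop)
    (D : PF M nt → (PQ r → ℕ) → Prop) : Prop where
  ini : D .ini fun _ => 0
  step : ∀ ρ, Prog M e r ρ → ∀ a : PQ r → ℕ, (∀ q, a q < m) →
    (∀ q, ρ.cond q (ftOf e K m n tab (a q))) →
    (∀ j, D (ρ.body j) fun q => (ρ.bmap j q).eval (a q)) → D ρ.head fun q => (ρ.hmap q).eval (a q)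

variable {D : PF M nt → (PQ r → ℕ) → Prop} (hD : Closed M e r K m n tab D)

include hD

theorem Closed.rule1 {h b : PF M nt} {cond : PQ r → Feat → Prop} {hm : PQ r → LM}
    (hρ : Prog M e r (mk1 h b cond hm)) {a c : PQ r → ℕ} (ha : ∀ q, a q < m)
    (hc : ∀ q, cond q (ftOf e K m n tab (a q))) (hb : D b a)
    (hac : (fun q => (hm q).eval (a q)) = c) : D h c := by
  rw [← hac]
  exact hD.step _ hρ a ha hc fun _ => hb

theorem Closed.rule2 {h b b' : PF M nt} {cond : PQ r → Feat → Prop} {hm bm : PQ r → LM}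
    (hρ : Prog M e r (mk2 h b b' cond hm bm)) {a c a' : PQ r → ℕ} (ha : ∀ q, a q < m)
    (hc : ∀ q, cond q (ftOf e K m n tab (a q))) (hb : D b a')
    (haa' : (fun q => (bm q).eval (a q)) = a') (hb' : D b' a)
    (hac : (fun q => (hm q).eval (a q)) = c) : D h c := by
  rw [← hac]
  refine hD.step _ hρ a ha hc fun j => ?_
  by_cases hj : (j : ℕ) = 0
  · simp only [mk2, if_pos hj]
    rw [haa']
    exact hb
  · simp only [mk2, if_neg hj]
    exact hb'

/-- `all` -/
theorem Closed.all (hm : 0 < m) (d : Fin (r + 6) → ℕ) (hd : ∀ i, d i < m) :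
    D .all (ctx (fun _ => 0) d u0 0) := by
  refine incr_closure (m := m) (fun d => D .all (ctx (fun _ => 0) d u0 0)) ?_ ?_ d hd
  · exact hD.rule1 .i2 (a := fun _ => 0) (fun _ => hm) (fun _ => trivial) hD.ini ctx_zero.symm
  · intro d i hd h
    exact hD.rule1 (.i3 i) (ctx_lt (fun _ => hm) hd (fun _ => hm) hm) (fun _ => trivial) h
      (ctx_maps ev_ids ev_at1 ev_ids rfl)

/-- initial state -/
theorem Closed.init_st (hm : 0 < m) :
    D (.st false M.start) (ctx (fun _ => 0) (fun _ => 0) u0 0) :=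
  hD.rule1 .i1 (a := fun _ => 0) (fun _ => hm) (fun _ => trivial) hD.ini ctx_zero.symm

theorem Closed.init_hd (hm : 0 < m) (j : Fin (M.aux + 1)) (d : Fin (r + 6) → ℕ)
    (hd : ∀ i, d i < m) (b : Bool)
    (hb : b = true ↔ ∀ i : Fin (r + 6), d i = if i = top then 1 else 0) :
    D (.hd false j b) (ctx (fun _ => 0) d u0 0) := by
  have hall := hD.all hm d hd
  cases b with
  | true =>
    refine hD.rule1 (.i5 j) (ctx_lt (fun _ => hm) hd (fun _ => hm) hm) ?_ hall ctx_ids
    rintro q i rfl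
    have h := (hb.mp rfl) i
    rw [ctx_pc]
    by_cases hi : i = top
    · rw [if_pos hi, ft_lo_one]
      rw [if_pos hi] at h
      exact h
    · rw [if_neg hi, ft_lo_zero]
      rw [if_neg hi] at h
      exact h
  | false =>
    have h : ¬ ∀ i : Fin (r + 6), d i = if i = top then 1 else 0 := fun h => by
      have := hb.mpr h
      simp at this
    push Not at h
    obtain ⟨i, hi⟩ := h
    refine hD.rule1 (.i4 j i) (ctx_lt (fun _ => hm) hd (fun _ => hm) hm) ?_ hall ctx_ids
    rintro q rfl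
    rw [ctx_pc]
    by_cases hit : i = top
    · rw [if_pos hit] at hi ⊢
      rw [Ne, ft_lo_one]
      exact hi
    · rw [if_neg hit] at hi ⊢
      rw [Ne, ft_lo_zero]
      exact hi

end closed

section vertexctx

/-- Vertex coordinates: label and kind of the column vertex, label and kind of the row vertex. -/
def v4 (a' κ' a κ : ℕ) : Fin 4 → ℕ := ![a', κ', a, κ]

theorem v4_lt {m a' κ' a κ : ℕ} (h0 : a' < m) (h1 : κ' < m) (h2 : a < m) (h3 : κ < m)
    (i : Fin 4) : v4 a' κ' a κ i < m := by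
  fin_cases i <;> assumption

theorem v4_zero : v4 0 0 0 0 = u0 := by
  funext i
  fin_cases i <;> rfl

variable {a' κ' a κ : ℕ}

theorem v4_at0 : (fun i => (at1 0 .succ i).eval (v4 a' κ' a κ i)) = v4 (a' + 1) κ' a κ := by
  funext i
  fin_cases i <;> rfl

theorem v4_at1 : (fun i => (at1 1 .succ i).eval (v4 a' κ' a κ i)) = v4 a' (κ' + 1) a κ := by
  funext i
  fin_cases i <;> rfl

theorem v4_at2 : (fun i => (at1 2 .succ i).eval (v4 a' κ' a κ i)) = v4 a' κ' (a + 1) κ := by
  funext i
  fin_cases i <;> rfl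

theorem v4_at3 : (fun i => (at1 3 .succ i).eval (v4 a' κ' a κ i)) = v4 a' κ' a (κ + 1) := by
  funext i
  fin_cases i <;> rfl

theorem v4_w3 : (fun i => ((![.id, .zero, .id, .succ] : Fin 4 → LM) i).eval (v4 a' κ' a κ i))
    = v4 a' 0 a (κ + 1) := by
  funext i
  fin_cases i <;> rfl

theorem v4_w4 : (fun i => ((![.id, .zero, .id, .zero] : Fin 4 → LM) i).eval (v4 a' κ' a κ i))
    = v4 a' 0 a 0 := by
  funext i
  fin_cases i <;> rfl

theorem v4_v1 : (fun i => ((![.succ, .id, .succ, .id] : Fin 4 → LM) i).eval (v4 a' κ' a κ i))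
    = v4 (a' + 1) κ' (a + 1) κ := by
  funext i
  fin_cases i <;> rfl

theorem v4_d2 : (fun i => ((![.zero, .succ, .id, .id] : Fin 4 → LM) i).eval (v4 a' κ' a κ i))
    = v4 0 (κ' + 1) a κ := by
  funext i
  fin_cases i <;> rfl

theorem v4_d3 : (fun i => ((![.zero, .zero, .succ, .id] : Fin 4 → LM) i).eval (v4 a' κ' a κ i))
    = v4 0 0 (a + 1) κ := by
  funext i
  fin_cases i <;> rfl

theorem v4_d4 : (fun i => ((![.zero, .zero, .zero, .succ] : Fin 4 → LM) i).eval
    (v4 a' κ' a κ i)) = v4 0 0 0 (κ + 1) := by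
  funext i
  fin_cases i <;> rfl

theorem v4_uc0 : v4 a' κ' a κ 0 = a' := rfl

theorem v4_uc1 : v4 a' κ' a κ 1 = κ' := rfl

theorem v4_uc2 : v4 a' κ' a κ 2 = a := rfl

theorem v4_uc3 : v4 a' κ' a κ 3 = κ := rfl

end vertexctx

section closed2

variable {M : TM} {nt : ℕ} {e : Th ≃ Fin nt} {r m K n : ℕ} {tab : Th → ℕ → ℕ → Prop}
  {D : PF M nt → (PQ r → ℕ) → Prop} (hD : Closed M e r K m n tab D)

include hD

theorem Closed.pt_row (hK : nt * (K + 1) ^ 2 ≤ m) (θ : Fin nt) (κ : ℕ) (hκ : κ ≤ K)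
    (h : D (.pt θ) (ctx (fun _ => 0) (fun _ => 0) (v4 0 0 0 κ) (idx K θ κ 0))) (κ' : ℕ)
    (hκ' : κ' ≤ K) :
    D (.pt θ) (ctx (fun _ => 0) (fun _ => 0) (v4 0 κ' 0 κ) (idx K θ κ κ')) := by
  have hnt : 0 < nt := lt_of_le_of_lt (Nat.zero_le _) θ.2
  have hKm : K < m := by nlinarith
  have hm : 0 < m := by omega
  induction κ' with
  | zero => exact h
  | succ κ' ih =>
    have h1 := ih (by omega)
    have h2 : idx K θ κ κ' < m := lt_of_lt_of_le (idx_lt θ.2 hκ (by omega)) hK
    refine hD.rule1 (.w2 θ) (ctx_lt (fun _ => hm) (fun _ => hm)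
      (v4_lt hm (by omega) hm (by omega)) h2) ?_ h1
      (ctx_maps ev_ids ev_ids v4_at1 (by simp only [LM.eval, idx]; ring))
    rintro q rfl
    rw [ft_kc_zero, ctx_uc, v4_uc1]
    omega

theorem Closed.pt_all (hK : nt * (K + 1) ^ 2 ≤ m) (θ : Fin nt) (κ κ' : ℕ) (hκ : κ ≤ K)
    (hκ' : κ' ≤ K) :
    D (.pt θ) (ctx (fun _ => 0) (fun _ => 0) (v4 0 κ' 0 κ) (idx K θ κ κ')) := by
  have hnt : 0 < nt := lt_of_le_of_lt (Nat.zero_le _) θ.2
  have hKm : K < m := by nlinarith
  have hm : 0 < m := by omega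
  -- one table index
  have step1 : ∀ θ : Fin nt,
      D (.pt θ) (ctx (fun _ => 0) (fun _ => 0) (v4 0 0 0 0) (idx K θ 0 0)) →
      ∀ κ ≤ K, D (.pt θ) (ctx (fun _ => 0) (fun _ => 0) (v4 0 0 0 κ) (idx K θ κ 0)) := by
    intro θ h κ hκ
    induction κ with
    | zero => exact h
    | succ κ ih =>
      have h1 := hD.pt_row hK θ κ (by omega) (ih (by omega)) K le_rfl
      have h2 : idx K θ κ K < m := lt_of_lt_of_le (idx_lt θ.2 (by omega) le_rfl) hK
      refine hD.rule1 (.w3 θ) (ctx_lt (fun _ => hm) (fun _ => hm)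
        (v4_lt hm hKm hm (by omega)) h2) ?_ h1
        (ctx_maps ev_ids ev_ids v4_w3 (by simp only [LM.eval, idx]; ring))
      intro q
      constructor
      · rintro rfl
        rw [ft_kc_one, ctx_uc, v4_uc1]
      · rintro rfl
        rw [ft_kc_zero, ctx_uc, v4_uc3]
        omega
  have step2 : ∀ n (hn : n < nt), D (.pt ⟨n, hn⟩)
      (ctx (fun _ => 0) (fun _ => 0) (v4 0 0 0 0) (idx K n 0 0)) := by
    intro n
    induction n with
    | zero =>
      intro hn
      refine hD.rule1 (.w1 ⟨0, hn⟩ rfl) (a := fun _ => 0) (fun _ => hm) (fun _ => trivial)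
        hD.ini ?_
      rw [v4_zero, show idx K 0 0 0 = 0 by simp [idx], ctx_zero]
      rfl
    | succ n ih =>
      intro hn
      have h0 := ih (by omega)
      have h1 := hD.pt_row hK ⟨n, by omega⟩ K le_rfl (step1 _ h0 K le_rfl) K le_rfl
      have h2 : idx K n K K < m :=
        lt_of_lt_of_le (idx_lt (show n < nt by omega) le_rfl le_rfl) hK
      refine hD.rule1 (.w4 ⟨n, by omega⟩ ⟨n + 1, hn⟩ rfl)
        (ctx_lt (fun _ => hm) (fun _ => hm) (v4_lt hm hKm hm hKm) h2) ?_ h1
        (ctx_maps ev_ids ev_ids v4_w4 (by simp only [LM.eval, idx]; ring))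
      intro q
      constructor
      · rintro rfl
        rw [ft_kc_one, ctx_uc, v4_uc1]
      · rintro rfl
        rw [ft_kc_one, ctx_uc, v4_uc3]
  exact hD.pt_row hK θ κ hκ (step1 θ (step2 θ θ.2) κ hκ) κ' hκ'

theorem Closed.qt_base (hK : nt * (K + 1) ^ 2 ≤ m) (θ : Fin nt) (κ κ' : ℕ) (hκ : κ < m)
    (hκ' : κ' < m) :
    D (.qt θ 2) (ctx (fun _ => 0) (fun _ => 0) (v4 0 κ' 0 κ)
      (idx K θ (min κ K) (min κ' K))) := by
  have hnt : 0 < nt := lt_of_le_of_lt (Nat.zero_le _) θ.2
  have hKm : K < m := by nlinarith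
  have hm : 0 < m := by omega
  have hz : ∀ x y, idx K θ (min x K) (min y K) < m := fun x y =>
    lt_of_lt_of_le (idx_lt θ.2 (min_le_right _ _) (min_le_right _ _)) hK
  -- both small
  have h1 : ∀ x y, x ≤ K → y ≤ K → D (.qt θ 2)
      (ctx (fun _ => 0) (fun _ => 0) (v4 0 y 0 x) (idx K θ (min x K) (min y K))) := by
    intro x y hx hy
    rw [min_eq_left hx, min_eq_left hy]
    have h := hD.pt_all hK θ x y hx hy
    exact hD.rule1 (.w5 θ) (ctx_lt (fun _ => hm) (fun _ => hm) (v4_lt hm (by omega) hm (by omega))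
      (lt_of_lt_of_le (idx_lt θ.2 hx hy) hK)) (fun _ => trivial) h ctx_ids
  -- first coordinate small
  have h2 : ∀ x y, x ≤ K → y < m → D (.qt θ 2)
      (ctx (fun _ => 0) (fun _ => 0) (v4 0 y 0 x) (idx K θ (min x K) (min y K))) := by
    intro x y hx hy
    induction y with
    | zero => exact h1 x 0 hx (Nat.zero_le _)
    | succ y ih =>
      by_cases hyK : y + 1 ≤ K
      · exact h1 x _ hx hyK
      · have h := ih (by omega)
        refine hD.rule1 (.w6 θ) (ctx_lt (fun _ => hm) (fun _ => hm)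
          (v4_lt hm (by omega) hm (by omega)) (hz x y)) ?_ h
          (ctx_maps ev_ids ev_ids v4_at1 ?_)
        · rintro q rfl
          rw [Ne, ft_kc_zero, ctx_uc, v4_uc1]
          omega
        · rw [min_eq_right (show K ≤ y by omega), min_eq_right (show K ≤ y + 1 by omega)]
          rfl
  induction κ with
  | zero => exact h2 0 κ' (Nat.zero_le _) hκ'
  | succ x ih =>
    by_cases hxK : x + 1 ≤ K
    · exact h2 _ _ hxK hκ'
    · have h := ih (by omega)
      refine hD.rule1 (.w7 θ) (ctx_lt (fun _ => hm) (fun _ => hm)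
        (v4_lt hm (by omega) hm (by omega)) (hz x κ')) ?_ h (ctx_maps ev_ids ev_ids v4_at3 ?_)
      · rintro q rfl
        rw [Ne, ft_kc_zero, ctx_uc, v4_uc3]
        omega
      · rw [min_eq_right (show K ≤ x by omega), min_eq_right (show K ≤ x + 1 by omega)]
        rfl

theorem Closed.qt_rel (hK : nt * (K + 1) ^ 2 ≤ m) (θ : Fin nt) (κ κ' a a' : ℕ) (hκ : κ < m)
    (hκ' : κ' < m) (ha : a < m) (ha' : a' < m) :
    D (.qt θ (rel a a')) (ctx (fun _ => 0) (fun _ => 0) (v4 a' κ' a κ)
      (idx K θ (min κ K) (min κ' K))) := by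
  have hm : 0 < m := by omega
  have hz : idx K θ (min κ K) (min κ' K) < m :=
    lt_of_lt_of_le (idx_lt θ.2 (min_le_right _ _) (min_le_right _ _)) hK
  have hdiag : ∀ x, x < m → D (.qt θ 2)
      (ctx (fun _ => 0) (fun _ => 0) (v4 x κ' x κ) (idx K θ (min κ K) (min κ' K))) := by
    intro x hx
    induction x with
    | zero => exact hD.qt_base hK θ κ κ' hκ hκ'
    | succ x ih =>
      exact hD.rule1 (.v1 θ) (ctx_lt (fun _ => hm) (fun _ => hm)
        (v4_lt (by omega) hκ' (by omega) hκ) hz)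
        (fun _ => trivial) (ih (by omega)) (ctx_maps ev_ids ev_ids v4_v1 rfl)
  rcases lt_trichotomy a a' with hlt | heq | hgt
  · have h3 : D (.qt θ 3) (ctx (fun _ => 0) (fun _ => 0) (v4 (a + 1) κ' a κ)
        (idx K θ (min κ K) (min κ' K))) :=
      hD.rule1 (.v2 θ) (ctx_lt (fun _ => hm) (fun _ => hm)
        (v4_lt (by omega) hκ' (by omega) hκ) hz)
        (fun _ => trivial) (hdiag a ha) (ctx_maps ev_ids ev_ids v4_at0 rfl)
    by_cases h1 : a' = a + 1
    · have : rel a a' = 3 := by simp [rel, h1]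
      rw [this, h1]
      exact h3
    · have h4 : ∀ n, a + 2 + n < m → D (.qt θ 4) (ctx (fun _ => 0) (fun _ => 0)
          (v4 (a + 2 + n) κ' a κ) (idx K θ (min κ K) (min κ' K))) := by
        intro n hn
        induction n with
        | zero =>
          exact hD.rule1 (.v3 θ) (ctx_lt (fun _ => hm) (fun _ => hm)
            (v4_lt (by omega) hκ' (by omega) hκ) hz)
            (fun _ => trivial) h3 (ctx_maps ev_ids ev_ids v4_at0 rfl)
        | succ n ih =>
          exact hD.rule1 (.v4 θ) (ctx_lt (fun _ => hm) (fun _ => hm)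
            (v4_lt (by omega) hκ' (by omega) hκ) hz)
            (fun _ => trivial) (ih (by omega)) (ctx_maps ev_ids ev_ids v4_at0 rfl)
      have : rel a a' = 4 := by
        simp only [rel]
        rw [if_neg (by omega), if_neg h1, if_neg (by omega), if_pos hlt]
      rw [this]
      have h5 := h4 (a' - (a + 2)) (by omega)
      rwa [show a + 2 + (a' - (a + 2)) = a' by omega] at h5
  · subst heq
    have : rel a a = 2 := by simp [rel]
    rw [this]
    exact hdiag a ha
  · have h3 : D (.qt θ 1) (ctx (fun _ => 0) (fun _ => 0) (v4 a' κ' (a' + 1) κ)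
        (idx K θ (min κ K) (min κ' K))) :=
      hD.rule1 (.v5 θ) (ctx_lt (fun _ => hm) (fun _ => hm)
        (v4_lt (by omega) hκ' (by omega) hκ) hz)
        (fun _ => trivial) (hdiag a' ha') (ctx_maps ev_ids ev_ids v4_at2 rfl)
    by_cases h1 : a = a' + 1
    · have : rel a a' = 1 := by
        simp only [rel]
        rw [if_neg (by omega), if_neg (by omega), if_pos h1]
      rw [this, h1]
      exact h3
    · have h4 : ∀ n, a' + 2 + n < m → D (.qt θ 0) (ctx (fun _ => 0) (fun _ => 0)
          (v4 a' κ' (a' + 2 + n) κ) (idx K θ (min κ K) (min κ' K))) := by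
        intro n hn
        induction n with
        | zero =>
          exact hD.rule1 (.v6 θ) (ctx_lt (fun _ => hm) (fun _ => hm)
            (v4_lt (by omega) hκ' (by omega) hκ) hz)
            (fun _ => trivial) h3 (ctx_maps ev_ids ev_ids v4_at2 rfl)
        | succ n ih =>
          exact hD.rule1 (.v7 θ) (ctx_lt (fun _ => hm) (fun _ => hm)
            (v4_lt (by omega) hκ' (by omega) hκ) hz)
            (fun _ => trivial) (ih (by omega)) (ctx_maps ev_ids ev_ids v4_at2 rfl)
      have : rel a a' = 0 := by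
        simp only [rel]
        rw [if_neg (by omega), if_neg (by omega), if_neg h1, if_neg (by omega)]
      rw [this]
      have h5 := h4 (a - (a' + 2)) (by omega)
      rwa [show a' + 2 + (a - (a' + 2)) = a by omega] at h5

theorem Closed.qt_all (hK : nt * (K + 1) ^ 2 ≤ m) (θ : Fin nt) (κ κ' a a' : ℕ) (hκ : κ < m)
    (hκ' : κ' < m) (ha : a < m) (ha' : a' < m) (d : Fin (r + 6) → ℕ) (hd : ∀ i, d i < m) :
    D (.qt θ (rel a a')) (ctx (fun _ => 0) d (v4 a' κ' a κ)
      (idx K θ (min κ K) (min κ' K))) := by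
  have hm : 0 < m := by omega
  have hz : idx K θ (min κ K) (min κ' K) < m :=
    lt_of_lt_of_le (idx_lt θ.2 (min_le_right _ _) (min_le_right _ _)) hK
  refine incr_closure (m := m) (fun d => D (.qt θ (rel a a')) (ctx (fun _ => 0) d (v4 a' κ' a κ)
      (idx K θ (min κ K) (min κ' K)))) ?_ ?_ d hd
  · exact hD.qt_rel hK θ κ κ' a a' hκ hκ' ha ha'
  · intro d i hd h
    exact hD.rule1 (.q1 θ _ i) (ctx_lt (fun _ => hm) hd (v4_lt ha' hκ' ha hκ) hz)
      (fun _ => trivial) h (ctx_maps ev_ids ev_at1 ev_ids rfl)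

end closed2

section arith

theorem succ_mod_div {m v : ℕ} (h : v % m + 1 < m) :
    (v + 1) % m = v % m + 1 ∧ (v + 1) / m = v / m := by
  have hm : 0 < m := by omega
  have h1 := Nat.mod_add_div v m
  have h2 := (Nat.div_mod_unique (a := v + 1) (b := m) (c := v % m + 1) (d := v / m) hm).2
    ⟨by omega, h⟩
  exact ⟨h2.2, h2.1⟩

theorem succ_mod_div' {m v : ℕ} (hm : 0 < m) (h : v % m + 1 = m) :
    (v + 1) % m = 0 ∧ (v + 1) / m = v / m + 1 := by
  have h1 := Nat.mod_add_div v m
  have h2 := (Nat.div_mod_unique (a := v + 1) (b := m) (c := 0) (d := v / m + 1) hm).2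
    ⟨by rw [Nat.mul_add, Nat.mul_one]; omega, hm⟩
  exact ⟨h2.2, h2.1⟩

theorem div_mod_le {m n u : ℕ} (hu : u < n) :
    u / m < (n - 1) / m ∨ (u / m = (n - 1) / m ∧ u % m ≤ (n - 1) % m) := by
  have h1 : u / m ≤ (n - 1) / m := Nat.div_le_div_right (by omega)
  rcases h1.lt_or_eq with h | h
  · exact Or.inl h
  · refine Or.inr ⟨h, ?_⟩
    have h2 := Nat.mod_add_div u m
    have h3 := Nat.mod_add_div (n - 1) m
    rw [h] at h2
    omega

theorem div_lt_of {m n u : ℕ} (hm : 0 < m) (hnm : n ≤ m * m) (hu : u < n) : u / m < m :=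
  (Nat.div_lt_iff_lt_mul hm).2 (by omega)

end arith

/-- The vertex coordinates of the pair of row vertex `u` and column vertex `v`. -/
def vv (m u v : ℕ) : Fin 4 → ℕ := v4 (v % m) (v / m) (u % m) (u / m)

theorem vv_lt {m n u v : ℕ} (hm : 0 < m) (hnm : n ≤ m * m) (hu : u < n) (hv : v < n)
    (i : Fin 4) : vv m u v i < m :=
  v4_lt (Nat.mod_lt _ hm) (div_lt_of hm hnm hv) (Nat.mod_lt _ hm) (div_lt_of hm hnm hu) i

section dw

variable {M : TM} {nt : ℕ} {e : Th ≃ Fin nt} {r m K n : ℕ} {tab : Th → ℕ → ℕ → Prop}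

theorem cond_P {t : Fin r → ℕ} {f : Fin (r + 6) → ℕ} {u : Fin 4 → ℕ} {z : ℕ} {i : Fin (r + 6)}
    (h : ∀ i' < i, f i' + 1 = m) (q : PQ r) :
    condP i q (ftOf e K m n tab (ctx t f u z q)) := by
  rintro i' rfl hi
  rw [ctx_pc]
  exact h i' hi

theorem cond_T {t : Fin r → ℕ} {f : Fin (r + 6) → ℕ} {u : Fin 4 → ℕ} {z : ℕ} {i : Fin r}
    (h : ∀ i' < i, t i' + 1 = m) (q : PQ r) :
    condT i q (ftOf e K m n tab (ctx t f u z q)) := by
  rintro i' rfl hi
  exact h i' hi

theorem cond_lastV {t : Fin r → ℕ} {f : Fin (r + 6) → ℕ} {z u v : ℕ} (hv : v = n - 1)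
    (q : PQ r) : lastV q (ftOf e K m n tab (ctx t f (vv m u v) z q)) := by
  constructor
  · rintro rfl
    rw [ft_ck_one, ctx_uc, vv, v4_uc1, hv]
  · rintro rfl
    rw [ft_ca_one, ctx_uc, vv, v4_uc0, hv]

theorem cond_lastU {t : Fin r → ℕ} {f : Fin (r + 6) → ℕ} {z u v : ℕ} (hu : u = n - 1)
    (q : PQ r) : lastU q (ftOf e K m n tab (ctx t f (vv m u v) z q)) := by
  constructor
  · rintro rfl
    rw [ft_ck_one, ctx_uc, vv, v4_uc3, hu]
  · rintro rfl
    rw [ft_ca_one, ctx_uc, vv, v4_uc2, hu]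

theorem cond_okV {t : Fin r → ℕ} {f : Fin (r + 6) → ℕ} {z u v : ℕ} (hv : v < n) :
    ∃ b, ∀ q : PQ r, okV b q (ftOf e K m n tab (ctx t f (vv m u v) z q)) := by
  rcases div_mod_le (m := m) hv with h | ⟨h1, h2⟩
  · refine ⟨true, fun q => ?_⟩
    simp only [okV, if_true]
    rintro rfl
    rw [ft_ck_zero, ctx_uc, vv, v4_uc1]
    exact h
  · refine ⟨false, fun q => ?_⟩
    simp only [okV, Bool.false_eq_true, if_false]
    constructor
    · rintro rfl
      rw [ft_ck_one, ctx_uc, vv, v4_uc1]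
      exact h1
    · rintro rfl
      rw [Ne, ft_ca_two, ctx_uc, vv, v4_uc0]
      omega

theorem cond_okU {t : Fin r → ℕ} {f : Fin (r + 6) → ℕ} {z u v : ℕ} (hu : u < n) :
    ∃ b, ∀ q : PQ r, okU b q (ftOf e K m n tab (ctx t f (vv m u v) z q)) := by
  rcases div_mod_le (m := m) hu with h | ⟨h1, h2⟩
  · refine ⟨true, fun q => ?_⟩
    simp only [okU, if_true]
    rintro rfl
    rw [ft_ck_zero, ctx_uc, vv, v4_uc3]
    exact h
  · refine ⟨false, fun q => ?_⟩
    simp only [okU, Bool.false_eq_true, if_false]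
    constructor
    · rintro rfl
      rw [ft_ck_one, ctx_uc, vv, v4_uc3]
      exact h1
    · rintro rfl
      rw [Ne, ft_ca_two, ctx_uc, vv, v4_uc2]
      omega

/-- The facts `dw` for a matrix entry. -/
def DW (D : PF M nt → (PQ r → ℕ) → Prop) (m n : ℕ) (b : Bool) (u v : ℕ) : Prop :=
  ∀ d : Fin (r + 6) → ℕ, (∀ i, d i < m) → num m d = m ^ (r + 5) + cell n b u v →
    D (.dw b) (ctx (fun _ => 0) d (vv m u v) 0)

theorem val_top : ((top : Fin (r + 6)) : ℕ) = r + 5 := rfl

theorem num_top : num m (fun i : Fin (r + 6) => if i = top then 1 else 0) = m ^ (r + 5) := by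
  rw [num_single, val_top, one_mul]

theorem eq_top (hm : 2 ≤ m) {d : Fin (r + 6) → ℕ} (hd : ∀ i, d i < m)
    (h : num m d = m ^ (r + 5)) : d = fun i => if i = top then 1 else 0 := by
  rw [← num_top] at h
  exact num_inj _ _ hd (fun i => by split_ifs <;> omega) h

theorem top_zero {d : Fin (r + 6) → ℕ} (h : num m d < m ^ (r + 5)) : d top = 0 := by
  have h1 : d top * m ^ (r + 5) ≤ num m d := by
    have := Finset.single_le_sum (f := fun i : Fin (r + 6) => d i * m ^ (i : ℕ))
      (fun i _ => Nat.zero_le _) (Finset.mem_univ top)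
    exact this
  by_contra hne
  have h2 : 1 ≤ d top := Nat.one_le_iff_ne_zero.2 hne
  nlinarith

theorem DW.inc {D : PF M nt → (PQ r → ℕ) → Prop} (hm : 0 < m) {b b' : Bool} {u v u' v' : ℕ}
    (hx : cell n b' u' v' = cell n b u v + 1) (h : DW D m n b u v)
    (hrule : ∀ (i : Fin (r + 6)) (f : Fin (r + 6) → ℕ), (∀ j, f j < m) →
      (∀ i' < i, f i' + 1 = m) → D (.dw b) (ctx (fun _ => 0) f (vv m u v) 0) →
      D (.dw b') (ctx (fun _ => 0) (carry i f) (vv m u' v') 0)) : DW D m n b' u' v' := by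
  intro d hd hnum
  obtain ⟨i, f, hf, hi, rfl⟩ := exists_pred hm d hd (by omega)
  rw [num_carry i f hi] at hnum
  exact hrule i f hf hi (h f hf (by omega))

variable {D : PF M nt → (PQ r → ℕ) → Prop} (hD : Closed M e r K m n tab D)

include hD

theorem Closed.dw_zero (hm : 2 ≤ m) : DW D m n false 0 0 := by
  have hm0 : 0 < m := by omega
  intro d hd hnum
  have h1 : num m d = m ^ (r + 5) := by simpa [cell] using hnum
  have h2 := eq_top hm hd h1
  refine hD.rule1 .d0 (a := ctx (fun _ => 0) (fun _ => 0) u0 0)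
    (ctx_lt (fun _ => hm0) (fun _ => hm0) (fun _ => hm0) hm0) (fun _ => trivial)
    (by rw [ctx_zero]; exact hD.ini) (ctx_maps ev_ids ?_ ?_ rfl)
  · rw [ev_at1, h2]
    funext i
    by_cases hi : i = top
    · subst hi; simp
    · simp [hi]
  · simp [ev_ids, vv, v4_zero]

theorem Closed.dw_succ (hm : 0 < m) (hnm : n ≤ m * m) {b : Bool} {u v : ℕ} (hu : u < n)
    (hv : v + 1 < n) (h : DW D m n b u v) : DW D m n b u (v + 1) := by
  refine h.inc hm (by simp only [cell]; omega) fun i f hf hi hd => ?_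
  have hlt := ctx_lt (t := fun _ : Fin r => 0) (fun _ => hm) hf
    (vv_lt hm hnm hu (by omega : v < n)) hm
  have hmod := Nat.mod_lt v hm
  by_cases h1 : v % m + 1 < m
  · obtain ⟨h2, h3⟩ := succ_mod_div h1
    refine hD.rule1 (.d1 b i) hlt (cond_P hi) hd (ctx_maps ev_ids ev_cry ?_ rfl)
    rw [vv, v4_at0, vv, h2, h3]
  · obtain ⟨h2, h3⟩ := succ_mod_div' hm (by omega : v % m + 1 = m)
    refine hD.rule1 (.d2 b i) hlt (fun q => ⟨cond_P hi q, ?_⟩) hd (ctx_maps ev_ids ev_cry ?_ rfl)
    · rintro rfl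
      rw [ft_hi, ctx_uc, vv, v4_uc0]
      omega
    · rw [vv, v4_d2, vv, h2, h3]

theorem Closed.dw_row (hm : 0 < m) (hnm : n ≤ m * m) {b : Bool} {u : ℕ} (hu : u < n)
    (h : DW D m n b u 0) (v : ℕ) (hv : v < n) : DW D m n b u v := by
  induction v with
  | zero => exact h
  | succ v ih => exact hD.dw_succ hm hnm hu hv (ih (by omega))

theorem Closed.dw_next (hm : 0 < m) (hnm : n ≤ m * m) {b : Bool} {u : ℕ} (hu : u + 1 < n)
    (h : DW D m n b u (n - 1)) : DW D m n b (u + 1) 0 := by
  have hcell : cell n b (u + 1) 0 = cell n b u (n - 1) + 1 := by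
    obtain ⟨n', rfl⟩ : ∃ n', n = n' + 1 := ⟨n - 1, by omega⟩
    simp only [cell, Nat.add_sub_cancel]
    ring
  refine h.inc hm hcell fun i f hf hi hd => ?_
  have hlt := ctx_lt (t := fun _ : Fin r => 0) (fun _ => hm) hf
    (vv_lt hm hnm (by omega : u < n) (by omega : n - 1 < n)) hm
  have hmod := Nat.mod_lt u hm
  by_cases h1 : u % m + 1 < m
  · obtain ⟨h2, h3⟩ := succ_mod_div h1
    refine hD.rule1 (.d3 b i) hlt (fun q => ⟨cond_P hi q, cond_lastV rfl q⟩) hd
      (ctx_maps ev_ids ev_cry ?_ rfl)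
    rw [vv, v4_d3, vv, h2, h3, Nat.zero_mod, Nat.zero_div]
  · obtain ⟨h2, h3⟩ := succ_mod_div' hm (by omega : u % m + 1 = m)
    refine hD.rule1 (.d4 b i) hlt (fun q => ⟨cond_P hi q, cond_lastV rfl q, ?_⟩) hd
      (ctx_maps ev_ids ev_cry ?_ rfl)
    · rintro rfl
      rw [ft_hi, ctx_uc, vv, v4_uc2]
      omega
    · rw [vv, v4_d4, vv, h2, h3, Nat.zero_mod, Nat.zero_div]

theorem Closed.dw_block (hm : 0 < m) (hnm : n ≤ m * m) {b : Bool} (h : DW D m n b 0 0)
    (u v : ℕ) (hu : u < n) (hv : v < n) : DW D m n b u v := by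
  refine hD.dw_row hm hnm hu ?_ v hv
  clear hv
  induction u with
  | zero => exact h
  | succ u ih =>
    exact hD.dw_next hm hnm hu
      (hD.dw_row hm hnm (by omega) (ih (by omega)) (n - 1) (by omega))

theorem Closed.dw_true (hm : 2 ≤ m) (hn : 0 < n) (hnm : n ≤ m * m) : DW D m n true 0 0 := by
  have hm0 : 0 < m := by omega
  have h := hD.dw_block hm0 hnm (hD.dw_zero hm) (n - 1) (n - 1) (by omega) (by omega)
  have hcell : cell n true 0 0 = cell n false (n - 1) (n - 1) + 1 := by
    obtain ⟨n', rfl⟩ : ∃ n', n = n' + 1 := ⟨n - 1, by omega⟩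
    simp only [cell, Nat.add_sub_cancel, if_true, Bool.false_eq_true, if_false]
    ring
  refine h.inc hm0 hcell fun i f hf hi hd => ?_
  have hlt := ctx_lt (t := fun _ : Fin r => 0) (fun _ => hm0) hf
    (vv_lt hm0 hnm (by omega : n - 1 < n) (by omega : n - 1 < n)) hm0
  refine hD.rule1 (.d5 i) hlt (fun q => ⟨cond_P hi q, cond_lastU rfl q, cond_lastV rfl q⟩) hd
    (ctx_maps ev_ids ev_cry ?_ rfl)
  rw [ev_zero]
  simp only [vv, Nat.zero_mod, Nat.zero_div, v4_zero]
  rfl

/-- All `dw` facts. -/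
theorem Closed.dw_all (hm : 2 ≤ m) (hnm : n ≤ m * m) (b : Bool) {u v : ℕ}
    (hu : u < n) (hv : v < n) {d : Fin (r + 6) → ℕ} (hd : ∀ i, d i < m)
    (hnum : num m d = m ^ (r + 5) + cell n b u v) {z : ℕ} (hz : z < m) :
    D (.dw b) (ctx (fun _ => 0) d (vv m u v) z) := by
  have hm0 : 0 < m := by omega
  have hn : 0 < n := by omega
  have h0 : DW D m n b u v := by
    cases b with
    | false => exact hD.dw_block hm0 hnm (hD.dw_zero hm) u v hu hv
    | true => exact hD.dw_block hm0 hnm (hD.dw_true hm hn hnm) u v hu hv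
  induction z with
  | zero => exact h0 d hd hnum
  | succ z ih =>
    exact hD.rule1 (.d6 b) (ctx_lt (fun _ => hm0) hd (vv_lt hm0 hnm hu hv) (by omega))
      (fun _ => trivial) (ih (by omega)) (ctx_maps ev_ids ev_ids ev_ids rfl)

/-- All `ew` facts. -/
theorem Closed.ew_all (hm : 2 ≤ m) (hn : 0 < n) (hnm : n ≤ m * m) (k : ℕ)
    {d : Fin (r + 6) → ℕ} (hd : ∀ i, d i < m)
    (hnum : num m d = m ^ (r + 5) + 2 * (n * n) + k) :
    D .ew (ctx (fun _ => 0) d u0 0) := by
  have hm0 : 0 < m := by omega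
  have hnn : 0 < n * n := Nat.mul_pos hn hn
  induction k generalizing d with
  | zero =>
    obtain ⟨i, f, hf, hi, rfl⟩ := exists_pred hm0 d hd (by omega)
    rw [num_carry i f hi] at hnum
    have hcell : cell n true (n - 1) (n - 1) + 1 = 2 * (n * n) := by
      obtain ⟨n', rfl⟩ : ∃ n', n = n' + 1 := ⟨n - 1, by omega⟩
      simp only [cell, Nat.add_sub_cancel, if_true]
      ring
    have h := hD.dw_all hm hnm true (by omega : n - 1 < n) (by omega : n - 1 < n) hf
      (by omega) hm0
    refine hD.rule1 (.e1 i) (ctx_lt (fun _ => hm0) hf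
      (vv_lt hm0 hnm (by omega : n - 1 < n) (by omega : n - 1 < n)) hm0)
      (fun q => ⟨cond_P hi q, cond_lastU rfl q, cond_lastV rfl q⟩) h
      (ctx_maps ev_ids ev_cry ?_ rfl)
    rw [ev_zero]
    rfl
  | succ k ih =>
    obtain ⟨i, f, hf, hi, rfl⟩ := exists_pred hm0 d hd (by omega)
    rw [num_carry i f hi] at hnum
    exact hD.rule1 (.e2 i) (ctx_lt (fun _ => hm0) hf (fun _ => hm0) hm0) (cond_P hi)
      (ih hf (by omega)) (ctx_maps ev_ids ev_cry ev_ids rfl)

theorem Closed.init_sym {G : Bool → SimpleGraph (Fin n)} (hm : 2 ≤ m) (hn : 0 < n)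
    (hnm : n ≤ m * m) (hK : nt * (K + 1) ^ 2 ≤ m) (hG : TabOk e K m tab G)
    (j : Fin (M.aux + 1)) (d : Fin (r + 6) → ℕ) (hd : ∀ i, d i < m) :
    D (.sym false j ((M.init (inputWord (G false) (G true))).tape j
      ((num m d : ℤ) - off m r))) (ctx (fun _ => 0) d u0 0) := by
  classical
  have hm0 : 0 < m := by omega
  have hall := hD.all hm0 d hd
  have hlt := ctx_lt (t := fun _ : Fin r => 0) (u := u0) (fun _ => hm0) hd (fun _ => hm0) hm0
  by_cases hj : j = 0
  · subst hj
    by_cases hlo : num m d < m ^ (r + 5)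
    · rw [init_tape_neg (by
        have : ((num m d : ℕ) : ℤ) < ((m ^ (r + 5) : ℕ) : ℤ) := by exact_mod_cast hlo
        unfold off; omega)]
      refine hD.rule1 .i7 hlt ?_ hall ctx_ids
      rintro q rfl
      rw [ft_lo_zero, ctx_pc]
      exact top_zero hlo
    · rw [not_lt] at hlo
      obtain ⟨x, hx⟩ := Nat.exists_eq_add_of_le hlo
      have hx' : (num m d : ℤ) - off m r = (x : ℤ) := by
        unfold off
        rw [hx]
        push_cast
        ring
      rw [hx']
      by_cases hbig : 2 * (n * n) ≤ x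
      · rw [init_tape_big hbig]
        obtain ⟨k, hk⟩ := Nat.exists_eq_add_of_le hbig
        exact hD.rule1 .e3 hlt (fun _ => trivial)
          (hD.ew_all hm hn hnm k hd (by omega)) ctx_ids
      · obtain ⟨b, u, v, hu, hv, rfl⟩ := exists_cell (not_le.1 hbig)
        rw [init_tape_cell hG b hu hv]
        set θ : Th := (b, rel (u % m) (v % m), ftOf e K m n tab (u % m),
          ftOf e K m n tab (v % m)) with hθ
        set c : Bool := decide (tab θ (min (u / m) K) (min (v / m) K)) with hc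
        have hz : idx K (e θ) (min (u / m) K) (min (v / m) K) < m :=
          lt_of_lt_of_le (idx_lt (e θ).2 (min_le_right _ _) (min_le_right _ _)) hK
        have hq := hD.qt_all hK (e θ) (u / m) (v / m) (u % m) (v % m)
          (div_lt_of hm0 hnm hu) (div_lt_of hm0 hnm hv) (Nat.mod_lt _ hm0) (Nat.mod_lt _ hm0)
          d hd
        have hw := hD.dw_all hm hnm b hu hv hd hx hz
        obtain ⟨bu, hbu⟩ := cond_okU (e := e) (K := K) (m := m) (tab := tab)
          (t := fun _ : Fin r => 0) (f := d)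
          (z := idx K (e θ) (min (u / m) K) (min (v / m) K)) (v := v) hu
        obtain ⟨bv, hbv⟩ := cond_okV (e := e) (K := K) (m := m) (tab := tab)
          (t := fun _ : Fin r => 0) (f := d)
          (z := idx K (e θ) (min (u / m) K) (min (v / m) K)) (u := u) hv
        refine hD.rule2 (.i8 θ c bu bv) (ctx_lt (fun _ => hm0) hd (vv_lt hm0 hnm hu hv) hz)
          ?_ hw ctx_ids hq (ctx_maps ev_ids ev_ids ev_zero rfl)
        intro q
        refine ⟨⟨?_, ?_⟩, ?_, hbu q, hbv q⟩
        · rintro rfl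
          rw [ctx_uc, vv, v4_uc2]
        · rintro rfl
          rw [ctx_uc, vv, v4_uc0]
        · rintro rfl
          rw [ctx_zc, ft_w, WOf_idx (min_le_right _ _) (min_le_right _ _), hc,
            decide_eq_true_iff]
  · rw [init_tape_ne hj]
    exact hD.rule1 (.i6 j hj) hlt (fun _ => trivial) hall ctx_ids

end dw

section sim

variable {M : TM} {nt : ℕ} {e : Th ≃ Fin nt} {r m K n : ℕ} {tab : Th → ℕ → ℕ → Prop}
  {D : PF M nt → (PQ r → ℕ) → Prop}

/-- The facts about a configuration, with margin `s`. -/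
structure Sim (D : PF M nt → (PQ r → ℕ) → Prop) (m : ℕ) (pr : Bool) (t : Fin r → ℕ) (s : ℕ)
    (c : M.Cfg) : Prop where
  sym : ∀ j (d : Fin (r + 6) → ℕ), (∀ i, d i < m) → s ≤ num m d → num m d + s < m ^ (r + 6) →
    D (.sym pr j (c.tape j ((num m d : ℤ) - off m r))) (ctx t d u0 0)
  hd : ∀ j (d : Fin (r + 6) → ℕ), (∀ i, d i < m) → s ≤ num m d → num m d + s < m ^ (r + 6) →
    ∀ b : Bool, (b = true ↔ (num m d : ℤ) - off m r = c.head j) → D (.hd pr j b) (ctx t d u0 0)
  st : D (.st pr c.state) (ctx t (fun _ => 0) u0 0)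
  bd : ∀ j, |c.head j| ≤ s

theorem two_mul_lt (hm : 2 ≤ m) {s : ℕ} (hs : s < m ^ r) : 2 * s < m ^ (r + 5) := by
  have h1 : m * m ^ r ≤ m ^ (r + 5) := by
    rw [← pow_succ']
    exact Nat.pow_le_pow_right (by omega) (by omega)
  nlinarith

variable (hD : Closed M e r K m n tab D)

include hD

theorem Closed.gb (hm : 2 ≤ m) {t : Fin r → ℕ} (ht : ∀ i, t i < m) {s : ℕ} (hs : s < m ^ r)
    {c : M.Cfg} (hc : Sim D m false t s c) (d : Fin (r + 6) → ℕ) (hd : ∀ i, d i < m) :
    D (.gb c.state fun j => c.tape j (c.head j)) (ctx t d u0 0) := by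
  have hm0 : 0 < m := by omega
  have h2 := two_mul_lt hm hs
  have hhs : ∀ j, D (.hs j (c.tape j (c.head j))) (ctx t (fun _ => 0) u0 0) := by
    intro j
    have hb := abs_le.mp (hc.bd j)
    have hnn : 0 ≤ off m r + c.head j := by
      unfold off
      have : (2 * s : ℤ) < ((m ^ (r + 5) : ℕ) : ℤ) := by exact_mod_cast h2
      omega
    obtain ⟨N, hN⟩ := Int.eq_ofNat_of_zero_le hnn
    have hN' : ((m ^ (r + 5) : ℕ) : ℤ) + c.head j = N := hN
    have h3 : (2 * s : ℤ) < ((m ^ (r + 5) : ℕ) : ℤ) := by exact_mod_cast h2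
    have h4 : 2 * m ^ (r + 5) ≤ m ^ (r + 6) := by
      rw [show m ^ (r + 6) = m * m ^ (r + 5) by ring]
      exact Nat.mul_le_mul_right _ hm
    have h5 : N < m ^ (r + 6) := by omega
    obtain ⟨f, hf, hf'⟩ := exists_num hm0 N h5
    have e1 : (num m f : ℤ) - off m r = c.head j := by
      rw [hf']
      unfold off
      omega
    have hsym := hc.sym j f hf (by omega) (by omega)
    have hhd := hc.hd j f hf (by omega) (by omega) true (by simp [e1])
    rw [e1] at hsym
    exact hD.rule2 (.r1 j _) (ctx_lt ht hf (fun _ => hm0) hm0) (fun _ => trivial) hsym ctx_ids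
      hhd (ctx_maps ev_ids ev_zero ev_ids rfl)
  refine incr_closure (m := m)
    (fun d => D (.gb c.state fun j => c.tape j (c.head j)) (ctx t d u0 0)) ?_ ?_ d hd
  · have h := hD.step _ (Prog.r2 c.state fun j => c.tape j (c.head j))
      (ctx t (fun _ => 0) u0 0)
      (ctx_lt ht (fun _ => hm0) (fun _ => hm0) hm0) (fun _ => trivial) (by
        intro j
        refine Fin.cases ?_ (fun j => ?_) j
        · exact hc.st
        · exact hhs j)
    exact h
  · intro d i hd h
    exact hD.rule1 (.r3 _ _ i) (ctx_lt ht hd (fun _ => hm0) hm0) (fun _ => trivial) h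
      (ctx_maps ev_ids ev_at1 ev_ids rfl)

theorem Closed.sim_true (hm : 2 ≤ m) {t : Fin r → ℕ} (ht : ∀ i, t i < m) {s : ℕ}
    (hs : s < m ^ r) {c c' : M.Cfg} (hc : Sim D m false t s c) (hstep : M.step c = some c') :
    Sim D m true t (s + 1) c' := by
  have hm0 : 0 < m := by omega
  have hgb := hD.gb hm ht hs hc
  have hlt : ∀ {d : Fin (r + 6) → ℕ}, (∀ i, d i < m) → ∀ q, ctx t d u0 0 q < m :=
    fun hd => ctx_lt ht hd (fun _ => hm0) hm0
  simp only [TM.step, Option.map_eq_some_iff] at hstep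
  obtain ⟨a, ha, rfl⟩ := hstep
  refine ⟨?_, ?_, ?_, ?_⟩
  · intro j d hd h1 h2
    by_cases hx : (num m d : ℤ) - off m r = c.head j
    · have hhd := hc.hd j d hd (by omega) (by omega) true (by simp [hx])
      simp only [hx, Function.update_self]
      exact hD.rule2 (.r6 j _ _ a ha) (hlt hd) (fun _ => trivial) hhd
        ctx_ids (hgb d hd) ctx_ids
    · have hhd := hc.hd j d hd (by omega) (by omega) false (by simp [hx])
      simp only [Function.update_of_ne hx]
      exact hD.rule2 (.r5 j _) (hlt hd) (fun _ => trivial)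
        (hc.sym j d hd (by omega) (by omega)) ctx_ids hhd ctx_ids
  · intro j d hd h1 h2 b hb
    simp only at hb
    rcases hmv : (a.2 j).2 with _ | _ | _
    · -- left
      rw [hmv] at hb
      obtain ⟨i, hi, hi'⟩ := exists_succ d hd (by omega)
      have e1 := num_carry i d hi
      have hc1 : ∀ j, carry i d j < m := carry_lt i d hd hi'
      have hhd := hc.hd j (carry i d) hc1 (by omega) (by omega) b (by
        rw [hb, e1]
        simp only [Move.disp]
        push_cast
        constructor <;> intro h <;> linarith)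
      exact hD.rule2 (.r9 j b _ _ a ha hmv i) (hlt hd) (cond_P hi) hhd
        (ctx_maps ev_ids ev_cry ev_ids rfl) (hgb d hd) ctx_ids
    · -- stay
      rw [hmv] at hb
      have hhd := hc.hd j d hd (by omega) (by omega) b (by
        rw [hb]
        simp only [Move.disp, add_zero])
      exact hD.rule2 (.r7 j b _ _ a ha hmv) (hlt hd) (fun _ => trivial) hhd
        ctx_ids (hgb d hd) ctx_ids
    · -- right
      rw [hmv] at hb
      obtain ⟨i, f, hf, hi, rfl⟩ := exists_pred hm0 d hd (by omega)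
      have e1 := num_carry i f hi
      have hhd := hc.hd j f hf (by omega) (by omega) b (by
        rw [hb, e1]
        simp only [Move.disp]
        push_cast
        constructor <;> intro h <;> linarith)
      exact hD.rule2 (.r8 j b _ _ a ha hmv i) (hlt hf) (cond_P hi) hhd ctx_ids
        (hgb f hf) (ctx_maps ev_ids ev_cry ev_ids rfl)
  · exact hD.rule1 (.r4 _ _ a ha) (hlt fun _ => hm0) (fun _ => trivial)
      (hgb _ fun _ => hm0) (ctx_maps ev_ids ev_zero ev_ids rfl)
  · intro j
    have hb := hc.bd j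
    simp only
    rcases hmv : (a.2 j).2 with _ | _ | _
    all_goals
      simp only [Move.disp]
      rw [abs_le] at hb ⊢
      push_cast
      constructor <;> linarith [hb.1, hb.2]

theorem Closed.sim_next (hm : 2 ≤ m) {t : Fin r → ℕ} (ht : ∀ i, t i < m) {s : ℕ}
    {c : M.Cfg} (hc : Sim D m true t s c) (i : Fin r) (hi : ∀ i' < i, t i' + 1 = m) :
    Sim D m false (carry i t) s c := by
  have hm0 : 0 < m := by omega
  refine ⟨?_, ?_, ?_, hc.bd⟩
  · intro j d hd h1 h2
    exact hD.rule1 (.r10s j _ i) (ctx_lt ht hd (fun _ => hm0) hm0) (cond_T hi)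
      (hc.sym j d hd h1 h2) (ctx_maps ev_cry ev_ids ev_ids rfl)
  · intro j d hd h1 h2 b hb
    exact hD.rule1 (.r10h j b i) (ctx_lt ht hd (fun _ => hm0) hm0) (cond_T hi)
      (hc.hd j d hd h1 h2 b hb) (ctx_maps ev_cry ev_ids ev_ids rfl)
  · exact hD.rule1 (.r10q _ i) (ctx_lt ht (fun _ => hm0) (fun _ => hm0) hm0) (cond_T hi) hc.st
      (ctx_maps ev_cry ev_ids ev_ids rfl)

theorem Closed.fin (hm : 2 ≤ m) {t : Fin r → ℕ} (ht : ∀ i, t i < m) {s : ℕ}
    (hs : s < m ^ r) {c : M.Cfg} (hc : Sim D m false t s c) (hh : M.step c = none)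
    (ha : M.accept c.state) : D .fin fun _ => 0 := by
  have hm0 : 0 < m := by omega
  have hgb := hD.gb hm ht hs hc (fun _ => 0) (fun _ => hm0)
  simp only [TM.step, Option.map_eq_none_iff] at hh
  exact hD.rule1 (.r11 _ _ hh ha) (ctx_lt ht (fun _ => hm0) (fun _ => hm0) hm0)
    (fun _ => trivial) hgb rfl

end sim

section main

variable {M : TM} {nt : ℕ} {e : Th ≃ Fin nt} {r m K n : ℕ} {tab : Th → ℕ → ℕ → Prop}
  {G : Bool → SimpleGraph (Fin n)}
  {D : PF M nt → (PQ r → ℕ) → Prop} (hD : Closed M e r K m n tab D)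

include hD in
theorem Closed.sim_init (hm : 2 ≤ m) (hn : 0 < n) (hnm : n ≤ m * m)
    (hK : nt * (K + 1) ^ 2 ≤ m) (hG : TabOk e K m tab G) :
    Sim D m false (fun _ => 0) 0 (M.init (inputWord (G false) (G true))) := by
  have hm0 : 0 < m := by omega
  refine ⟨?_, ?_, hD.init_st hm0, ?_⟩
  · intro j d hd _ _
    exact hD.init_sym hm hn hnm hK hG j d hd
  · intro j d hd _ _ b hb
    refine hD.init_hd hm0 j d hd b ?_
    rw [hb]
    simp only [TM.init]
    constructor
    · intro h
      have h2 : num m d = m ^ (r + 5) := by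
        unfold off at h
        have : ((num m d : ℕ) : ℤ) = ((m ^ (r + 5) : ℕ) : ℤ) := by linarith
        exact_mod_cast this
      exact congrFun (eq_top hm hd h2)
    · intro h
      rw [funext h, num_top]
      unfold off
      ring
  · intro j
    simp [TM.init]

include hD in
theorem Closed.sim_all (hm : 2 ≤ m) (hn : 0 < n) (hnm : n ≤ m * m)
    (hK : nt * (K + 1) ^ 2 ≤ m) (hG : TabOk e K m tab G)
    {s : ℕ} {c : M.Cfg} (hc : M.After (inputWord (G false) (G true)) s c) (hs : s < m ^ r) :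
    ∀ t : Fin r → ℕ, (∀ i, t i < m) → num m t = s → Sim D m false t s c := by
  have hm0 : 0 < m := by omega
  induction hc with
  | zero =>
    intro t ht hts
    have : t = fun _ => 0 := num_inj _ _ ht (fun _ => hm0) (by rw [hts, num_zero])
    rw [this]
    exact hD.sim_init hm hn hnm hK hG
  | succ _ hstep ih =>
    intro t ht hts
    obtain ⟨i, f, hf, hi, rfl⟩ := exists_pred hm0 t ht (by omega)
    have e1 := num_carry i f hi
    have h1 := ih (by omega) f hf (by omega)
    exact hD.sim_next hm hf (hD.sim_true hm hf (by omega) h1 hstep) i hi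

end main

section final

variable {M : TM} {nt : ℕ} {e : Th ≃ Fin nt} {r k p K m n : ℕ} {π : Fin k → PQ r}
  {ι : Rule (PF M nt) (PQ r) (M.aux + 2) × Fin (M.aux + 2) × Fin (k + 1) → ZMod p}
  {tab : Th → ℕ → ℕ → Prop} {G : Bool → SimpleGraph (Fin n)}

theorem closed_der :
    Closed M e r K m n tab (progSys M e r K m n π ι tab).Der where
  ini := Sys.Der.ini
  step := fun ρ hρ a ha hc hb => Sys.Der.step ρ a hρ ha hc hb

/-- Completeness of the program. -/
theorem prog_complete (hm : 2 ≤ m) (hn : 0 < n) (hnm : n ≤ m * m)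
    (hK : nt * (K + 1) ^ 2 ≤ m) (hG : TabOk e K m tab G)
    {t : ℕ} (ht : t < m ^ r) {c' : M.Cfg} (h : M.After (inputWord (G false) (G true)) t c')
    (hh : M.step c' = none) (ha : M.accept c'.state) :
    (progSys M e r K m n π ι tab).Der .fin (fun _ => 0) := by
  have hD : Closed M e r K m n tab (progSys M e r K m n π ι tab).Der := closed_der
  obtain ⟨f, hf, hf'⟩ := exists_num (by omega : 0 < m) t ht
  exact hD.fin hm hf ht (hD.sim_all hm hn hnm hK hG h ht f hf hf') hh ha

end final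

end Vale.Agent.P310.V2

/-!
The lower bound: the graphs of the program that simulates a machine on its own input, for all
large numbers of vertices.
-/

namespace Vale.Agent.P310.V2

open Finset

/-! ### Determinism of the machines -/

theorem after_unique {M : TM} {w : List Bool} {t : ℕ} {c c' : M.Cfg}
    (h : M.After w t c) (h' : M.After w t c') : c = c' := by
  induction h generalizing c' with
  | zero => cases h'; rfl
  | succ h1 h2 ih =>
    cases h' with
    | succ h3 h4 =>
      have := ih h3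
      subst this
      rw [h2] at h4
      exact Option.some.inj h4

theorem after_pred {M : TM} {w : List Bool} {t t' : ℕ} (htt : t < t') {c' : M.Cfg}
    (h' : M.After w t' c') : ∃ c, M.After w t c ∧ M.step c ≠ none := by
  induction h' with
  | zero => omega
  | @succ s c1 c2 h1 h2 ih =>
    rcases Nat.lt_succ_iff_lt_or_eq.mp htt with h | h
    · exact ih h
    · subst h
      exact ⟨c1, h1, by rw [h2]; exact Option.some_ne_none _⟩

theorem halt_unique {M : TM} {w : List Bool} {t t' : ℕ} {c c' : M.Cfg}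
    (h : M.After w t c) (hc : M.step c = none) (h' : M.After w t' c') (hc' : M.step c' = none) :
    c = c' := by
  rcases lt_trichotomy t t' with hlt | rfl | hlt
  · obtain ⟨d, hd, hd'⟩ := after_pred hlt h'
    exact absurd (after_unique h hd ▸ hc) hd'
  · exact after_unique h h'
  · obtain ⟨d, hd, hd'⟩ := after_pred hlt h
    exact absurd (after_unique h' hd ▸ hc') hd'

/-! ### Parameters -/

theorem exists_twin_map (Q : Type) [Finite Q] [Nonempty Q] {k : ℕ} (hk : 2 * Nat.card Q ≤ k) :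
    ∃ π : Fin k → Q, Function.Surjective π ∧ ∀ i, ∃ i', i' ≠ i ∧ π i' = π i := by
  have hq : 0 < Nat.card Q := Nat.card_pos
  let e := Finite.equivFin Q
  refine ⟨fun i => e.symm ⟨i.val % Nat.card Q, Nat.mod_lt _ hq⟩, fun q => ?_, fun i => ?_⟩
  · refine ⟨⟨(e q).val, by have := (e q).isLt; omega⟩, ?_⟩
    simp only [Nat.mod_eq_of_lt (e q).isLt]
    exact e.symm_apply_apply q
  · rcases lt_or_ge (i.val + Nat.card Q) k with h | h
    · refine ⟨⟨i.val + Nat.card Q, h⟩, ?_, ?_⟩
      · intro h1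
        have := congrArg Fin.val h1
        simp only at this
        omega
      · simp only [Nat.add_mod_right]
    · refine ⟨⟨i.val - Nat.card Q, by have := i.isLt; omega⟩, ?_, ?_⟩
      · intro h1
        have := congrArg Fin.val h1
        simp only at this
        omega
      · have h2 : i.val = (i.val - Nat.card Q) + Nat.card Q := by omega
        have h3 : (i.val - Nat.card Q) % Nat.card Q = i.val % Nat.card Q := by
          conv_rhs => rw [h2]
          exact (Nat.add_mod_right _ _).symm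
        simp only [h3]

theorem exists_prime_injective (X : Type) [Finite X] :
    ∃ p : ℕ, p.Prime ∧ ∃ ι : X → ZMod p, Function.Injective ι := by
  obtain ⟨p, hp, hpr⟩ := Nat.exists_infinite_primes (Nat.card X)
  refine ⟨p, hpr, ?_⟩
  have : NeZero p := ⟨hpr.ne_zero⟩
  have := Fintype.ofFinite X
  have h1 : Fintype.card X ≤ Fintype.card (ZMod p) := by
    rw [ZMod.card, ← Nat.card_eq_fintype_card]
    exact hp
  obtain ⟨f⟩ := Function.Embedding.nonempty_of_card_le h1
  exact ⟨f, f.injective⟩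

theorem card_PQ (r : ℕ) : Nat.card (PQ r) = 2 * r + 11 := by
  rw [Nat.card_eq_fintype_card]
  simp only [PQ, Fintype.card_sum, Fintype.card_fin, Fintype.card_unit]
  omega

/-- The kinds form a finite type. -/
theorem finite_kind (R : Type) [Finite R] (B k' p N : ℕ) (hp : p.Prime) :
    Finite (Kind R B k' p N) := by
  have : NeZero p := ⟨hp.ne_zero⟩
  let f : Kind R B k' p N →
      (R × El p × Fin (k' + 1) × (Fin B × Fin (k' + 2) → ZMod 2)) ⊕
        ((Option (El p) × (Fin k' → ZMod 2)) ⊕ Fin N) := fun x => match x with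
    | .nrm ρ e i s => Sum.inl (ρ, e, i, s)
    | .spc ε s => Sum.inr (Sum.inl (ε, s))
    | .gad w => Sum.inr (Sum.inr w)
  refine Finite.of_injective f ?_
  intro x y h
  cases x <;> cases y <;> simp_all [f]

/-- The kind with a given number. -/
noncomputable def kd {X : Type} [Finite X] (x : ℕ) : Option X :=
  if h : x < Nat.card X then some ((Finite.equivFin X).symm ⟨x, h⟩) else none

theorem kd_min {X : Type} [Finite X] (x : ℕ) :
    (kd (min x (Nat.card X)) : Option X) = kd x := by
  unfold kd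
  rcases lt_or_ge x (Nat.card X) with h | h
  · simp only [min_eq_left h.le]
  · have h1 : ¬ min x (Nat.card X) < Nat.card X := by omega
    have h2 : ¬ x < Nat.card X := by omega
    rw [dif_neg h1, dif_neg h2]

theorem kd_eq_some {X : Type} [Finite X] (x : ℕ) (y : X) :
    kd x = some y ↔ x = (Finite.equivFin X y : ℕ) := by
  unfold kd
  constructor
  · intro h
    split_ifs at h with h1
    have h2 := Option.some.inj h
    rw [← h2]
    simp
  · rintro rfl
    rw [dif_pos (Fin.isLt _)]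
    simp

theorem kd_eq_none {X : Type} [Finite X] (x : ℕ) :
    (kd x : Option X) = none ↔ Nat.card X ≤ x := by
  unfold kd
  split_ifs with h
  · simp only [false_iff, not_le]
    exact h
  · simp only [true_iff]
    omega

/-- The vertices of the graphs are as required. -/
theorem vOk_of_large {R F Q : Type} {B k' p N n : ℕ} (S : Sys F R Q B (k' + 1) p)
    [Finite (Kind R B k' p N)] (wn : Cls R (k' + 1) p → ℕ) (hm : 0 < S.m)
    (hn : 2 * (Nat.card (Kind R B k' p N) * S.m) < n) (hwn : Function.Injective wn)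
    (hN : ∀ c, wn c + 1 < N) :
    S.VOk (U := Fin n) wn
      (fun u => (kd (u / S.m : ℕ) : Option (Kind R B k' p N))) (fun u => u % S.m) where
  ex := by
    intro x a ha
    have hx := (Finite.equivFin (Kind R B k' p N) x).isLt
    set y : ℕ := (Finite.equivFin (Kind R B k' p N) x : ℕ) with hy
    have h1 : (y + 1) * S.m ≤ Nat.card (Kind R B k' p N) * S.m := Nat.mul_le_mul_right _ hx
    have h2 : (y + 1) * S.m = y * S.m + S.m := by ring
    have h3 : (y * S.m + a) / S.m = y := by
      rw [mul_comm, Nat.mul_add_div hm, Nat.div_eq_of_lt ha, add_zero]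
    have h4 : (y * S.m + a) % S.m = a := by
      rw [mul_comm, Nat.mul_add_mod, Nat.mod_eq_of_lt ha]
    refine ⟨⟨y * S.m + a, by omega⟩, ⟨?_, h4⟩, ?_⟩
    · simp only [h3]
      rw [kd_eq_some]
    · rintro u ⟨h5, h6⟩
      rw [kd_eq_some] at h5
      refine Fin.ext ?_
      simp only at h6 ⊢
      rw [← Nat.div_add_mod (u : ℕ) S.m, h5, h6, hy, mul_comm]
  lt := fun u => Nat.mod_lt _ hm
  dummy := by
    set K := Nat.card (Kind R B k' p N) with hK
    have h2 : Nat.card {u : Fin n //
        (kd (u / S.m : ℕ) : Option (Kind R B k' p N)) = none} = n - K * S.m := by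
      have h1 : Nat.card {u : Fin n // ¬ (u : ℕ) < K * S.m} = n - K * S.m := by
        rw [Nat.card_eq_fintype_card, Fintype.card_subtype]
        have h3 : (univ.filter fun u : Fin n => ¬ (u : ℕ) < K * S.m).card
            + (univ.filter fun u : Fin n => ¬ ¬ (u : ℕ) < K * S.m).card = n := by
          rw [Finset.card_filter_add_card_filter_not]
          simp
        simp only [not_not] at h3
        rw [Fin.card_filter_val_lt] at h3
        omega
      rw [← h1]
      refine Nat.card_congr (Equiv.subtypeEquivRight fun u => ?_)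
      rw [kd_eq_none, ← hK, Nat.le_div_iff_mul_le hm, not_lt]
    rw [h2]
    omega
  wninj := hwn
  wnlt := hN

/-- Instances on which the machine `M` is wrong or slow. -/
theorem exists_instance (M : TM) (k r : ℕ) (hk : 2 * (2 * r + 11) ≤ k) :
    ∃ D n₀ : ℕ, ∀ n, n₀ ≤ n → ∃ m, n ≤ D * m ∧ ∃ G H : SimpleGraph (Fin n),
      (WLEquiv k G H → ¬ ∃ t < m ^ r, ∃ c : M.Cfg,
        M.After (inputWord G H) t c ∧ M.step c = none ∧ M.accept c.state) ∧
      (¬ WLEquiv k G H → ∃ t, ∃ c : M.Cfg,
        M.After (inputWord G H) t c ∧ M.step c = none ∧ M.accept c.state) := by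
  obtain ⟨k', rfl⟩ : ∃ k', k = k' + 1 := ⟨k - 1, by omega⟩
  have : Finite M.Sym := @Finite.of_fintype _ M.symFin
  have : Finite M.State := @Finite.of_fintype _ M.stateFin
  let e : Th ≃ Fin (Nat.card Th) := Finite.equivFin Th
  obtain ⟨π, hπ, htwin⟩ := exists_twin_map (PQ r) (k := k' + 1) (by rw [card_PQ]; exact hk)
  obtain ⟨p, hp, ι, hι⟩ := exists_prime_injective
    (Rule (PF M (Nat.card Th)) (PQ r) (M.aux + 2) × Fin (M.aux + 2) × Fin (k' + 1 + 1))
  have : NeZero p := ⟨hp.ne_zero⟩
  let R := Rule (PF M (Nat.card Th)) (PQ r) (M.aux + 2)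
  have : Finite (Cls R (k' + 1) p) := inferInstance
  let wn : Cls R (k' + 1) p → ℕ := fun c => (Finite.equivFin (Cls R (k' + 1) p) c : ℕ)
  let N := Nat.card (Cls R (k' + 1) p) + 1
  have : Finite (Kind R (M.aux + 2) k' p N) := finite_kind R _ k' p N hp
  let K := Nat.card (Kind R (M.aux + 2) k' p N)
  obtain ⟨tab₀, htab₀⟩ := exists_table (k' := k') (N := N) (Prog M e r) .ini .fin π ι wn
  let tab : Th → ℕ → ℕ → Prop := fun θ x y => tab₀ θ (kd x) (kd y)
  let D := 2 * K + 2
  let m₀ := 2 * D + Nat.card Th * (K + 1) ^ 2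
  refine ⟨2 * D, D * m₀, fun n hn => ?_⟩
  let m := n / D
  have hD : 0 < D := by omega
  have hm : m₀ ≤ m := (Nat.le_div_iff_mul_le hD).mpr (by rw [mul_comm]; exact hn)
  have hm1 : 2 * D ≤ m := le_trans (by omega) hm
  have hn1 : D * m ≤ n := Nat.mul_div_le n D
  have hn2 : n < D * m + D := by
    have h1 := Nat.lt_mul_div_succ n hD
    rw [Nat.mul_add, mul_one] at h1
    exact h1
  have hn4 : n ≤ 2 * D * m := by
    have h1 : D * 1 ≤ D * m := Nat.mul_le_mul_left D (by omega)
    have h2 : 2 * D * m = D * m + D * m := by ring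
    omega
  have hn5 : n ≤ m * m := hn4.trans (Nat.mul_le_mul_right m hm1)
  have hn3 : 2 * (K * m) < n := by
    have h1 : D * m = 2 * (K * m) + 2 * m := by
      show (2 * K + 2) * m = _
      ring
    omega
  have hn0 : 0 < n := by omega
  refine ⟨m, hn4, ?_⟩
  have hS : (progSys M e r K m n π ι tab).WF :=
    progSys_wf hp (by omega) (by omega) hπ htwin hι
  have hV := vOk_of_large (N := N) (n := n) (progSys M e r K m n π ι tab) wn
    (show 0 < m by omega) (show 2 * (K * m) < n from hn3)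
    (fun a b hab => (Finite.equivFin _).injective (Fin.ext hab))
    (fun c => Nat.succ_lt_succ (Fin.isLt _))
  let κ : Fin n → Option (Kind R (M.aux + 2) k' p N) := fun u => kd (u / m : ℕ)
  let lb : Fin n → ℕ := fun u => u % m
  let G : Bool → SimpleGraph (Fin n) := fun j =>
    (progSys M e r K m n π ι tab).graph wn κ lb (chOf j)
  have hft : ∀ a, (ftOf e K m n tab a).lo = 0 ↔ a = 0 := fun a => feat_lo _ _ _ _ _ _
  have hG : TabOk e K m tab G := by
    intro j u v
    have h1 := htab₀ m (ftOf e K m n tab) hft (Fin n) κ lb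
      (fun u => Nat.mod_lt _ (by omega)) j u v
    refine h1.trans ?_
    show tab₀ _ _ _ ↔ tab₀ _ (kd (min _ K)) (kd (min _ K))
    rw [kd_min, kd_min]
  refine ⟨G false, G true, ?_, ?_⟩
  · rintro hWL ⟨t, ht, c, h1, h2, h3⟩
    have h4 := prog_complete (m := m) (M := M) (e := e) (r := r) (K := K) (tab := tab) (π := π)
      (ι := ι) (G := G) (by omega) hn0 hn5 (by omega) hG ht h1 h2 h3
    exact Sys.not_wlEquiv_of_der' hS hV h4 hWL
  · intro hWL
    by_contra hcon
    refine hWL (Sys.wlEquiv_of_not_der' hS hV fun c hc => hcon ?_)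
    exact prog_sound (m := m) (M := M) (e := e) (r := r) (K := K) (tab := tab) (π := π)
      (ι := ι) (G := G) (by omega) hn0 hn5 (by omega) hG hc

/-- The lower bound for machines that decide `k`-WL equivalence. -/
theorem lower_bound (M : TM) (k r : ℕ) (hk : 2 * (2 * r + 11) ≤ k) (T : ℕ → ℕ)
    (hT : M.DecidesWL k T) : ∃ D n₀ : ℕ, ∀ n, n₀ ≤ n → n ^ r ≤ D ^ r * T n := by
  obtain ⟨D, n₀, h⟩ := exists_instance M k r hk
  refine ⟨D, n₀, fun n hn => ?_⟩
  obtain ⟨m, hm, G, H, h1, h2⟩ := h n hn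
  have h0 : m ^ r ≤ T n := by
    obtain ⟨t, ht, c, h3, h4, h5⟩ := hT n G H
    by_contra hcon
    by_cases hWL : WLEquiv k G H
    · exact h1 hWL ⟨t, by omega, c, h3, h4, h5.mpr hWL⟩
    · obtain ⟨t', c', h6, h7, h8⟩ := h2 hWL
      have h9 := halt_unique h3 h4 h6 h7
      subst h9
      exact hWL (h5.mp h8)
  calc n ^ r ≤ (D * m) ^ r := Nat.pow_le_pow_left hm r
    _ = D ^ r * m ^ r := Nat.mul_pow D m r
    _ ≤ D ^ r * T n := Nat.mul_le_mul_left _ h0

end Vale.Agent.P310.V2

/-!
Asymptotic forms of the lower bound.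
-/

namespace Vale.Agent.P310.V2

open Filter Asymptotics

/-! ### The machine has to read its input -/

/-- Two configurations that agree on all cells below `L`. -/
structure Agree {M : TM} (L : ℤ) (t : ℕ) (c c' : M.Cfg) : Prop where
  state : c.state = c'.state
  head : ∀ j, c.head j = c'.head j
  le : ∀ j, c.head j ≤ t
  tape : ∀ j x, x < L → c.tape j x = c'.tape j x

theorem Agree.read {M : TM} {L : ℤ} {t : ℕ} {c c' : M.Cfg} (h : Agree L t c c') (ht : t < L) :
    (fun j => c'.tape j (c'.head j)) = fun j => c.tape j (c.head j) := by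
  funext j
  rw [← h.head j]
  exact (h.tape j _ (lt_of_le_of_lt (h.le j) ht)).symm

theorem disp_le (d : Move) : d.disp ≤ 1 := by
  cases d <;> simp [Move.disp]

theorem exists_agree {M : TM} {w w' : List Bool} {L : ℕ}
    (hw : ∀ i, i < L → w[i]? = w'[i]?) {t : ℕ} (ht : t ≤ L) {c : M.Cfg} (h : M.After w t c) :
    ∃ c', M.After w' t c' ∧ Agree L t c c' := by
  induction h with
  | zero =>
    refine ⟨M.init w', .zero, rfl, fun _ => rfl, fun _ => le_rfl, fun j x hx => ?_⟩
    simp only [TM.init]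
    by_cases h : j = 0 ∧ 0 ≤ x
    · rw [if_pos h, if_pos h, hw _ (by omega)]
    · rw [if_neg h, if_neg h]
  | @succ t c d h1 h2 ih =>
    obtain ⟨c', h3, h4⟩ := ih (by omega)
    have h5 := h4.read (by omega)
    simp only [TM.step, Option.map_eq_some_iff] at h2
    obtain ⟨a, ha, rfl⟩ := h2
    refine ⟨{ state := a.1
              head := fun j => c'.head j + (a.2 j).2.disp
              tape := fun j => Function.update (c'.tape j) (c'.head j) (a.2 j).1 },
      .succ h3 ?_, ?_⟩
    · simp only [TM.step, h5, ← h4.state, ha, Option.map_some]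
    · refine ⟨rfl, fun j => ?_, fun j => ?_, fun j x hx => ?_⟩
      · show _ = c'.head j + _
        rw [← h4.head j]
      · show c.head j + (a.2 j).2.disp ≤ _
        have := h4.le j
        have := disp_le (a.2 j).2
        push_cast
        omega
      · show Function.update (c.tape j) (c.head j) _ x = Function.update (c'.tape j) _ _ x
        rw [← h4.head j]
        by_cases hx' : x = c.head j
        · subst hx'
          simp
        · rw [Function.update_of_ne hx', Function.update_of_ne hx']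
          exact h4.tape j x hx

/-- A machine that decides `k`-WL equivalence has to read the second matrix. -/
theorem sq_le_time (M : TM) (k : ℕ) (hk : 2 ≤ k) (T : ℕ → ℕ) (hT : M.DecidesWL k T) (n : ℕ)
    (hn : 2 ≤ n) : n * n ≤ T n := by
  by_contra hcon
  let a : Fin n := ⟨0, by omega⟩
  let b : Fin n := ⟨1, by omega⟩
  have hab : a ≠ b := fun h => by simpa [a, b] using congrArg Fin.val h
  let H : SimpleGraph (Fin n) := ⊤
  obtain ⟨t, ht, c, h1, h2, h3⟩ := hT n ⊥ ⊥
  obtain ⟨c', h4, h5⟩ := exists_agree (w' := inputWord ⊥ H) (L := n * n)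
    (fun i hi => by
      have hl : i < (matrixBits (⊥ : SimpleGraph (Fin n))).length := by
        simpa [matrixBits] using hi
      unfold inputWord
      rw [List.getElem?_append_left hl, List.getElem?_append_left hl]) (by omega) h1
  have h6 := h5.read (by omega)
  have h7 : M.step c' = none := by
    simp only [TM.step, Option.map_eq_none_iff] at h2 ⊢
    rw [h6, ← h5.state]
    exact h2
  obtain ⟨t'', ht'', c'', h8, h9, h10⟩ := hT n ⊥ H
  have h11 := halt_unique h4 h7 h8 h9
  subst h11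
  have h12 : M.accept c.state := h3.mpr fun r => rfl
  rw [h5.state] at h12
  have h13 : WLEquiv k ⊥ H := h10.mp h12
  have h14 : WLEquiv k H (⊥ : SimpleGraph (Fin n)) := fun r => (h13 r).symm
  obtain ⟨y, hy⟩ := h14.exists_same (fun i => if (i : ℕ) = 0 then a else b)
  have h15 := hy.adj_iff (⟨0, by omega⟩ : Fin k) (⟨1, by omega⟩ : Fin k)
  simp [H, hab] at h15

/-! ### Asymptotics -/

/-- The exponent of the lower bound. -/
theorem isBigO_time (k : ℕ) (hk : 2 ≤ k) (M : TM) (T : ℕ → ℕ) (hT : M.DecidesWL k T) :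
    (fun n : ℕ => (n : ℝ) ^ max 2 ((k - 22) / 4)) =O[atTop] fun n => (T n : ℝ) := by
  rcases le_total ((k - 22) / 4) 2 with h | h
  · rw [max_eq_left h]
    refine IsBigO.of_bound 1 ?_
    filter_upwards [eventually_ge_atTop 2] with n hn
    rw [one_mul, Real.norm_of_nonneg (by positivity), Real.norm_of_nonneg (by positivity), sq]
    exact_mod_cast sq_le_time M k hk T hT n hn
  · rw [max_eq_right h]
    obtain ⟨D, n₀, h1⟩ := lower_bound M k ((k - 22) / 4) (by omega) T hT
    refine IsBigO.of_bound ((D : ℝ) ^ ((k - 22) / 4)) ?_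
    filter_upwards [eventually_ge_atTop n₀] with n hn
    rw [Real.norm_of_nonneg (by positivity), Real.norm_of_nonneg (by positivity)]
    exact_mod_cast h1 n hn

/-- The time to decide `k`-WL equivalence grows faster than `n ^ (k / 17)`. -/
theorem isLittleO_time (k : ℕ) (hk : 2 ≤ k) (M : TM) (T : ℕ → ℕ) (hT : M.DecidesWL k T) :
    (fun n : ℕ => (n : ℝ) ^ ((k : ℝ) / 17)) =o[atTop] fun n => (T n : ℝ) := by
  have hlt : (k : ℝ) / 17 < ((max 2 ((k - 22) / 4) : ℕ) : ℝ) := by
    have h1 : k < 17 * max 2 ((k - 22) / 4) := by omega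
    have h2 : (k : ℝ) < 17 * ((max 2 ((k - 22) / 4) : ℕ) : ℝ) := by exact_mod_cast h1
    linarith
  have h2 : (fun x : ℝ => x ^ ((k : ℝ) / 17)) =o[atTop]
      fun x : ℝ => x ^ (max 2 ((k - 22) / 4) : ℕ) := by
    refine (isLittleO_iff_tendsto' ?_).mpr ?_
    · filter_upwards [eventually_gt_atTop 0] with x hx h0
      exact absurd h0 (pow_pos hx _).ne'
    · refine (tendsto_rpow_neg_atTop (sub_pos.mpr hlt)).congr' ?_
      filter_upwards [eventually_gt_atTop 0] with x hx
      rw [← Real.rpow_natCast, ← Real.rpow_sub hx]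
      congr 1
      ring
  exact (h2.comp_tendsto tendsto_natCast_atTop_atTop).trans_isBigO (isBigO_time k hk M T hT)

/-- The time to decide `k`-WL equivalence is at least `n ^ (k / 17)` for all large `n`. -/
theorem eventually_rpow_le (k : ℕ) (hk : 2 ≤ k) (M : TM) (T : ℕ → ℕ) (hT : M.DecidesWL k T) :
    ∀ᶠ n : ℕ in atTop, (n : ℝ) ^ ((k : ℝ) / 17) ≤ T n := by
  filter_upwards [(isLittleO_time k hk M T hT).def (show (0 : ℝ) < 1 by norm_num)] with n hn
  rwa [one_mul, Real.norm_of_nonneg (by positivity), Real.norm_of_nonneg (by positivity)] at hn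

/-- The time to decide `k`-WL equivalence is not `O(n ^ (k / 17))`. -/
theorem not_isBigO (k : ℕ) (hk : 2 ≤ k) (M : TM) (T : ℕ → ℕ) (hT : M.DecidesWL k T) :
    ¬ (fun n => (T n : ℝ)) =O[atTop] fun n : ℕ => (n : ℝ) ^ ((k : ℝ) / 17) := by
  intro h
  refine isLittleO_irrefl ?_ ((isLittleO_time k hk M T hT).trans_isBigO h)
  refine Eventually.frequently ?_
  filter_upwards [eventually_gt_atTop 0] with n hn
  exact (Real.rpow_pos_of_pos (by exact_mod_cast hn) _).ne'

/-- There is no sublinear exponent. -/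
theorem not_exists_littleO : ¬ ∃ g : ℕ → ℝ, g =o[atTop] (fun k : ℕ => (k : ℝ)) ∧
    ∀ k : ℕ, 2 ≤ k → ∃ (M : TM) (T : ℕ → ℕ), M.DecidesWL k T ∧
      (fun n => (T n : ℝ)) =O[atTop] fun n : ℕ => (n : ℝ) ^ g k := by
  rintro ⟨g, hg, h⟩
  have h1 := (hg.def (show (0 : ℝ) < 1 / 17 by norm_num)).and (eventually_ge_atTop 2)
  obtain ⟨k, h2, h3⟩ := h1.exists
  obtain ⟨M, T, h4, h5⟩ := h k h3
  refine not_isBigO k h3 M T h4 (h5.trans ?_)
  refine IsBigO.of_bound 1 ?_
  filter_upwards [eventually_ge_atTop 1] with n hn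
  rw [one_mul, Real.norm_of_nonneg (by positivity), Real.norm_of_nonneg (by positivity)]
  refine Real.rpow_le_rpow_of_exponent_le (by exact_mod_cast hn) ?_
  rw [Real.norm_of_nonneg (by positivity : (0 : ℝ) ≤ (k : ℝ))] at h2
  calc g k ≤ ‖g k‖ := Real.le_norm_self _
    _ ≤ 1 / 17 * k := h2
    _ = (k : ℝ) / 17 := by ring

end Vale.Agent.P310.V2
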